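import Vale.Agent.P307.R2.H606.SpA
import Vale.Agent.P307.R2.H366.SpB

set_option linter.unusedSectionVars false

universe u v w

open Cardinal Set

namespace Vale.Agent.P307.R2.H301

open Vale.Agent.P307

/-- The sequence `w` of tuples converges to cuts of `Y`, with a constant pattern. -/
structure Conv {ρ : Cardinal.{u}} {I Q : Type u} [LinearOrder I] (w : SuccTy ρ → Q → I)
    (Y : Set I) : Prop where
  conv : ∀ q, ∀ y ∈ Y, ∃ j₀, ∀ j, j₀ ≤ j → (w j q ≤ y ↔ w j₀ q ≤ y) ∧ (y ≤ w j q ↔ y ≤ w j₀ q)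
  pat : ∀ j j' q q', w j q ≤ w j q' ↔ w j' q ≤ w j' q'

/-- The pattern of `v` over `Y` is the limit of the patterns of `w`. -/
structure LimPat {ρ : Cardinal.{u}} {I Q : Type u} [LinearOrder I] (w : SuccTy ρ → Q → I)
    (Y : Set I) (v : Q → I) : Prop where
  conv : ∀ q, ∀ y ∈ Y, ∃ j₀, ∀ j, j₀ ≤ j → (w j q ≤ y ↔ v q ≤ y) ∧ (y ≤ w j q ↔ y ≤ v q)
  pat : ∀ j q q', w j q ≤ w j q' ↔ v q ≤ v q'

/-- Sequences from small sets have subsequences with limits in `J`. -/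
def Sp (ρ μ : Cardinal.{u}) (J : Type u) [LinearOrder J] : Prop :=
  ∀ (Y : Set J), #Y ≤ μ → ∀ (Q : Type u) [Finite Q] (w : SuccTy ρ → Q → J), (∀ j q, w j q ∈ Y) →
    ∃ g : SuccTy ρ → SuccTy ρ, StrictMono g ∧ ∃ v : Q → J, LimPat (fun j => w (g j)) Y v

/-- Thinning in well-orders. -/
theorem exists_conv {ρ : Cardinal.{u}} (hρ : ℵ₀ ≤ ρ) {I Q : Type u} [LinearOrder I]
    [WellFoundedLT I] [Finite Q] (w : SuccTy ρ → Q → I) :
    ∃ g : SuccTy ρ → SuccTy ρ, StrictMono g ∧ Conv (fun j => w (g j)) univ := by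
  obtain ⟨g, hg, h1, h2⟩ := H606.conv_aux hρ w
  exact ⟨g, hg, ⟨fun q y _ => h1 q y, h2⟩⟩

/-- Limits exist in nice orders. -/
theorem exists_limPat {ρ μ : Cardinal.{u}} (hμ : ℵ₀ ≤ μ) {J Q : Type u} [LinearOrder J]
    [Finite Q] (hJ : Nice μ J) {Y : Set J} (hY : #Y ≤ μ) {w : SuccTy ρ → Q → J}
    (hw : Conv w Y) (hρ : ℵ₀ ≤ ρ) : ∃ v : Q → J, LimPat w Y v := by
  obtain ⟨v, h1, h2⟩ := H606.limPat_aux hμ hρ hJ hY hw.conv hw.pat
  exact ⟨v, ⟨h1, h2⟩⟩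

/-- Special orders exist in all large sizes. -/
theorem exists_sp {ρ μ κ : Cardinal.{u}} (hρ : ℵ₀ ≤ ρ) (hμ : Order.succ ρ ≤ μ)
    (hκ : Order.succ μ ≤ κ) : ∃ (J : Type u) (_ : LinearOrder J), #J = κ ∧ Sp ρ μ J := by
  obtain ⟨J, _, hJ, h⟩ := H366.exists_special hρ hμ hκ
  refine ⟨J, inferInstance, hJ, fun Y hY Q _ w hw => ?_⟩
  obtain ⟨g, hg, v, h1, h2⟩ := h Y hY Q w hw
  exact ⟨g, hg, v, ⟨h1, h2⟩⟩

end Vale.Agent.P307.R2.H301
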