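import Vale.Agent.P307.R2.H301.Lim
import Vale.Agent.P307.R2.H301.Sp

set_option linter.unusedSectionVars false

universe u v w

open FirstOrder Cardinal Set

namespace Vale.Agent.P307.R2.H301

open Vale.Agent.P307 Vale.Agent.P307.H304 Vale.Agent.P307.R2.H287 Language.Structure
  Language.Substructure

section comb

/-- Strictly increasing enumeration of an unbounded colour class. -/
theorem exists_mono_color {ρ : Cardinal.{u}} (hρ : ℵ₀ ≤ ρ) {T : Type u} (hT : #T ≤ ρ)
    (f : SuccTy ρ → T) : ∃ g : SuccTy ρ → SuccTy ρ, StrictMono g ∧ ∃ t, ∀ j, f (g j) = t := by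
  obtain ⟨t, ht⟩ := exists_unbounded_color hρ hT f
  have h1 : ∀ (x : SuccTy ρ) (r : ∀ y : SuccTy ρ, y < x → SuccTy ρ),
      ∃ z : SuccTy ρ, f z = t ∧ ∀ y (hy : y < x), r y hy < z := by
    intro x r
    obtain ⟨z, hz⟩ := exists_gt_of_small hρ (range fun y : Iio x => r y.1 y.2)
      (mk_range_le.trans (mk_Iio_succTy x))
    obtain ⟨i, hi, hit⟩ := ht z
    exact ⟨i, hit, fun y hy => (hz _ ⟨⟨y, hy⟩, rfl⟩).trans hi⟩
  choose F hF using h1
  let g : SuccTy ρ → SuccTy ρ := WellFounded.fix (r := (· < ·)) wellFounded_lt F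
  have hg : ∀ x, g x = F x fun y _ => g y := fun x => WellFounded.fix_eq _ _ x
  refine ⟨g, fun x y hxy => ?_, t, fun x => ?_⟩
  · rw [hg y]
    exact (hF y fun z _ => g z).2 x hxy
  · rw [hg x]
    exact (hF x _).1

/-- A countable cofinal sequence. -/
theorem exists_cofinal_nat {θ : Cardinal.{u}} (h0 : ℵ₀ ≤ θ) (hθ : θ.ord.cof = ℵ₀) :
    ∃ z : ℕ → θ.ord.ToType, Monotone z ∧ ∀ x, ∃ n, x < z n := by
  obtain ⟨s, hs, hsc⟩ := Order.exists_cof_eq θ.ord.ToType
  rw [Ordinal.cof_toType, hθ] at hsc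
  have hs0 : s.Nonempty := by
    rw [nonempty_iff_ne_empty]
    rintro rfl
    rw [mk_eq_zero] at hsc
    exact aleph0_ne_zero hsc.symm
  have hscount : s.Countable := by
    rw [← le_aleph0_iff_set_countable, hsc]
  obtain ⟨f, hf⟩ := hscount.exists_eq_range hs0
  have hmax : NoMaxOrder θ.ord.ToType := by
    refine ⟨fun a => ?_⟩
    have h2 := mk_Iio_lt a (by simp only [mk_toType, card_ord, Ordinal.type_toType])
    rw [mk_ord_toType] at h2
    have h3 : #(Iic a) < #θ.ord.ToType := by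
      rw [← Iio_insert, mk_ord_toType]
      exact mk_insert_le.trans_lt (add_lt_of_lt h0 h2 (one_lt_aleph0.trans_le h0))
    by_contra hcon
    push Not at hcon
    have h4 : Iic a = Set.univ := eq_univ_of_forall hcon
    rw [h4, mk_univ] at h3
    exact lt_irrefl _ h3
  refine ⟨partialSups f, (partialSups f).monotone, fun x => ?_⟩
  obtain ⟨x', hx'⟩ := exists_gt x
  obtain ⟨y, hy, hxy⟩ := hs x'
  rw [hf] at hy
  obtain ⟨n, rfl⟩ := hy
  exact ⟨n, hx'.trans_le (hxy.trans (le_partialSups f n))⟩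

end comb

variable {L : Language.{u, u}} {X : Ctx L} {θ : Cardinal.{u}}
variable {M N P : Type u} [L.Structure M] [L.Structure N] [L.Structure P]

namespace Ctx

/-- Limits of sequences of EM elements. -/
theorem real (hθ : X.Adm θ) {J : Type u} [LinearOrder J] (B : EM X.t J) (hJ : θ ≤ #J)
    {ρ : Cardinal.{u}} (hl : X.l ≤ ρ) (hρ : ρ < θ) {Q : Type u} [Finite Q]
    (τ : (exLang L X.t.Λ).Term Q) {w : SuccTy ρ → Q → J} {Y : Set J} {v : Q → J}
    (hv : LimPat w Y v) {ι : Type u} (hι : #ι ≤ ρ) (D : ι → B.N)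
    (hD : ∀ a, D a ∈ closure (exLang L X.t.Λ) (B.c '' Y)) : ∃ j₀, ∀ j, j₀ ≤ j →
      X.E θ (adj D (τ.realize fun q => B.c (w j q))) (adj D (τ.realize fun q => B.c (v q))) := by
  classical
  have h0 : ℵ₀ ≤ ρ := X.hK.1.trans hl
  -- terms for the elements of `D`
  have h1 : ∀ a, ∃ t : (exLang L X.t.Λ).Term Y, t.realize (fun y : Y => B.c y) = D a := by
    intro a
    have h2 := hD a
    rw [image_eq_range] at h2
    exact Gr.mem_closure_range.1 h2
  choose t ht using h1
  -- the points used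
  let V : Type u := Σ a : ι, {y : Y // y ∈ (t a).varFinset}
  have hV : #V ≤ ρ := by
    rw [mk_sigma]
    refine (sum_le_sum _ (fun _ => ρ) fun a => ((lt_aleph0_of_finite _).le).trans h0).trans ?_
    rw [sum_const', ]
    exact (mul_le_mul' hι le_rfl).trans_eq (mul_eq_self h0)
  have hQ : #Q ≤ ρ := (lt_aleph0_of_finite Q).le.trans h0
  -- a common bound
  choose f hf using hv.conv
  obtain ⟨j₀, hj₀⟩ := exists_gt_of_small h0 (range fun p : V × Q => f p.2 p.1.2.1.1 p.1.2.1.2)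
    (mk_range_le.trans (by
      rw [mk_prod, lift_id, lift_id]
      exact (mul_le_mul' hV hQ).trans_eq (mul_eq_self h0)))
  refine ⟨j₀, fun j hj => ?_⟩
  have hf' : ∀ (p : V) (q : Q), (w j q ≤ p.2.1.1 ↔ v q ≤ p.2.1.1) ∧
      (p.2.1.1 ≤ w j q ↔ p.2.1.1 ≤ v q) := fun p q =>
    hf q p.2.1.1 p.2.1.2 j (((hj₀ _ ⟨(p, q), rfl⟩).le).trans hj)
  let s : ι ⊕ PUnit.{u + 1} → (exLang L X.t.Λ).Term (V ⊕ Q) :=
    Sum.elim (fun a => (t a).restrictVar fun y => Sum.inl ⟨a, y.1, y.2⟩)
      fun _ => τ.relabel Sum.inr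
  have key : ∀ v' : Q → J, (fun a => (s a).realize fun q => B.c
      ((Sum.elim (fun p : V => (p.2.1.1 : J)) v' : V ⊕ Q → J) q)) =
      adj D (τ.realize fun q => B.c (v' q)) := by
    intro v'
    funext a
    rcases a with a | a
    · change ((t a).restrictVar fun y => (Sum.inl ⟨a, y.1, y.2⟩ : V ⊕ Q)).realize _ = D a
      rw [← ht a]
      exact Language.Term.realize_restrictVar (v := fun q => B.c
        ((Sum.elim (fun p : V => (p.2.1.1 : J)) v' : V ⊕ Q → J) q)) (fun y : Y => B.c y)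
        fun _ => rfl
    · change (τ.relabel Sum.inr).realize _ = τ.realize _
      rw [Language.Term.realize_relabel]
      rfl
  have h3 := E.of_pattern hθ B B hJ hJ (ι := ι ⊕ PUnit.{u + 1}) (Q := V ⊕ Q) (by
      rw [mk_sum, lift_id, lift_id]
      exact (add_le_of_le h0 hι (by simpa using (one_le_aleph0.trans h0))).trans_lt hρ) (by
      rw [mk_sum, lift_id, lift_id]
      exact (add_le_of_le h0 hV hQ).trans_lt hρ) s
    (Sum.elim (fun p : V => (p.2.1.1 : J)) (w j)) (Sum.elim (fun p : V => (p.2.1.1 : J)) v) (by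
      rintro (p | p) (q | q)
      · exact Iff.rfl
      · exact (hf' p q).2
      · exact (hf' q p).1
      · exact hv.pat j p q)
  rw [key, key] at h3
  exact h3

/-- A standard presentation of the type of `b` over the EM model `A` of the order `θ`. -/
structure SRep (X : Ctx L) (θ χ : Cardinal.{u}) (A : EM X.t θ.ord.ToType) {N : Type u}
    [L.Structure N] (i : A.N ↪[L] N) (b : N) where
  ρ : Cardinal.{u}
  Q : Type u
  [fin : Finite Q]
  τ : (exLang L X.t.Λ).Term Q
  w : SuccTy ρ → Q → θ.ord.ToType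
  hχ : χ ≤ ρ
  hρ : ρ < θ
  conv : Conv w Set.univ
  bdd : ∃ ζ, ∀ j q, w j q < ζ
  lim : X.LimSeq θ χ (fun j => τ.realize fun q => A.c (w j q)) i b

attribute [instance] SRep.fin

theorem LimSeq.comp {χ ρ : Cardinal.{u}} {e : SuccTy ρ → M} {i : M ↪[L] N} {b : N}
    (h : X.LimSeq θ χ e i b) {g : SuccTy ρ → SuccTy ρ} (hg : StrictMono g) :
    X.LimSeq θ χ (fun j => e (g j)) i b := by
  intro D hD
  obtain ⟨j₀, hj₀⟩ := h D hD
  exact ⟨j₀, fun j hj => hj₀ (g j) (hj.trans hg.le_apply)⟩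

theorem exists_srep (hθ : X.Adm1 θ) {χ : Cardinal.{u}} (hl : X.l ≤ χ) (hχ : χ < θ)
    (A : EM X.t θ.ord.ToType) (i : A.N ↪[L] N) (hi : X.K.Emb i) (b : N) :
    Nonempty (SRep X θ χ A i b) := by
  classical
  have hA : θ ≤ #A.N := by
    have h1 := A.le_card
    rwa [mk_ord_toType] at h1
  obtain ⟨e, he⟩ := lim hθ hl hχ i hi hA b
  have hρ : ℵ₀ ≤ X.rho χ := (X.hK.1.trans hl).trans (X.le_rho χ)
  have hlρ : X.l ≤ X.rho χ := hl.trans (X.le_rho χ)
  obtain ⟨z, hz, hz'⟩ := exists_cofinal_nat hθ.toAdm.aleph0_lt.le hθ.cof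
  -- codes
  have h1 : ∀ j, ∃ (n : ℕ) (k : ℕ) (s : (exLang L X.t.Λ).Term (ULift.{u} (Fin n)))
      (w : ULift.{u} (Fin n) → θ.ord.ToType), s.realize (fun q => A.c (w q)) = e j ∧
      ∀ q, w q < z k := by
    intro j
    obtain ⟨V, s, hs⟩ := exists_finset_term A.top (e j)
    let w : ULift.{u} (Fin V.card) → θ.ord.ToType := fun q => (V.equivFin.symm q.down).1
    choose kf hkf using fun q => hz' (w q)
    obtain ⟨k, hk⟩ : ∃ k, ∀ q, kf q ≤ k := by
      obtain ⟨k, hk⟩ := (Set.finite_range kf).bddAbove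
      exact ⟨k, fun q => hk ⟨q, rfl⟩⟩
    refine ⟨V.card, k, s.relabel fun d => ULift.up (V.equivFin d), w, ?_, fun q =>
      (hkf q).trans_le (hz (hk q))⟩
    rw [Language.Term.realize_relabel, ← hs]
    congr 1
    funext d
    change A.c ((V.equivFin.symm (V.equivFin d)).1) = _
    rw [Equiv.symm_apply_apply]
  choose n k s w hw hwz using h1
  let T : Type u := Σ p : ULift.{u} (ℕ × ℕ), (exLang L X.t.Λ).Term (ULift.{u} (Fin p.down.1))
  have hT : #T ≤ X.rho χ := by
    rw [mk_sigma]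
    refine (sum_le_sum _ (fun _ => X.rho χ) fun p => mk_term_le hρ (X.t.hx.trans hlρ) _
      ((lt_aleph0_of_finite _).le.trans hρ)).trans ?_
    rw [sum_const', ]
    refine (mul_le_mul' ?_ le_rfl).trans_eq (mul_eq_self hρ)
    exact (mk_le_aleph0).trans hρ
  obtain ⟨g, hg, ⟨⟨n₀, k₀⟩, s₀⟩, ht⟩ := exists_mono_color hρ hT
    (fun j => (⟨⟨(n j, k j)⟩, s j⟩ : T))
  have h2 : ∀ j, ∃ w' : ULift.{u} (Fin n₀) → θ.ord.ToType,
      s₀.realize (fun q => A.c (w' q)) = e (g j) ∧ ∀ q, w' q < z k₀ := by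
    intro j
    have h3 := ht j
    have h4 := hw (g j)
    have h5 := hwz (g j)
    revert h3 h4 h5
    generalize s (g j) = s'
    generalize w (g j) = w'
    revert s' w'
    generalize n (g j) = n'
    generalize k (g j) = k'
    intro s' w' h3 h4 h5
    cases h3
    exact ⟨w', h4, h5⟩
  choose w' hw' hwz' using h2
  obtain ⟨g', hg', hconv⟩ := exists_conv hρ w'
  refine ⟨{ ρ := X.rho χ, Q := ULift.{u} (Fin n₀), τ := s₀, w := fun j => w' (g' j),
            hχ := X.le_rho χ, hρ := rho_lt hθ hχ, conv := hconv,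
            bdd := ⟨z k₀, fun j q => hwz' (g' j) q⟩, lim := ?_ }⟩
  have h6 : (fun j => s₀.realize fun q => A.c (w' (g' j) q)) = fun j => e (g (g' j)) := by
    funext j
    exact hw' (g' j)
  rw [h6]
  exact he.comp (hg.comp hg')

/-- The realization of the type given by a standard presentation. -/
theorem SRep.se (hθ : X.Adm1 θ) {χ : Cardinal.{u}} (hl : X.l ≤ χ) {A : EM X.t θ.ord.ToType}
    {i : A.N ↪[L] N} {b : N} (R : SRep X θ χ A i b) (hi : X.K.Emb i) {J : Type u} [LinearOrder J]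
    (B : EM X.t J) (σ : θ.ord.ToType → J) (hσ : StrictMono σ) (f : A.N ↪[L] B.N)
    (hf : ∀ s : (exLang L X.t.Λ).Term θ.ord.ToType,
      f (s.realize A.c) = s.realize fun i => B.c (σ i))
    (v : R.Q → J) (hv : LimPat (fun j q => σ (R.w j q)) (range σ) v) :
    X.SE θ χ i b f (R.τ.realize fun q => B.c (v q)) := by
  have hA : θ ≤ #A.N := by
    have h1 := A.le_card
    rwa [mk_ord_toType] at h1
  have hJ : θ ≤ #J := by
    have h1 := mk_le_of_injective hσ.injective
    rwa [mk_ord_toType] at h1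
  -- `f` is strong
  have hfK : X.K.Emb f := by
    obtain ⟨f', hf', hf''⟩ := A.exists_map B σ hσ
    have h1 : f = f' := by
      ext x
      have h2 : x ∈ closure (exLang L X.t.Λ) (range A.c) := by rw [A.top]; trivial
      obtain ⟨s, rfl⟩ := Gr.mem_closure_range.1 h2
      rw [hf, hf'']
    rw [h1]
    exact hf'
  intro D hD
  obtain ⟨j₀, hj₀⟩ := R.lim D hD
  have hmem : ∀ d : D, f d ∈ closure (exLang L X.t.Λ) (B.c '' range σ) := by
    intro d
    have h2 : (d : A.N) ∈ closure (exLang L X.t.Λ) (range A.c) := by rw [A.top]; trivial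
    obtain ⟨s, hs⟩ := Gr.mem_closure_range.1 h2
    rw [← hs, hf, ← range_comp]
    exact Gr.mem_closure_range.2 ⟨s, rfl⟩
  obtain ⟨j₁, hj₁⟩ := real hθ.toAdm B hJ (hl.trans R.hχ) R.hρ R.τ hv (hD.trans R.hχ)
    (fun d : D => f d) hmem
  have h1 := hj₀ (max j₀ j₁) (le_max_left _ _)
  have h2 := hj₁ (max j₀ j₁) (le_max_right _ _)
  have h3 := E.of_emb hθ.toAdm f hfK hA (adj (fun d : D => (d : A.N))
    (R.τ.realize fun q => A.c (R.w (max j₀ j₁) q)))
  have h4 : (fun a => f (adj (fun d : D => (d : A.N))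
      (R.τ.realize fun q => A.c (R.w (max j₀ j₁) q)) a)) =
      adj (fun d : D => f d) (R.τ.realize fun q => B.c (σ (R.w (max j₀ j₁) q))) := by
    funext a
    rcases a with a | a
    · rfl
    · change f (R.τ.realize fun q => A.c (R.w (max j₀ j₁) q)) = _
      have h5 := hf (R.τ.relabel (R.w (max j₀ j₁)))
      rw [Language.Term.realize_relabel, Language.Term.realize_relabel] at h5
      exact h5
  rw [h4] at h3
  exact h1.symm.trans (h3.trans h2)

end Ctx

end Vale.Agent.P307.R2.H301
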