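import Vale.Agent.P307.R2.H287.Unif2

universe u v w

open FirstOrder Cardinal Set

namespace Vale.Agent.P307.R2.H301

open Vale.Agent.P307 Vale.Agent.P307.H304 Vale.Agent.P307.R2.H287 Language.Structure
  Language.Substructure

variable {L : Language.{u, u}}

/-- `K` admits intersections over sets of size at least `x`. -/
def Inter (K : AEC L) (x : Cardinal.{u}) : Prop :=
  ∀ (N : Type u) [L.Structure N], K.mem N → ∀ A : Set N, x ≤ #A →
    K.le (sInf {S : L.Substructure N | K.le S ∧ A ⊆ S})

/-- The closure of `A`. -/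
def cl (K : AEC L) {N : Type u} [L.Structure N] (A : Set N) : L.Substructure N :=
  sInf {S : L.Substructure N | K.le S ∧ A ⊆ S}

/-- The function `f` restricts to an isomorphism from `S` onto `T`. -/
def IsoS {M N : Type u} [L.Structure M] [L.Structure N] (f : M → N) (S : L.Substructure M)
    (T : L.Substructure N) : Prop :=
  ∃ e : S ≃[L] T, ∀ x : S, f x = e x

/-- The data fixed throughout. -/
structure Ctx (L : Language.{u, u}) where
  K : AEC L
  l : Cardinal.{u}
  κf : Cardinal.{u} → Cardinal.{u}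
  α : Cardinal.{u} → Cardinal.{u}
  hK : K.IsLS l
  hunb : ∀ ν, ν < κf ν ∧ K.CategoricalIn (κf ν)
  hα : Stab K l α (thr κf)
  t : Tpl K l
  hI : Inter K l

namespace Ctx

variable (X : Ctx L)

/-- Admissible cardinals. -/
structure Adm (θ : Cardinal.{u}) : Prop where
  lt : X.l < θ
  cof : θ.ord.cof = ℵ₀
  α : ∀ ρ < θ, X.α ρ < θ
  thr : ∀ ρ < θ, thr X.κf ρ < θ
  pow : ∀ ρ < θ, (2 : Cardinal.{u}) ^ ρ < θ

/-- Members of size at least `θ`. -/
def Big (θ : Cardinal.{u}) (M : Type u) [L.Structure M] : Prop := X.K.mem M ∧ θ ≤ #M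

/-- Equality of small types: all levels below `θ`. -/
def E (θ : Cardinal.{u}) {M N : Type u} [L.Structure M] [L.Structure N] {ι : Type u}
    (x : ι → M) (y : ι → N) : Prop :=
  ∀ ν, X.l ≤ ν → ν < θ → #ι ≤ ν → EqS L ν x y

/-- The small type of `b` together with a family `x`. -/
abbrev adj {N : Type u} {ι : Type u} (x : ι → N) (b : N) : ι ⊕ PUnit.{u + 1} → N :=
  Sum.elim x fun _ => b

/-- `b` and `b'` have the same types over all subsets of `M` of size at most `χ`. -/
def SE (θ χ : Cardinal.{u}) {M N N' : Type u} [L.Structure M] [L.Structure N] [L.Structure N']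
    (i : M ↪[L] N) (b : N) (j : M ↪[L] N') (b' : N') : Prop :=
  ∀ D : Set M, #D ≤ χ → X.E θ (adj (fun d : D => i d) b) (adj (fun d : D => j d) b')

/-- `b` and `b'` have the same Galois type over `M`. -/
def GE {M N N' : Type u} [L.Structure M] [L.Structure N] [L.Structure N']
    (i : M ↪[L] N) (b : N) (j : M ↪[L] N') (b' : N') : Prop :=
  ∃ f : N → N', IsoS f (cl X.K (insert b (range i))) (cl X.K (insert b' (range j))) ∧
    (∀ m, f (i m) = j m) ∧ f b = b'

/-- The sequence `e` converges to `b` over the subsets of `M` of size at most `χ`. -/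
def LimSeq (θ χ : Cardinal.{u}) {ρ : Cardinal.{u}} {M N : Type u} [L.Structure M] [L.Structure N]
    (e : SuccTy ρ → M) (i : M ↪[L] N) (b : N) : Prop :=
  ∀ D : Set M, #D ≤ χ → ∃ j₀, ∀ j, j₀ ≤ j →
    X.E θ (adj (fun d : D => (d : M)) (e j)) (adj (fun d : D => i d) b)

end Ctx

end Vale.Agent.P307.R2.H301
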