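import Vale.Agent.P307.R2.H301.Typ

set_option linter.unusedSectionVars false

universe u v w

open FirstOrder Cardinal Set

namespace Vale.Agent.P307.R2.H301

open Vale.Agent.P307 Vale.Agent.P307.H304 Vale.Agent.P307.R2.H287 Language.Structure
  Language.Substructure

variable {L : Language.{u, u}} {X : Ctx L} {θ : Cardinal.{u}}
variable {M N P : Type u} [L.Structure M] [L.Structure N] [L.Structure P]

/-! Isomorphisms of substructures given by functions. -/

theorem IsoS.id (S : L.Substructure M) : IsoS (fun x : M => x) S S :=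
  ⟨Language.Equiv.refl L S, fun _ => rfl⟩

theorem IsoS.comp {f : M → N} {g : N → P} {S : L.Substructure M} {T : L.Substructure N}
    {U : L.Substructure P} (hg : IsoS g T U) (hf : IsoS f S T) : IsoS (g ∘ f) S U := by
  obtain ⟨e, he⟩ := hf
  obtain ⟨e', he'⟩ := hg
  exact ⟨e'.comp e, fun x => by simp [he, he']⟩

theorem IsoS.congr {f f' : M → N} {S : L.Substructure M} {T : L.Substructure N}
    (h : IsoS f S T) (hf : ∀ x ∈ S, f' x = f x) : IsoS f' S T := by
  obtain ⟨e, he⟩ := h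
  exact ⟨e, fun x => by rw [hf x x.2, he]⟩

/-- An inverse. -/
theorem IsoS.exists_inv {f : M → N} {S : L.Substructure M} {T : L.Substructure N}
    (h : IsoS f S T) (m₀ : M) : ∃ g : N → M, IsoS g T S ∧ (∀ x ∈ S, g (f x) = x) ∧
      ∀ y ∈ T, f (g y) = y := by
  classical
  obtain ⟨e, he⟩ := h
  let g : N → M := fun y => if hy : y ∈ T then (e.symm ⟨y, hy⟩ : M) else m₀
  have hg : ∀ y (hy : y ∈ T), g y = e.symm ⟨y, hy⟩ := fun y hy => dif_pos hy
  refine ⟨g, ⟨e.symm, fun x => hg x.1 x.2⟩, ?_, ?_⟩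
  · intro x hx
    have hfx : f x = e ⟨x, hx⟩ := he ⟨x, hx⟩
    have h1 : f x ∈ T := hfx ▸ (e ⟨x, hx⟩).2
    have h2 : (⟨f x, h1⟩ : T) = e ⟨x, hx⟩ := Subtype.ext hfx
    rw [hg _ h1, h2, e.symm_apply_apply]
  · intro y hy
    rw [hg y hy, he, e.apply_symm_apply]

theorem IsoS.mem {f : M → N} {S : L.Substructure M} {T : L.Substructure N}
    (h : IsoS f S T) {x : M} (hx : x ∈ S) : f x ∈ T := by
  obtain ⟨e, he⟩ := h
  rw [show f x = f (⟨x, hx⟩ : S) from rfl, he]
  exact (e ⟨x, hx⟩).2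

theorem IsoS.surj {f : M → N} {S : L.Substructure M} {T : L.Substructure N}
    (h : IsoS f S T) {y : N} (hy : y ∈ T) : ∃ x ∈ S, f x = y := by
  obtain ⟨e, he⟩ := h
  refine ⟨e.symm ⟨y, hy⟩, (e.symm ⟨y, hy⟩).2, ?_⟩
  rw [he, e.apply_symm_apply]

theorem IsoS.inj {f : M → N} {S : L.Substructure M} {T : L.Substructure N}
    (h : IsoS f S T) : InjOn f S := by
  obtain ⟨e, he⟩ := h
  intro x hx y hy hxy
  have h1 : (e ⟨x, hx⟩ : N) = e ⟨y, hy⟩ := by
    rw [← he, ← he]
    exact hxy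
  exact congrArg Subtype.val (e.injective (Subtype.ext h1))

theorem IsoS.image {f : M → N} {S : L.Substructure M} {T : L.Substructure N}
    (h : IsoS f S T) : f '' S = T := by
  ext y
  constructor
  · rintro ⟨x, hx, rfl⟩
    exact h.mem hx
  · intro hy
    exact h.surj hy

/-- Strong substructures are preserved. -/
theorem IsoS.le_image (K : AEC L) {f : M → N} {S : L.Substructure M} {T : L.Substructure N}
    (h : IsoS f S T) (hS : K.le S) (hT : K.le T) {S' : L.Substructure M} (hS' : K.le S')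
    (hSS : S' ≤ S) : ∃ T' : L.Substructure N, K.le T' ∧ T' ≤ T ∧ IsoS f S' T' := by
  obtain ⟨e, he⟩ := h
  let f' : S' ↪[L] N := (T.subtype.comp e.toEmbedding).comp (Language.Substructure.inclusion hSS)
  have h1 : K.Emb f' := AEC.Emb.comp (AEC.Emb.comp (AEC.emb_subtype.2 hT)
    (AEC.Emb.of_equiv e (K.mem_of_le _ hS).1)) (AEC.sle_of_le_le hSS hS' hS).2
  refine ⟨f'.toHom.range, h1, ?_, f'.equivRange, ?_⟩
  · rintro y ⟨x, rfl⟩
    exact (e ⟨x.1, hSS x.2⟩).2
  · intro x
    exact he ⟨x.1, hSS x.2⟩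

namespace Ctx

theorem subset_cl (K : AEC L) (A : Set N) : A ⊆ cl K A := by
  intro x hx
  refine Language.Substructure.mem_sInf.2 fun S hS => ?_
  exact hS.2 hx

theorem cl_le (K : AEC L) {A : Set N} {S : L.Substructure N} (hS : K.le S) (hA : A ⊆ S) :
    cl K A ≤ S := sInf_le ⟨hS, hA⟩

theorem cl_mono (K : AEC L) {A B : Set N} (h : A ⊆ B) : cl K A ≤ cl K B :=
  le_sInf fun _ hS => sInf_le ⟨hS.1, h.trans hS.2⟩

theorem cl_eq_self (K : AEC L) {S : L.Substructure N} (hS : K.le S) : cl K (S : Set N) = S :=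
  le_antisymm (cl_le K hS Subset.rfl) (subset_cl K _)

theorem le_cl (hN : X.K.mem N) {A : Set N} (hA : X.l ≤ #A) : X.K.le (cl X.K A) :=
  X.hI N hN A hA

theorem mk_cl_le (hN : X.K.mem N) (A : Set N) : #(cl X.K A) ≤ #A + X.l := by
  obtain ⟨S, h1, h2, h3⟩ := X.hK.2.2 N hN A
  exact (mk_le_mk_of_subset (cl_le X.K h1 h2)).trans h3

theorem cl_cl (K : AEC L) (A : Set N) : cl K (cl K A : Set N) = cl K A :=
  le_antisymm (le_sInf fun _ hS => sInf_le ⟨hS.1, cl_le K hS.1 hS.2⟩) (subset_cl K _)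

/-- The closure is finitary over a large base. -/
theorem exists_finite (hN : X.K.mem N) {A B : Set N} (hB : X.l ≤ #B) {x : N}
    (hx : x ∈ cl X.K (A ∪ B)) : ∃ s : Set N, s ⊆ A ∧ s.Finite ∧ x ∈ cl X.K (s ∪ B) := by
  classical
  let F : Finset A → L.Substructure N := fun s => cl X.K (Subtype.val '' (s : Set A) ∪ B)
  have hm : Monotone F := fun s t h => cl_mono X.K
    (union_subset_union_left _ (image_mono (by exact_mod_cast h)))
  have hF : ∀ s, X.K.le (F s) := fun s => le_cl hN (hB.trans (mk_le_mk_of_subset subset_union_right))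
  have h1 : X.K.le (⨆ s, F s) := AEC.le_iSup_finset F hm hF
  have h2 : cl X.K (A ∪ B) ≤ ⨆ s, F s := by
    refine cl_le X.K h1 (union_subset ?_ ?_)
    · intro y hy
      refine le_iSup F {⟨y, hy⟩} (subset_cl X.K _ (Or.inl ⟨⟨y, hy⟩, ?_, rfl⟩))
      simp
    · intro y hy
      exact le_iSup F ∅ (subset_cl X.K _ (Or.inr hy))
  have h3 := h2 hx
  rw [Language.Substructure.mem_iSup_of_directed (directed_of_isDirected_le hm)] at h3
  obtain ⟨s, hs⟩ := h3
  refine ⟨Subtype.val '' (s : Set A), ?_, s.finite_toSet.image _, hs⟩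
  rintro _ ⟨y, -, rfl⟩
  exact y.2

/-- If `x` is in the closure of `A ∪ B`, it is in the closure of small subsets. -/
theorem exists_small (hN : X.K.mem N) {A : Set N} (hA : X.l ≤ #A) {x : N}
    (hx : x ∈ cl X.K A) : ∃ D : Set N, D ⊆ A ∧ #D = X.l ∧ x ∈ cl X.K D := by
  obtain ⟨B, hB1, hB2⟩ := Cardinal.le_mk_iff_exists_subset.1 hA
  obtain ⟨s, hs1, hs2, hs3⟩ := exists_finite hN (A := A) hB2.ge (x := x)
    (by rwa [union_eq_self_of_subset_right hB1])
  refine ⟨s ∪ B, union_subset hs1 hB1, ?_, hs3⟩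
  apply le_antisymm
  · refine (mk_union_le _ _).trans (add_le_of_le X.hK.1 ?_ hB2.le)
    exact (Cardinal.lt_aleph0_iff_set_finite.2 hs2).le.trans X.hK.1
  · exact hB2.ge.trans (mk_le_mk_of_subset subset_union_right)

/-- Closures in strong substructures and embeddings. -/
theorem map_cl (f : M ↪[L] N) (hf : X.K.Emb f) {A : Set M} (hA : X.l ≤ #A) :
    (cl X.K A).map f.toHom = cl X.K (f '' A) := by
  have h1 : X.K.Emb (f.comp (cl X.K A).subtype) :=
    AEC.Emb.comp hf (AEC.emb_subtype.2 (le_cl hf.mem_left hA))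
  have h2 : (f.comp (cl X.K A).subtype).toHom.range = (cl X.K A).map f.toHom := by
    ext x
    constructor
    · rintro ⟨y, rfl⟩
      exact ⟨y, y.2, rfl⟩
    · rintro ⟨y, hy, rfl⟩
      exact ⟨⟨y, hy⟩, rfl⟩
  apply le_antisymm
  · have h3 : X.l ≤ #(f '' A) := by rwa [mk_image_eq f.injective]
    have h4 : X.K.le (cl X.K (f '' A)) := le_cl hf.mem_right h3
    have h5 : cl X.K (f '' A) ≤ f.toHom.range := by
      refine cl_le X.K hf ?_
      rintro _ ⟨x, -, rfl⟩
      exact ⟨x, rfl⟩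
    have h6 : (f.comp ((cl X.K (f '' A)).comap f.toHom).subtype).toHom.range =
        cl X.K (f '' A) := by
      ext x
      constructor
      · rintro ⟨y, rfl⟩
        exact y.2
      · intro hx
        obtain ⟨y, rfl⟩ := h5 hx
        exact ⟨⟨y, hx⟩, rfl⟩
    have h7 : X.K.Emb (f.comp ((cl X.K (f '' A)).comap f.toHom).subtype) := by
      unfold AEC.Emb
      rw [h6]
      exact h4
    have h8 : X.K.le ((cl X.K (f '' A)).comap f.toHom) :=
      AEC.emb_subtype.1 (AEC.Emb.of_comp hf h7)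
    rw [Language.Substructure.map_le_iff_le_comap]
    refine cl_le X.K h8 ?_
    intro x hx
    exact subset_cl X.K _ ⟨x, hx, rfl⟩
  · refine cl_le X.K ?_ ?_
    · rw [← h2]
      exact h1
    · rintro _ ⟨x, hx, rfl⟩
      exact ⟨x, subset_cl X.K _ hx, rfl⟩

/-- An isomorphism of strong substructures preserves closures. -/
theorem isoS_cl {f : M → N} {S : L.Substructure M} {T : L.Substructure N} (h : IsoS f S T)
    (hS : X.K.le S) (hT : X.K.le T) {A : Set M} (hA : X.l ≤ #A) (hAS : A ⊆ S) :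
    IsoS f (cl X.K A) (cl X.K (f '' A)) := by
  have hM : X.K.mem M := (X.K.mem_of_le _ hS).2
  obtain ⟨T', h1, h2, h3⟩ := h.le_image X.K hS hT (le_cl hM hA) (cl_le X.K hS hAS)
  have h4 : T' = cl X.K (f '' A) := by
    obtain ⟨e, he⟩ := h
    let A' : Set S := Subtype.val ⁻¹' A
    have hi : X.K.Emb S.subtype := AEC.emb_subtype.2 hS
    have hj : X.K.Emb (T.subtype.comp e.toEmbedding) :=
      AEC.Emb.comp (AEC.emb_subtype.2 hT) (AEC.Emb.of_equiv e (X.K.mem_of_le _ hS).1)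
    have h5 : S.subtype '' A' = A := by
      ext x
      constructor
      · rintro ⟨y, hy, rfl⟩
        exact hy
      · intro hx
        exact ⟨⟨x, hAS hx⟩, hx, rfl⟩
    have h6 : (T.subtype.comp e.toEmbedding) '' A' = f '' A := by
      ext x
      constructor
      · rintro ⟨y, hy, rfl⟩
        exact ⟨y.1, hy, he y⟩
      · rintro ⟨y, hy, rfl⟩
        exact ⟨⟨y, hAS hy⟩, hy, (he ⟨y, hAS hy⟩).symm⟩
    have h7 : X.l ≤ #A' := by
      rw [← mk_image_eq S.subtype.injective, h5]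
      exact hA
    have h8 := map_cl S.subtype hi h7
    have h9 := map_cl (T.subtype.comp e.toEmbedding) hj h7
    rw [h5] at h8
    rw [h6] at h9
    apply SetLike.coe_injective
    rw [← h3.image, ← h8, ← h9]
    ext x
    constructor
    · rintro ⟨_, ⟨y, hy, rfl⟩, rfl⟩
      exact ⟨y, hy, (he y).symm⟩
    · rintro ⟨y, hy, rfl⟩
      exact ⟨y.1, ⟨y, hy, rfl⟩, he y⟩
  rw [← h4]
  exact h3

/-- Small types see strong substructures. -/
theorem E.le_iff (hθ : X.Adm θ) (hM : X.Big θ M) (hN : X.Big θ N) {ι : Type u} (hι : #ι < θ)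
    {x : ι → M} {y : ι → N} (h : X.E θ x y) {S : L.Substructure M} (hS : (S : Set M) = range x)
    (hSle : X.K.le S) : ∃ T : L.Substructure N, (T : Set N) = range y ∧ X.K.le T := by
  have h1 : Good L (max X.l #ι) (range fun i => (x i, y i)) :=
    h _ (le_max_left _ _) (_root_.max_lt hθ.lt hι) (le_max_right _ _)
  have hK : X.K.IsLS (max X.l #ι) := X.hK.mono (le_max_left _ _)
  have h2 : (S : Set M) = Prod.fst '' (range fun i => (x i, y i)) := by
    rw [hS, ← range_comp]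
    rfl
  obtain ⟨T, hT⟩ := exists_substructure hK.1 hK.2.1 h1 h2
  refine ⟨T, ?_, le_of_good hK hM.1 hN.1 h1 hSle h2 hT⟩
  rw [hT, ← range_comp]
  rfl

theorem Adm.add_lt (hθ : X.Adm θ) {a b : Cardinal.{u}} (ha : a < θ) (hb : b < θ) : a + b < θ :=
  add_lt_of_lt hθ.aleph0_lt.le ha hb

theorem mk_range_lt {ι : Type u} (hι : #ι < θ) (x : ι → M) : #(range x) < θ :=
  mk_range_le.trans_lt hι

theorem mk_cl_lt (hθ : X.Adm θ) (hN : X.K.mem N) {A : Set N} (hA : #A < θ) :
    #(cl X.K A) < θ :=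
  (mk_cl_le hN A).trans_lt (hθ.add_lt hA hθ.lt)

/-- The enumeration of a set. -/
def en (C : L.Substructure M) : C → M := fun x => x.1

theorem range_en (C : L.Substructure M) : range (en C) = C := Subtype.range_coe

/-- If `c` enumerates the closure of `x`, and `c x`, `w y` have the same type, then `w` enumerates
the closure of `y`. -/
theorem E.range_eq_cl (hθ : X.Adm θ) (hM : X.Big θ M) (hN : X.Big θ N) {ι : Type u}
    (hι : #ι < θ) {x : ι → M} {y : ι → N} {w : cl X.K (range x) → N}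
    (h : X.E θ (Sum.elim x (en (cl X.K (range x)))) (Sum.elim y w)) (hx : X.l ≤ #(range x)) :
    range w = cl X.K (range y) ∧ X.l ≤ #(range y) := by
  have hC : #(cl X.K (range x)) < θ := mk_cl_lt hθ hM.1 (mk_range_lt hι x)
  have hs : #(ι ⊕ cl X.K (range x)) < θ := by
    rw [mk_sum, lift_id, lift_id]
    exact hθ.add_lt hι hC
  have h1 : ∀ i (p : cl X.K (range x)), x i = p.1 ↔ y i = w p := fun i p =>
    h.eq_iff hθ hs (Sum.inl i) (Sum.inr p)
  have hxC : ∀ i, x i ∈ cl X.K (range x) := fun i => subset_cl X.K _ ⟨i, rfl⟩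
  have h2 : ∀ i, y i = w ⟨x i, hxC i⟩ := fun i => (h1 i ⟨x i, hxC i⟩).1 rfl
  have h0 : ∀ i j, x i = x j ↔ y i = y j := fun i j => h.eq_iff hθ hs (Sum.inl i) (Sum.inl j)
  have hcard : #(range x) ≤ #(range y) := by
    choose g hg using fun a : range x => a.2
    refine mk_le_of_injective (f := fun a : range x => (⟨y (g a), ⟨g a, rfl⟩⟩ : range y)) ?_
    intro a b hab
    apply Subtype.ext
    rw [← hg a, ← hg b]
    exact (h0 _ _).2 (congrArg Subtype.val hab)
  have hy : X.l ≤ #(range y) := hx.trans hcard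
  refine ⟨?_, hy⟩
  have h3 : X.E θ (en (cl X.K (range x))) w :=
    E.comp hθ h hs (fun p : cl X.K (range x) => (Sum.inr p : ι ⊕ cl X.K (range x)))
  obtain ⟨T, hT1, hT2⟩ := E.le_iff hθ hM hN hC h3 (S := cl X.K (range x))
    (range_en _).symm (le_cl hM.1 hx)
  have h4 : cl X.K (range y) ≤ T := by
    refine cl_le X.K hT2 ?_
    rintro _ ⟨i, rfl⟩
    rw [hT1, h2 i]
    exact ⟨_, rfl⟩
  apply Subset.antisymm
  · -- the part which goes into the closure of `y` is strong
    let C' := {p : cl X.K (range x) // w p ∈ cl X.K (range y)}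
    have hC' : #C' < θ := (mk_subtype_le _).trans_lt hC
    have h5 : X.E θ (fun p : C' => w p.1) (fun p : C' => en (cl X.K (range x)) p.1) :=
      E.comp hθ h3.symm hC (fun p : C' => p.1)
    have h6 : ((cl X.K (range y) : L.Substructure N) : Set N) = range fun p : C' => w p.1 := by
      ext z
      constructor
      · intro hz
        have hz' : z ∈ (T : Set N) := h4 hz
        rw [hT1] at hz'
        obtain ⟨p, rfl⟩ := hz'
        exact ⟨⟨p, hz⟩, rfl⟩
      · rintro ⟨p, rfl⟩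
        exact p.2
    obtain ⟨T', hT'1, hT'2⟩ := E.le_iff hθ hN hM hC' h5 h6 (le_cl hN.1 hy)
    have h7 : cl X.K (range x) ≤ T' := by
      refine cl_le X.K hT'2 ?_
      rintro _ ⟨i, rfl⟩
      rw [hT'1]
      refine ⟨⟨⟨x i, hxC i⟩, ?_⟩, rfl⟩
      rw [← h2 i]
      exact subset_cl X.K _ ⟨i, rfl⟩
    rintro _ ⟨p, rfl⟩
    have h8 : p.1 ∈ (T' : Set M) := h7 p.2
    rw [hT'1] at h8
    obtain ⟨q, hq⟩ := h8
    have h9 : q.1 = p := Subtype.ext hq
    rw [← h9]
    exact q.2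
  · rw [← hT1]
    exact h4

theorem E.mem_cl_aux (hθ : X.Adm θ) (hM : X.Big θ M) (hN : X.Big θ N) {ι ζ : Type u}
    (hι : #ι < θ) (hζ : #ζ < θ) {x : ι → M} {y : ι → N} {z : ζ → M} {w : ζ → N}
    (h : X.E θ (Sum.elim x z) (Sum.elim y w)) (hx : X.l ≤ #(range x)) (a : ζ)
    (ha : z a ∈ cl X.K (range x)) : w a ∈ cl X.K (range y) := by
  have hC : #(cl X.K (range x)) < θ := mk_cl_lt hθ hM.1 (mk_range_lt hι x)
  have hs : #(ι ⊕ ζ) < θ := by
    rw [mk_sum, lift_id, lift_id]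
    exact hθ.add_lt hι hζ
  have hs' : #((ι ⊕ ζ) ⊕ cl X.K (range x)) < θ := by
    rw [mk_sum, lift_id, lift_id]
    exact hθ.add_lt hs hC
  obtain ⟨c, hc⟩ := E.extend hθ hM hN hs hC h (en (cl X.K (range x)))
  have h1 : X.E θ (Sum.elim x (en (cl X.K (range x)))) (Sum.elim y c) := by
    have h2 := E.comp hθ hc hs' (Sum.map (Sum.inl : ι → ι ⊕ ζ) (fun p : cl X.K (range x) => p))
    convert h2 using 1
    · funext i
      rcases i with i | i <;> rfl
    · funext i
      rcases i with i | i <;> rfl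
  have h3 := (hc.eq_iff hθ hs' (Sum.inl (Sum.inr a)) (Sum.inr ⟨z a, ha⟩)).1 rfl
  have h4 : w a = c ⟨z a, ha⟩ := h3
  have h5 := (E.range_eq_cl hθ hM hN hι h1 hx).1
  have h6 : c ⟨z a, ha⟩ ∈ range c := ⟨_, rfl⟩
  rw [h5] at h6
  rw [h4]
  exact h6

/-- Small types see closures. -/
theorem E.mem_cl (hθ : X.Adm θ) (hM : X.Big θ M) (hN : X.Big θ N) {ι ζ : Type u} (hι : #ι < θ)
    (hζ : #ζ < θ) {x : ι → M} {y : ι → N} {z : ζ → M} {w : ζ → N}
    (h : X.E θ (Sum.elim x z) (Sum.elim y w)) (hx : X.l ≤ #(range x)) (a : ζ) :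
    z a ∈ cl X.K (range x) ↔ w a ∈ cl X.K (range y) := by
  refine ⟨E.mem_cl_aux hθ hM hN hι hζ h hx a, E.mem_cl_aux hθ hN hM hι hζ h.symm ?_ a⟩
  have hC : #(cl X.K (range x)) < θ := mk_cl_lt hθ hM.1 (mk_range_lt hι x)
  have hs : #(ι ⊕ ζ) < θ := by
    rw [mk_sum, lift_id, lift_id]
    exact hθ.add_lt hι hζ
  have h1 : X.E θ x y := E.comp hθ h hs (Sum.inl : ι → ι ⊕ ζ)
  obtain ⟨c, hc⟩ := E.extend hθ hM hN hι hC h1 (en (cl X.K (range x)))
  exact (E.range_eq_cl hθ hM hN hι hc hx).2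

/-- Equality of small types gives an isomorphism of the closures. -/
theorem E.exists_isoS (hθ : X.Adm θ) (hM : X.Big θ M) (hN : X.Big θ N) {ι : Type u}
    (hι : #ι < θ) {x : ι → M} {y : ι → N} (h : X.E θ x y) (hx : X.l ≤ #(range x)) :
    ∃ f : M → N, IsoS f (cl X.K (range x)) (cl X.K (range y)) ∧ (∀ a, f (x a) = y a) ∧
      ∀ (ζ : Type u), #ζ < θ → ∀ z : ζ → M, (∀ c, z c ∈ cl X.K (range x)) →
        X.E θ (Sum.elim x z) (Sum.elim y fun c => f (z c)) := by
  classical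
  have hC : #(cl X.K (range x)) < θ := mk_cl_lt hθ hM.1 (mk_range_lt hι x)
  have hs : #(ι ⊕ cl X.K (range x)) < θ := by
    rw [mk_sum, lift_id, lift_id]
    exact hθ.add_lt hι hC
  obtain ⟨w, hw⟩ := E.extend hθ hM hN hι hC h (en (cl X.K (range x)))
  have h1 := (E.range_eq_cl hθ hM hN hι hw hx).1
  have hne : Nonempty N := by
    rw [← mk_ne_zero_iff]
    exact ((aleph0_pos.trans hθ.aleph0_lt).trans_le hN.2).ne'
  let f : M → N := fun m => if hm : m ∈ cl X.K (range x) then w ⟨m, hm⟩ else Classical.arbitrary N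
  have hf : ∀ p : cl X.K (range x), f p.1 = w p := fun p => dif_pos p.2
  have hxC : ∀ i, x i ∈ cl X.K (range x) := fun i => subset_cl X.K _ ⟨i, rfl⟩
  have h2 : ∀ i, w ⟨x i, hxC i⟩ = y i := fun i =>
    ((hw.eq_iff hθ hs (Sum.inr ⟨x i, hxC i⟩) (Sum.inl i)).1 rfl)
  refine ⟨f, ?_, fun a => ?_, fun ζ hζ z hz => ?_⟩
  · have h3 : X.E θ (en (cl X.K (range x))) w :=
      E.comp hθ hw hs (fun p : cl X.K (range x) => (Sum.inr p : ι ⊕ cl X.K (range x)))
    have h4 : Good L (max X.l #(cl X.K (range x)))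
        (range fun p => (en (cl X.K (range x)) p, w p)) :=
      h3 _ (le_max_left _ _) (_root_.max_lt hθ.lt hC) (le_max_right _ _)
    obtain ⟨e, he⟩ := h4.1.exists_equiv_sub (cl X.K (range x)) (cl X.K (range y)) (by
      intro a ha
      refine ⟨w ⟨a, ha⟩, ?_, ⟨⟨a, ha⟩, rfl⟩⟩
      rw [← SetLike.mem_coe, ← h1]
      exact ⟨_, rfl⟩) (by
      intro b hb
      rw [← SetLike.mem_coe, ← h1] at hb
      obtain ⟨p, rfl⟩ := hb
      exact ⟨p.1, p.2, ⟨p, rfl⟩⟩)
    refine ⟨e, fun p => ?_⟩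
    rw [hf p]
    exact (h4.1.eq_iff (p.1, w p) ⟨p, rfl⟩ _ (he p)).1 rfl
  · rw [hf ⟨x a, hxC a⟩, h2 a]
  · have h3 := E.comp hθ hw hs
      (Sum.map (fun i : ι => i) (fun k : ζ => (⟨z k, hz k⟩ : cl X.K (range x))))
    convert h3 using 1
    · funext i
      rcases i with i | i <;> rfl
    · funext i
      rcases i with i | i
      · rfl
      · exact hf ⟨z i, hz i⟩

/-! Galois types. -/

section GE

variable {M' N' N'' : Type u} [L.Structure M'] [L.Structure N'] [L.Structure N'']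

theorem GE.refl (i : M ↪[L] N) (b : N) : X.GE i b i b :=
  ⟨fun x => x, IsoS.id _, fun _ => rfl, rfl⟩

theorem mem_cl_left (K : AEC L) (i : M ↪[L] N) (b : N) (m : M) :
    i m ∈ cl K (insert b (range i)) := subset_cl K _ (mem_insert_of_mem _ (mem_range_self m))

theorem mem_cl_right (K : AEC L) (i : M ↪[L] N) (b : N) :
    b ∈ cl K (insert b (range i)) := subset_cl K _ (mem_insert _ _)

theorem le_mk_insert (i : M ↪[L] N) (b : N) {κ : Cardinal.{u}} (hM : κ ≤ #M) :
    κ ≤ #(insert b (range i) : Set N) := by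
  refine hM.trans ?_
  rw [← mk_range_eq i i.injective]
  exact mk_le_mk_of_subset (subset_insert _ _)

theorem GE.symm {i : M ↪[L] N} {b : N} {j : M ↪[L] N'} {b' : N'} (h : X.GE i b j b') :
    X.GE j b' i b := by
  obtain ⟨f, hf, h1, h2⟩ := h
  obtain ⟨g, hg, h3, -⟩ := hf.exists_inv b
  refine ⟨g, hg, fun m => ?_, ?_⟩
  · rw [← h1, h3 _ (mem_cl_left X.K i b m)]
  · rw [← h2, h3 _ (mem_cl_right X.K i b)]

theorem GE.trans {i : M ↪[L] N} {b : N} {j : M ↪[L] N'} {b' : N'} {k : M ↪[L] N''} {b'' : N''}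
    (h : X.GE i b j b') (h' : X.GE j b' k b'') : X.GE i b k b'' := by
  obtain ⟨f, hf, h1, h2⟩ := h
  obtain ⟨g, hg, h3, h4⟩ := h'
  exact ⟨g ∘ f, hg.comp hf, fun m => by simp [h1, h3], by simp [h2, h4]⟩

/-- Galois types are preserved by strong embeddings of the extension. -/
theorem GE.of_emb (i : M ↪[L] N) (hi : X.K.Emb i) (hM : X.l ≤ #M) (f : N ↪[L] P)
    (hf : X.K.Emb f) (b : N) : X.GE i b (f.comp i) (f b) := by
  refine ⟨f, ?_, fun m => rfl, rfl⟩
  have h1 := map_cl f hf (A := insert b (range i)) (le_mk_insert i b hM)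
  have h2 : f '' (insert b (range i)) = insert (f b) (range (f.comp i)) := by
    rw [image_insert_eq, ← range_comp]
    rfl
  rw [h2] at h1
  rw [← h1]
  exact ⟨f.substructureEquivMap _, fun x => rfl⟩

/-- Restriction of Galois types to strong submodels. -/
theorem GE.restrict {i : M ↪[L] N} {b : N} {j : M ↪[L] N'} {b' : N'} (h : X.GE i b j b')
    (hi : X.K.Emb i) (hj : X.K.Emb j) (k : M' ↪[L] M) (hk : X.K.Emb k) (hM' : X.l ≤ #M') :
    X.GE (i.comp k) b (j.comp k) b' := by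
  obtain ⟨f, hf, h1, h2⟩ := h
  have hM : X.l ≤ #M := hM'.trans (mk_le_of_injective k.injective)
  refine ⟨f, ?_, fun m => h1 _, h2⟩
  have h3 := isoS_cl hf (le_cl hi.mem_right (le_mk_insert i b hM))
    (le_cl hj.mem_right (le_mk_insert j b' hM)) (A := insert b (range (i.comp k)))
    (le_mk_insert _ _ hM') (by
      refine insert_subset (mem_cl_right X.K i b) ?_
      rintro _ ⟨m, rfl⟩
      exact mem_cl_left X.K i b _)
  have h4 : f '' (insert b (range (i.comp k))) = insert b' (range (j.comp k)) := by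
    rw [image_insert_eq, h2, ← range_comp]
    congr 2
    funext m
    exact h1 _
  rwa [h4] at h3

/-- The base may be changed by an isomorphism. -/
theorem GE.equiv {i : M ↪[L] N} {b : N} {j : M ↪[L] N'} {b' : N'} (h : X.GE i b j b')
    (e : M' ≃[L] M) : X.GE (i.comp e.toEmbedding) b (j.comp e.toEmbedding) b' := by
  obtain ⟨f, hf, h1, h2⟩ := h
  have h3 : ∀ {Q : Type u} [L.Structure Q] (i : M ↪[L] Q),
      range (i.comp e.toEmbedding) = range i := by
    intro Q _ i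
    ext x
    constructor
    · rintro ⟨m, rfl⟩
      exact ⟨e m, rfl⟩
    · rintro ⟨m, rfl⟩
      refine ⟨e.symm m, ?_⟩
      show i (e (e.symm m)) = i m
      rw [e.apply_symm_apply]
  refine ⟨f, ?_, fun m => h1 _, h2⟩
  rw [h3, h3]
  exact hf

/-- Galois types over models of size `θ` are finer than small types. -/
theorem GE.se (hθ : X.Adm θ) {i : M ↪[L] N} {b : N} {j : M ↪[L] N'} {b' : N'}
    (h : X.GE i b j b') (hi : X.K.Emb i) (hj : X.K.Emb j) (hM : θ ≤ #M) (χ : Cardinal.{u})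
    (hχ : χ < θ) : X.SE θ χ i b j b' := by
  obtain ⟨f, hf, h1, h2⟩ := h
  intro D hD
  have hlM : X.l ≤ #M := hθ.lt.le.trans hM
  let S := cl X.K (insert b (range i))
  let T := cl X.K (insert b' (range j))
  obtain ⟨e, he⟩ : IsoS f S T := hf
  have hSle : X.K.le S := le_cl hi.mem_right (le_mk_insert i b hlM)
  have hTle : X.K.le T := le_cl hj.mem_right (le_mk_insert j b' hlM)
  have hSθ : θ ≤ #S := hM.trans
    (mk_le_of_injective (f := fun m => (⟨i m, mem_cl_left X.K i b m⟩ : S)) fun m m' h => by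
      exact i.injective (congrArg Subtype.val h))
  have hTθ : θ ≤ #T := hM.trans
    (mk_le_of_injective (f := fun m => (⟨j m, mem_cl_left X.K j b' m⟩ : T)) fun m m' h => by
      exact j.injective (congrArg Subtype.val h))
  let x : D ⊕ PUnit.{u + 1} → S :=
    Sum.elim (fun d => ⟨i d, mem_cl_left X.K i b d⟩) fun _ => ⟨b, mem_cl_right X.K i b⟩
  have a1 := E.of_emb (X := X) hθ S.subtype (AEC.emb_subtype.2 hSle) hSθ x
  have a2 := E.of_emb (X := X) hθ T.subtype (AEC.emb_subtype.2 hTle) hTθ (fun k => e (x k))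
  have a3 := E.of_equiv (X := X) hθ e x
  have a4 := (a1.symm.trans a3).trans a2
  have b1 : (fun k => S.subtype (x k)) = adj (fun d : D => i d) b := by
    funext k
    cases k <;> rfl
  have b2 : (fun k => T.subtype (e (x k))) = adj (fun d : D => j d) b' := by
    funext k
    cases k with
    | inl d =>
      show ((e ⟨i d, mem_cl_left X.K i b d⟩ : T) : N') = j d
      rw [← he, h1]
    | inr _ =>
      show ((e ⟨b, mem_cl_right X.K i b⟩ : T) : N') = b'
      rw [← he, h2]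
  rw [b1, b2] at a4
  exact a4

theorem GE.mem_range_iff {i : M ↪[L] N} {b : N} {j : M ↪[L] N'} {b' : N'} (h : X.GE i b j b')
    (m : M) : b = i m ↔ b' = j m := by
  obtain ⟨f, hf, h1, h2⟩ := h
  constructor
  · intro h
    rw [← h2, ← h1, ← h]
  · intro h
    refine hf.inj (mem_cl_right X.K i b) (mem_cl_left X.K i b m) ?_
    rw [h2, h1, h]

end GE

end Ctx

end Vale.Agent.P307.R2.H301
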