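import Vale.Agent.P307.R2.H301.Nf

set_option linter.unusedSectionVars false

universe u v w

open FirstOrder Cardinal Set

namespace Vale.Agent.P307.R2.H301

open Vale.Agent.P307 Vale.Agent.P307.H304 Vale.Agent.P307.R2.H287 Language.Structure
  Language.Substructure

/-- Convergence in a well order is preserved by embeddings in linear orders. -/
theorem Conv.map {ρ : Cardinal.{u}} {I J Q : Type u} [LinearOrder I] [WellFoundedLT I]
    [LinearOrder J] {w : SuccTy ρ → Q → I} (hw : Conv w univ) {σ : I → J} (hσ : StrictMono σ)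
    (Y : Set J) : Conv (fun j q => σ (w j q)) Y := by
  refine ⟨fun q y _ => ?_, fun j j' q q' => ?_⟩
  · have h1 : ∃ j₀, ∀ j, j₀ ≤ j → (σ (w j q) ≤ y ↔ σ (w j₀ q) ≤ y) := by
      by_cases hne : {ζ : I | y < σ ζ}.Nonempty
      · set ζ := wellFounded_lt.min _ hne with hζ
        have h2 : y < σ ζ := wellFounded_lt.min_mem _ hne
        have h3 : ∀ x, σ x ≤ y ↔ ¬ ζ ≤ x := by
          intro x
          constructor
          · intro hx hx'
            exact absurd (h2.trans_le ((hσ.le_iff_le.2 hx').trans hx)) (lt_irrefl _)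
          · intro hx
            by_contra hc
            exact wellFounded_lt.not_lt_min {ζ : I | y < σ ζ} (not_le.1 hc) (not_le.1 hx)
        obtain ⟨j₀, hj₀⟩ := hw.conv q ζ trivial
        exact ⟨j₀, fun j hj => by rw [h3, h3, (hj₀ j hj).2]⟩
      · rw [Set.not_nonempty_iff_eq_empty, Set.eq_empty_iff_forall_notMem] at hne
        have h2 : ∀ x, σ x ≤ y := fun x => not_lt.1 (hne x)
        rcases isEmpty_or_nonempty (SuccTy ρ) with he | ⟨⟨j⟩⟩
        · obtain ⟨j₀, -⟩ := hw.conv q (w (Classical.choice (by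
            by_contra hc
            exact (Cardinal.succ_pos ρ).ne' (by
              rw [← mk_ord_toType (Order.succ ρ)]
              exact mk_eq_zero_iff.2 he))) q) trivial
          exact (he.false j₀).elim
        · exact ⟨j, fun j' _ => by simp only [h2]⟩
    have h1' : ∃ j₀, ∀ j, j₀ ≤ j → (y ≤ σ (w j q) ↔ y ≤ σ (w j₀ q)) := by
      by_cases hne : {ζ : I | y ≤ σ ζ}.Nonempty
      · set ζ := wellFounded_lt.min _ hne with hζ
        have h2 : y ≤ σ ζ := wellFounded_lt.min_mem _ hne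
        have h3 : ∀ x, y ≤ σ x ↔ ζ ≤ x := by
          intro x
          constructor
          · intro hx
            exact not_lt.1 (wellFounded_lt.not_lt_min {ζ : I | y ≤ σ ζ} hx)
          · intro hx
            exact h2.trans (hσ.le_iff_le.2 hx)
        obtain ⟨j₀, hj₀⟩ := hw.conv q ζ trivial
        exact ⟨j₀, fun j hj => by rw [h3, h3, (hj₀ j hj).2]⟩
      · rw [Set.not_nonempty_iff_eq_empty, Set.eq_empty_iff_forall_notMem] at hne
        have h2 : ∀ x, ¬ y ≤ σ x := hne
        obtain ⟨j, -⟩ := h1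
        exact ⟨j, fun j' _ => by simp only [h2]⟩
    obtain ⟨j₁, hj₁⟩ := h1
    obtain ⟨j₂, hj₂⟩ := h1'
    refine ⟨max j₁ j₂, fun j hj => ?_⟩
    rw [hj₁ j ((le_max_left _ _).trans hj), hj₁ _ (le_max_left _ _),
      hj₂ j ((le_max_right _ _).trans hj), hj₂ _ (le_max_right _ _)]
    exact ⟨Iff.rfl, Iff.rfl⟩
  · rw [hσ.le_iff_le, hσ.le_iff_le]
    exact hw.pat j j' q q'

theorem LimPat.mono {ρ : Cardinal.{u}} {I Q : Type u} [LinearOrder I] {w : SuccTy ρ → Q → I}
    {Y Y' : Set I} {v : Q → I} (h : LimPat w Y v) (hY : Y' ⊆ Y) : LimPat w Y' v :=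
  ⟨fun q y hy => h.conv q y (hY hy), h.pat⟩

/-- Long sequences of limit points. -/
theorem exists_limPat_seq {ρ κ : Cardinal.{u}} (hρ : ℵ₀ ≤ ρ) (hκ : ℵ₀ ≤ κ) {J Q : Type u}
    [LinearOrder J] [Finite Q] (hJ : Nice κ J) (w : SuccTy ρ → Q → J)
    (hw : ∀ Y, Conv w Y) (Y₀ : Set J) (hY₀ : #Y₀ ≤ κ) :
    ∃ v : κ.ord.ToType → Q → J, ∀ a, LimPat w (Y₀ ∪ {y | ∃ x < a, ∃ q, v x q = y}) (v a) := by
  classical
  have h1 : ∀ Y : Set J, ∃ v : Q → J, #Y ≤ κ → LimPat w Y v := by
    intro Y
    by_cases hY : #Y ≤ κ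
    · obtain ⟨v, hv⟩ := exists_limPat hκ hJ hY (hw Y) hρ
      exact ⟨v, fun _ => hv⟩
    · obtain ⟨v, -⟩ := exists_limPat hκ hJ (Y := (∅ : Set J)) (by simp) (hw ∅) hρ
      exact ⟨v, fun h => absurd h hY⟩
  choose G hG using h1
  let F : ∀ a : κ.ord.ToType, (∀ x, x < a → Q → J) → Q → J := fun a h =>
    G (Y₀ ∪ {y | ∃ (x : κ.ord.ToType) (hx : x < a), ∃ q, h x hx q = y})
  let v : κ.ord.ToType → Q → J := WellFounded.fix (r := (· < ·)) wellFounded_lt F
  have hv : ∀ a, v a = G (Y₀ ∪ {y | ∃ x < a, ∃ q, v x q = y}) := by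
    intro a
    have h2 : v a = F a fun x _ => v x := WellFounded.fix_eq _ _ a
    rw [h2]
    simp only [F, exists_prop]
  refine ⟨v, fun a => ?_⟩
  have h3 : #(Y₀ ∪ {y | ∃ x < a, ∃ q, v x q = y} : Set J) ≤ κ := by
    have h4 : #({y | ∃ x < a, ∃ q, v x q = y} : Set J) ≤ κ := by
      have h5 : {y | ∃ x < a, ∃ q, v x q = y} ⊆ range fun p : κ.ord.ToType × Q => v p.1 p.2 := by
        rintro y ⟨x, -, q, rfl⟩
        exact ⟨(x, q), rfl⟩
      refine (mk_le_mk_of_subset h5).trans (mk_range_le.trans ?_)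
      rw [mk_prod, lift_id, lift_id, mk_ord_toType]
      exact mul_le_of_le hκ le_rfl ((lt_aleph0_of_finite Q).le.trans hκ)
    exact (mk_union_le _ _).trans ((add_le_add hY₀ h4).trans_eq (add_eq_self hκ))
  have h6 := hG _ h3
  rw [← hv a] at h6
  exact h6

variable {L : Language.{u, u}} {X : Ctx L} {θ : Cardinal.{u}}
variable {M N P : Type u} [L.Structure M] [L.Structure N] [L.Structure P]

/-- Closures of subsets of the skeleton are strong substructures. -/
theorem exists_strong_closure {K : AEC L} {ν : Cardinal.{u}} {t : Tpl K ν} {J : Type u}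
    [LinearOrder J] (B : EM t J) (Y : Set J) : ∃ S : L.Substructure B.N, K.le S ∧
      ∀ x, x ∈ S ↔ x ∈ closure (exLang L t.Λ) (B.c '' Y) := by
  obtain ⟨A⟩ := exists_em t Y
  obtain ⟨f, hf, hf'⟩ := A.exists_map B (Subtype.val : Y → J) fun _ _ h => h
  refine ⟨f.toHom.range, hf, fun x => ⟨?_, ?_⟩⟩
  · rintro ⟨y, rfl⟩
    have h2 : y ∈ closure (exLang L t.Λ) (range A.c) := by rw [A.top]; trivial
    obtain ⟨s, rfl⟩ := Gr.mem_closure_range.1 h2
    change f (s.realize A.c) ∈ _
    rw [hf']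
    exact Language.Term.realize_mem _ _ fun i => subset_closure ⟨i, i.2, rfl⟩
  · intro hx
    have h3 : B.c '' Y = range fun y : Y => B.c y := by
      ext z
      simp
    rw [h3] at hx
    obtain ⟨s, rfl⟩ := Gr.mem_closure_range.1 hx
    exact ⟨s.realize A.c, hf' s⟩

namespace Ctx

/-- Long sequences of independent copies. -/
theorem exists_copies (hθ : X.Adm3 θ) {κ : Cardinal.{u}} (hκ : θ ≤ κ) {i : M ↪[L] N}
    (hi : X.K.Emb i) (hM : #M = θ) (b : N) (hb : b ∉ range i) :
    ∃ (P : Type u) (_ : L.Structure P) (k : M ↪[L] P) (c : κ.ord.ToType → P), X.K.Emb k ∧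
      #P = κ ∧ cl X.K (range k ∪ range c) = ⊤ ∧ (∀ a, X.GE i b k (c a)) ∧
      ∀ (s : Set κ.ord.ToType) (a : κ.ord.ToType), s.Finite → (∀ x ∈ s, x < a) →
        ∀ k' : M ↪[L] (cl X.K (range k ∪ c '' s) : L.Substructure P), (∀ m, (k' m : P) = k m) →
          X.NF θ k' (cl X.K (range k ∪ c '' s)).subtype (c a) := by
  classical
  have hθ0 : X.Adm θ := hθ.toAdm
  have hθ1 : X.Adm1 θ := hθ.toAdm1
  have hl : X.l ≤ θ := hθ0.lt.le
  have hH : X.H < θ := hθ.H
  have hω : ℵ₀ ≤ θ := hθ0.aleph0_lt.le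
  have hωκ : ℵ₀ ≤ κ := hω.trans hκ
  have hMem : X.K.mem M := hi.mem_left
  -- the standard copy of `M`
  obtain ⟨A⟩ := exists_em X.t θ.ord.ToType
  have hAθ : #A.N = θ := A.card_eq hl (mk_ord_toType θ)
  obtain ⟨e₀, -⟩ := exists_iso_of_E hθ0 hMem A.mem hM hAθ (ι := PEmpty.{u + 1})
    (x := PEmpty.elim) (y := PEmpty.elim) (by
      rw [mk_eq_zero]
      exact hθ0.aleph0_lt.pos) (E.empty hθ0 ⟨hMem, hM.ge⟩ ⟨A.mem, hAθ.ge⟩ _ _)
  set i' : A.N ↪[L] N := i.comp e₀.symm.toEmbedding with hi'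
  have hi'e : X.K.Emb i' := hi.comp (AEC.Emb.of_equiv _ A.mem)
  obtain ⟨R⟩ := exists_srep hθ1 X.le_H hH A i' hi'e b
  have hρl : X.l ≤ R.ρ := X.le_H.trans R.hχ
  have hρω : ℵ₀ ≤ R.ρ := X.hK.1.trans hρl
  -- the nice order
  obtain ⟨J, _, σ, hJ, hσ⟩ := exists_nice_ext κ hωκ θ.ord.ToType
  obtain ⟨B⟩ := exists_em X.t J
  obtain ⟨f, hf, hf'⟩ := A.exists_map B σ hσ
  have hθJ : θ ≤ #J := by
    have := mk_le_of_injective hσ.injective
    rwa [mk_ord_toType] at this
  have hY₀ : #(range σ) ≤ κ := mk_range_le.trans (by rw [mk_ord_toType]; exact hκ)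
  obtain ⟨v, hv⟩ := exists_limPat_seq hρω hωκ hJ (fun j q => σ (R.w j q))
    (fun Y => R.conv.map hσ Y) (range σ) hY₀
  -- the elements
  set g : M ↪[L] B.N := f.comp e₀.toEmbedding with hg
  have hgE : X.K.Emb g := hf.comp (AEC.Emb.of_equiv _ hMem)
  let c' : κ.ord.ToType → B.N := fun a => R.τ.realize fun q => B.c (v a q)
  have hge' : ∀ a, X.GE i b g (c' a) := by
    intro a
    have h1 : X.SE θ X.H i' b f (c' a) :=
      R.se hθ1 X.le_H hi'e B σ hσ f hf' (v a) ((hv a).mono subset_union_left)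
    have h2 := ge_of_H hθ A.mem hAθ hi'e hf h1
    have h3 := GE.equiv h2 e₀
    have h4 : i'.comp e₀.toEmbedding = i := by
      apply Language.Embedding.ext
      intro x
      change i (e₀.symm (e₀ x)) = i x
      rw [e₀.symm_apply_apply]
    rw [h4] at h3
    exact h3
  -- the submodel
  set S : L.Substructure B.N := cl X.K (range g ∪ range c') with hS
  have hgr : #(range g) = θ := by rw [mk_range_eq _ g.injective, hM]
  have hSle : X.K.le S := le_cl B.mem (hl.trans (hgr.ge.trans (mk_le_mk_of_subset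
    subset_union_left)))
  have hgS : ∀ m, g m ∈ S := fun m => subset_cl X.K _ (Or.inl ⟨m, rfl⟩)
  have hcS : ∀ a, c' a ∈ S := fun a => subset_cl X.K _ (Or.inr ⟨a, rfl⟩)
  let k : M ↪[L] S := g.codRestrict S hgS
  have hk : ∀ m, ((k m : S) : B.N) = g m := fun m => rfl
  let c : κ.ord.ToType → S := fun a => ⟨c' a, hcS a⟩
  have hSE : X.K.Emb S.subtype := AEC.emb_subtype.2 hSle
  have hkg : S.subtype.comp k = g := Language.Embedding.ext fun _ => rfl
  have hkE : X.K.Emb k := AEC.Emb.of_comp hSE (by rw [hkg]; exact hgE)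
  have hSmem : X.K.mem S := hkE.mem_right
  have hge : ∀ a, X.GE i b k (c a) := by
    intro a
    have h1 : X.GE k (c a) (S.subtype.comp k) (S.subtype (c a)) :=
      GE.of_emb k hkE (hl.trans hM.ge) S.subtype hSE (c a)
    rw [hkg] at h1
    exact (hge' a).trans h1.symm
  -- the key: limits
  have hkr : #(range k) = θ := by rw [mk_range_eq _ k.injective, hM]
  have key : ∀ (s : Set κ.ord.ToType) (a : κ.ord.ToType), (∀ x ∈ s, x < a) →
      ∀ k' : M ↪[L] (cl X.K (range k ∪ c '' s) : L.Substructure S),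
        (∀ m, (k' m : S) = k m) →
          X.NF θ k' (cl X.K (range k ∪ c '' s)).subtype (c a) := by
    intro s a hs
    set T : L.Substructure S := cl X.K (range k ∪ c '' s) with hT
    intro k' hk'
    have hTle : X.K.le T := le_cl hSmem (hl.trans (hkr.ge.trans (mk_le_mk_of_subset
      subset_union_left)))
    have hTE : X.K.Emb T.subtype := AEC.emb_subtype.2 hTle
    have hTθ : θ ≤ #T := by
      rw [← hM]
      exact mk_le_of_injective k'.injective
    have hSθ : θ ≤ #S := by
      rw [← hM]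
      exact mk_le_of_injective k.injective
    obtain ⟨U, hU, hU'⟩ := exists_strong_closure B (range σ ∪ {y | ∃ x < a, ∃ q, v x q = y})
    have hTU : ∀ x : T, ((x : S) : B.N) ∈ U := by
      have h1 : T.map S.subtype.toHom ≤ U := by
        rw [hT, map_cl S.subtype hSE (hl.trans (hkr.ge.trans (mk_le_mk_of_subset
          subset_union_left)))]
        refine cl_le X.K hU ?_
        rintro _ ⟨x, ⟨m, rfl⟩ | ⟨x, hx, rfl⟩, rfl⟩
        · change g m ∈ U
          rw [hU']
          have h2 : e₀ m ∈ closure (exLang L X.t.Λ) (range A.c) := by rw [A.top]; trivial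
          obtain ⟨r, hr⟩ := Gr.mem_closure_range.1 h2
          change f (e₀ m) ∈ _
          rw [← hr]
          rw [hf']
          exact Language.Term.realize_mem _ _ fun i => subset_closure ⟨_, Or.inl ⟨i, rfl⟩, rfl⟩
        · change c' x ∈ U
          rw [hU']
          exact Language.Term.realize_mem _ _ fun q =>
            subset_closure ⟨_, Or.inr ⟨x, hs x hx, q, rfl⟩, rfl⟩
      intro x
      exact h1 ⟨x, x.2, rfl⟩
    refine ⟨R.ρ, fun j => e₀.symm (R.τ.realize fun q => A.c (R.w j q)), hρω, R.hχ, R.hρ, ?_⟩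
    intro D hD
    obtain ⟨j₀, hj₀⟩ := real hθ0 B hθJ hρl R.hρ R.τ (hv a) (ι := D) (hD.trans R.hχ)
      (fun d => ((d : T) : S).1) (fun d => (hU' _).1 (hTU d))
    refine ⟨j₀, fun j hj => ?_⟩
    have h1 := hj₀ j hj
    have h2 : ((((k' (e₀.symm (R.τ.realize fun q => A.c (R.w j q))) : T) : S)) : B.N) =
        R.τ.realize fun q => B.c (σ (R.w j q)) := by
      refine (congrArg (fun x : S => (x : B.N)) (hk' _)).trans ?_
      change f (e₀ (e₀.symm _)) = _
      rw [e₀.apply_symm_apply]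
      have h3 := hf' (R.τ.relabel (R.w j))
      rw [Language.Term.realize_relabel, Language.Term.realize_relabel] at h3
      exact h3
    have h4 := E.adj_emb hθ0 T.subtype hTE hTθ (fun d : D => (d : T))
      (k' (e₀.symm (R.τ.realize fun q => A.c (R.w j q))))
    have h5 := E.adj_emb hθ0 S.subtype hSE hSθ (fun d : D => T.subtype (d : T))
      (T.subtype (k' (e₀.symm (R.τ.realize fun q => A.c (R.w j q)))))
    have h6 := E.adj_emb hθ0 S.subtype hSE hSθ (fun d : D => T.subtype (d : T)) (c a)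
    refine (h4.trans h5).trans (E.trans ?_ h6.symm)
    have h7 : S.subtype (T.subtype (k' (e₀.symm (R.τ.realize fun q => A.c (R.w j q))))) =
        R.τ.realize fun q => B.c (σ (R.w j q)) := h2
    rw [h7]
    exact h1
  -- injectivity of `c`
  have hck : ∀ a, c a ∉ range k := by
    rintro a ⟨m, hm⟩
    exact hb ⟨m, ((hge a).mem_range_iff m).2 hm.symm |>.symm⟩
  have hcne : ∀ x a, x < a → c a ≠ c x := by
    intro x a hxa hc
    set T : L.Substructure S := cl X.K (range k ∪ c '' {x}) with hT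
    have hkT : ∀ m, k m ∈ T := fun m => subset_cl X.K _ (Or.inl ⟨m, rfl⟩)
    let k' : M ↪[L] T := k.codRestrict T hkT
    have h1 := key {x} a (by rintro _ rfl; exact hxa) k' fun m => rfl
    have hTle : X.K.le T := le_cl hSmem (hl.trans (hkr.ge.trans (mk_le_mk_of_subset
      subset_union_left)))
    have hTE : X.K.Emb T.subtype := AEC.emb_subtype.2 hTle
    have hk'k : T.subtype.comp k' = k := Language.Embedding.ext fun _ => rfl
    have hk'E : X.K.Emb k' := AEC.Emb.of_comp hTE (by rw [hk'k]; exact hkE)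
    have hTθ : #T = θ := by
      apply le_antisymm
      · refine (mk_cl_le hSmem _).trans ?_
        have h2 : #(range k ∪ c '' {x} : Set S) ≤ θ := by
          refine (mk_union_le _ _).trans ?_
          rw [hkr, image_singleton, mk_singleton]
          exact (add_le_add le_rfl (one_le_aleph0.trans hω)).trans_eq (add_eq_self hω)
        exact (add_le_add h2 hl).trans_eq (add_eq_self hω)
      · rw [← hM]
        exact mk_le_of_injective k'.injective
    refine NF.notMem hθ hM hTθ hk'E hTE h1 ?_ ?_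
    · rintro ⟨m, hm⟩
      exact hck a ⟨m, hm⟩
    · rw [hc]
      exact ⟨⟨c x, subset_cl X.K _ (Or.inr ⟨x, rfl, rfl⟩)⟩, rfl⟩
  have hcinj : Function.Injective c := by
    intro x a h
    rcases lt_trichotomy x a with h1 | h1 | h1
    · exact absurd h.symm (hcne x a h1)
    · exact h1
    · exact absurd h (hcne a x h1)
  refine ⟨S, inferInstance, k, c, hkE, ?_, ?_, hge, fun s a _ hs => key s a hs⟩
  · apply le_antisymm
    · refine (mk_cl_le B.mem _).trans ?_
      have h2 : #(range g ∪ range c' : Set B.N) ≤ κ := by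
        refine (mk_union_le _ _).trans ?_
        rw [hgr]
        have h3 : #(range c') ≤ κ := mk_range_le.trans (by rw [mk_ord_toType])
        exact (add_le_add hκ h3).trans_eq (add_eq_self hωκ)
      exact (add_le_add h2 (hl.trans hκ)).trans_eq (add_eq_self hωκ)
    · have h2 := mk_le_of_injective hcinj
      rwa [mk_ord_toType] at h2
  · apply map_injective_of_injective (f := S.subtype.toHom) S.subtype.injective
    rw [map_cl S.subtype hSE (hl.trans (hkr.ge.trans (mk_le_mk_of_subset subset_union_left)))]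
    have h1 : (S.subtype '' (range k ∪ range c) : Set B.N) = range g ∪ range c' := by
      rw [image_union, ← range_comp, ← range_comp]
      rfl
    rw [h1, ← hS]
    ext x
    constructor
    · intro hx
      exact ⟨⟨x, hx⟩, trivial, rfl⟩
    · rintro ⟨y, -, rfl⟩
      exact y.2

end Ctx

end Vale.Agent.P307.R2.H301
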