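import Vale.Agent.P307.R2.H301.Av
import Vale.Agent.P307.R2.H514.DkCore

set_option linter.unusedSectionVars false

universe u v w

open FirstOrder Cardinal Set

namespace Vale.Agent.P307.R2.H301

open Vale.Agent.P307 Vale.Agent.P307.H304 Vale.Agent.P307.R2.H287 Language.Structure
  Language.Substructure

variable {L : Language.{u, u}} {X : Ctx L} {θ : Cardinal.{u}}
variable {M N P : Type u} [L.Structure M] [L.Structure N] [L.Structure P]

namespace Ctx

/-- Tameness over standard models. -/
theorem exists_H (X : Ctx L) : ∃ H, X.l ≤ H ∧ ∀ θ, X.Adm θ → H < θ → ∀ (A : EM X.t θ.ord.ToType)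
    (J : Type u) [LinearOrder J] (B : EM X.t J) (σ : θ.ord.ToType → J) (_ : StrictMono σ)
    (f : A.N ↪[L] B.N) (_ : ∀ s : (exLang L X.t.Λ).Term θ.ord.ToType,
      f (s.realize A.c) = s.realize fun i => B.c (σ i)) (Q Q' : Type u) [Finite Q] [Finite Q']
    (τ : (exLang L X.t.Λ).Term Q) (τ' : (exLang L X.t.Λ).Term Q') (v : Q → J) (v' : Q' → J),
    X.SE θ H f (τ.realize fun q => B.c (v q)) f (τ'.realize fun q => B.c (v' q)) → ∀ χ < θ,
      X.SE θ χ f (τ.realize fun q => B.c (v q)) f (τ'.realize fun q => B.c (v' q)) :=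
  H514.ctx_exists_H X

/-- The tameness cardinal. -/
noncomputable def H (X : Ctx L) : Cardinal.{u} := X.exists_H.choose

theorem le_H (X : Ctx L) : X.l ≤ X.H := X.exists_H.choose_spec.1

/-- The second strengthening of admissibility. -/
structure Adm2 (X : Ctx L) (θ : Cardinal.{u}) : Prop extends X.Adm1 θ where
  H : X.H < θ

end Ctx

end Vale.Agent.P307.R2.H301
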