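import Vale.Agent.P307.R2.H301.Min

set_option linter.unusedSectionVars false

universe u v w

open FirstOrder Cardinal Set

namespace Vale.Agent.P307.R2.H301

open Vale.Agent.P307 Vale.Agent.P307.H304 Vale.Agent.P307.R2.H287 Language.Structure
  Language.Substructure

variable {L : Language.{u, u}} {X : Ctx L} {θ : Cardinal.{u}}
variable {M N P : Type u} [L.Structure M] [L.Structure N] [L.Structure P]

namespace Ctx

theorem exchange_aux (hθ : X.Adm3 θ) (q : MinPt X θ) {i : q.M ↪[L] N} (hi : X.K.Emb i)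
    {A : Set N} (hA : range i ⊆ A) (hAθ : #A = θ) {a c : N} (hc : q.Real i c)
    (h1 : c ∉ cl X.K (insert a A)) (h2 : a ∈ cl X.K (insert c A)) : a ∈ cl X.K A := by
  have hl : X.l < θ := hθ.lt
  have hw : ℵ₀ ≤ X.l := X.hK.1
  have hNmem : X.K.mem N := hi.mem_right
  have hNbig : X.Big θ N := Big.of_emb i hi q.card.ge
  have hins : X.l ≤ #(insert a A : Set N) :=
    (hl.le.trans hAθ.ge).trans (mk_le_mk_of_subset (subset_insert a A))
  have hS0 : X.K.le (cl X.K (insert a A)) := le_cl hNmem hins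
  set S0 : L.Substructure N := cl X.K (insert a A) with hS0def
  have hAS0 : insert a A ⊆ (S0 : Set N) := subset_cl X.K _
  have hcard : #S0 = θ := by
    apply le_antisymm
    · refine (mk_cl_le hNmem _).trans ?_
      refine (add_le_add_left (mk_insert_le) _).trans ?_
      rw [hAθ]
      have hθinf : ℵ₀ ≤ θ := hw.trans hl.le
      rw [add_one_eq hθinf, add_eq_left hθinf hl.le]
    · rw [← hAθ]
      exact mk_le_mk_of_subset ((subset_insert a A).trans hAS0)
  have hjEmb : X.K.Emb S0.subtype := AEC.emb_subtype.2 hS0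
  have hiS0 : ∀ m, i m ∈ S0 := fun m => hAS0 (mem_insert_of_mem _ (hA ⟨m, rfl⟩))
  let k : q.M ↪[L] S0 := i.codRestrict S0 hiS0
  have hjk : S0.subtype.comp k = i := by
    ext m
    rfl
  have hkEmb : X.K.Emb k := AEC.Emb.of_comp hjEmb (by rw [hjk]; exact hi)
  have hcS0 : c ∉ range S0.subtype := by
    rintro ⟨y, hy⟩
    exact h1 (hy ▸ y.2)
  obtain ⟨ρ, e, -, -, -, hlim⟩ := MinPt.nf hθ q hkEmb hcard hjEmb hcS0 (by rw [hjk]; exact hc)
  have hins2 : X.l ≤ #(insert c A : Set N) :=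
    (hl.le.trans hAθ.ge).trans (mk_le_mk_of_subset (subset_insert c A))
  obtain ⟨D0, hD0, hD0c, haD0⟩ := exists_small hNmem hins2 h2
  let D1 : Set N := D0 \ {c}
  have hD1A : D1 ⊆ A := by
    rintro x ⟨hx, hxc⟩
    rcases hD0 hx with h | h
    · exact absurd h hxc
    · exact h
  have hD1S0 : D1 ⊆ (S0 : Set N) := (hD1A.trans (subset_insert a A)).trans hAS0
  have hD1le : #D1 ≤ X.l := hD0c ▸ mk_le_mk_of_subset sdiff_subset
  have hD1c : X.l ≤ #D1 := by
    by_contra hlt
    rw [not_le] at hlt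
    have h3 : D0 ⊆ insert c D1 := by
      intro x hx
      by_cases hxc : x = c
      · exact Or.inl hxc
      · exact Or.inr ⟨hx, hxc⟩
    have h4 : X.l ≤ #D1 + 1 := by
      rw [← hD0c]
      exact (mk_le_mk_of_subset h3).trans mk_insert_le
    have h5 : #D1 + 1 < X.l := add_lt_of_lt hw hlt (one_lt_aleph0.trans_le hw)
    exact absurd h4 (not_le.2 h5)
  have haD1 : a ∈ cl X.K (insert c D1) := by
    refine cl_mono X.K ?_ haD0
    intro x hx
    by_cases hxc : x = c
    · exact Or.inl hxc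
    · exact Or.inr ⟨hx, hxc⟩
  have haS0 : a ∈ S0 := hAS0 (mem_insert a A)
  let D : Set S0 := {d | (d : N) ∈ insert a D1}
  have hDc : #D ≤ X.l := by
    have h3 : #D ≤ #(insert a D1 : Set N) :=
      mk_le_of_injective (f := fun d : D => (⟨((d : S0) : N), d.2⟩ : (insert a D1 : Set N)))
        (fun d d' h => Subtype.ext (Subtype.ext
          (congrArg (fun z : (insert a D1 : Set N) => (z : N)) h)))
    refine h3.trans (mk_insert_le.trans ?_)
    exact (add_le_add_left hD1le 1).trans (add_one_eq hw).le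
  obtain ⟨x0, hx0⟩ := hlim D (hDc.trans X.le_H)
  have hE := hx0 x0 le_rfl
  let D1' : Type u := {d : D // ((d : S0) : N) ∈ D1}
  let a' : D := ⟨⟨a, haS0⟩, Or.inl rfl⟩
  let g : (D1' ⊕ PUnit.{u + 1}) ⊕ PUnit.{u + 1} → D ⊕ PUnit.{u + 1} :=
    Sum.elim (Sum.elim (fun d => Sum.inl d.1) fun _ => Sum.inr PUnit.unit) fun _ => Sum.inl a'
  have hDθ : #(D ⊕ PUnit.{u + 1}) < θ := by
    rw [mk_sum, lift_id, lift_id, mk_punit]
    exact add_lt_of_lt (hw.trans hl.le) (hDc.trans_lt hl) (one_lt_aleph0.trans_le (hw.trans hl.le))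
  have hD1' : #D1' ≤ X.l := (mk_subtype_le _).trans hDc
  have hιθ : #(D1' ⊕ PUnit.{u + 1}) < θ := by
    rw [mk_sum, lift_id, lift_id, mk_punit]
    exact add_lt_of_lt (hw.trans hl.le) (hD1'.trans_lt hl)
      (one_lt_aleph0.trans_le (hw.trans hl.le))
  have hE2 := E.comp hθ.toAdm hE hDθ g
  let xx : D1' ⊕ PUnit.{u + 1} → S0 := Sum.elim (fun d => (d.1 : S0)) fun _ => k (e x0)
  let yy : D1' ⊕ PUnit.{u + 1} → N := Sum.elim (fun d => ((d.1 : S0) : N)) fun _ => c
  have hE3 : X.E θ (Sum.elim xx fun _ : PUnit.{u + 1} => (⟨a, haS0⟩ : S0))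
      (Sum.elim yy fun _ : PUnit.{u + 1} => a) := by
    convert hE2 using 1
    · funext t
      rcases t with (t | t) | t <;> rfl
    · funext t
      rcases t with (t | t) | t <;> rfl
  have hxx : X.l ≤ #(range xx) := by
    refine hD1c.trans ?_
    refine mk_le_of_injective (f := fun d : D1 =>
      (⟨⟨(d : N), hD1S0 d.2⟩, ⟨Sum.inl ⟨⟨⟨(d : N), hD1S0 d.2⟩, Or.inr d.2⟩, d.2⟩, rfl⟩⟩ :
        range xx)) ?_
    intro d d' h
    apply Subtype.ext
    exact congrArg (fun z : range xx => ((z : S0) : N)) h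
  have hyy : insert c D1 ⊆ range yy := by
    rintro y (rfl | hy)
    · exact ⟨Sum.inr PUnit.unit, rfl⟩
    · exact ⟨Sum.inl ⟨⟨⟨y, hD1S0 hy⟩, Or.inr hy⟩, hy⟩, rfl⟩
  have hmem := (E.mem_cl hθ.toAdm (M := S0) (N := N) ⟨hjEmb.mem_left, hcard.ge⟩ hNbig hιθ
    (by rw [mk_punit]; exact one_lt_aleph0.trans_le (hw.trans hl.le)) hE3 hxx PUnit.unit).2
    (cl_mono X.K hyy haD1)
  have h6 : (a : N) ∈ (cl X.K (range xx)).map S0.subtype.toHom := ⟨⟨a, haS0⟩, hmem, rfl⟩
  rw [map_cl S0.subtype hjEmb hxx] at h6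
  refine cl_mono X.K ?_ h6
  rintro _ ⟨_, ⟨t, rfl⟩, rfl⟩
  rcases t with t | t
  · exact hD1A t.2
  · exact hA ⟨e x0, rfl⟩

/-- The exchange property. -/
theorem MinPt.exchange (hθ : X.Adm3 θ) (q : MinPt X θ) {i : q.M ↪[L] N} (hi : X.K.Emb i)
    {A : Set N} (hA : range i ⊆ A) {a c : N} (hc : q.Real i c)
    (h1 : c ∉ cl X.K (insert a A)) (h2 : a ∈ cl X.K (insert c A)) : a ∈ cl X.K A := by
  have hl : X.l < θ := hθ.lt
  have hw : ℵ₀ ≤ X.l := X.hK.1
  have hθinf : ℵ₀ ≤ θ := hw.trans hl.le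
  have hri : #(range i) = θ := by
    rw [mk_range_eq _ i.injective]
    exact q.card
  obtain ⟨s, hsA, hsf, has⟩ := exists_finite (X := X) hi.mem_right (A := A)
    (B := insert c (range i)) (x := a)
    (hl.le.trans (hri.ge.trans (mk_le_mk_of_subset (subset_insert c _))))
    (cl_mono X.K (by
      rintro x (rfl | hx)
      · exact Or.inr (Or.inl rfl)
      · exact Or.inl hx) h2)
  have h3 : s ∪ range i ⊆ A := union_subset hsA hA
  have h4 : #(s ∪ range i : Set N) = θ := by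
    apply le_antisymm
    · refine (mk_union_le _ _).trans ?_
      rw [hri]
      have : #s < ℵ₀ := hsf.lt_aleph0
      exact (add_eq_right hθinf (this.le.trans hθinf)).le
    · exact hri.ge.trans (mk_le_mk_of_subset subset_union_right)
  refine cl_mono X.K h3 (exchange_aux hθ q hi subset_union_right h4 hc ?_ ?_)
  · exact fun h => h1 (cl_mono X.K (insert_subset_insert h3) h)
  · refine cl_mono X.K ?_ has
    rintro x (hx | rfl | hx)
    · exact Or.inr (Or.inl hx)
    · exact Or.inl rfl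
    · exact Or.inr (Or.inr hx)

end Ctx

end Vale.Agent.P307.R2.H301
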