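import Vale.Agent.P307.R2.H672.Uni

set_option linter.unusedSectionVars false

universe u v w

open FirstOrder Cardinal Set

namespace Vale.Agent.P307.R2.H301

open Vale.Agent.P307 Vale.Agent.P307.H304 Vale.Agent.P307.R2.H287 Language.Structure
  Language.Substructure

variable {L : Language.{u, u}} {X : Ctx L} {θ : Cardinal.{u}}
variable {M N P : Type u} [L.Structure M] [L.Structure N] [L.Structure P]

namespace Ctx

/-- The class is categorical above `θ`. -/
theorem categoricalIn (hθ : X.Adm3 θ) (χ : Cardinal.{u}) (hχ : θ ≤ χ) :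
    X.K.CategoricalIn χ := by
  refine ⟨exists_member X (hθ.lt.le.trans hχ), fun M N _ _ hM hN hMc hNc => ?_⟩
  rcases hχ.eq_or_lt with rfl | hlt
  · obtain ⟨e, -⟩ := exists_iso_of_E hθ.toAdm2.toAdm hM hN hMc hNc (ι := PEmpty.{u + 1})
      (by rw [mk_pempty]; exact aleph0_pos.trans hθ.aleph0_lt)
      (E.empty hθ.toAdm2.toAdm ⟨hM, hMc.ge⟩ ⟨hN, hNc.ge⟩ PEmpty.elim PEmpty.elim)
    exact ⟨e⟩
  · obtain ⟨q⟩ := exists_minPt hθ
    exact exists_equiv_of_card hθ q hM hN (hMc.trans hNc.symm) (hlt.trans_eq hMc.symm)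

end Ctx

end Vale.Agent.P307.R2.H301
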