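import Vale.Agent.P307.R2.H301.Cl

set_option linter.unusedSectionVars false

universe u v w

open FirstOrder Cardinal Set

namespace Vale.Agent.P307.R2.H301

open Vale.Agent.P307 Vale.Agent.P307.H304 Vale.Agent.P307.R2.H287 Language.Structure
  Language.Substructure

variable {L : Language.{u, u}} {X : Ctx L} {θ : Cardinal.{u}}
variable {M N P : Type u} [L.Structure M] [L.Structure N] [L.Structure P]

namespace Ctx

/-- The closure of the EM model of `U` and of a part of the family `b`. -/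
def Fc {J : Type u} [LinearOrder J] (B : EM X.t J) (U : Set J) {n : Type u} (b : n → B.N)
    (s : Set n) : L.Substructure B.N :=
  cl X.K ((closure (exLang L X.t.Λ) (B.c '' U) : Set B.N) ∪ b '' s)

/-- Automorphisms of `Fc B U b univ` fixing `b` and the faces in `𝒮`. -/
def Fix {J : Type u} [LinearOrder J] (B : EM X.t J) (U : Set J) {n : Type u} (b : n → B.N)
    (𝒮 : Set (Set n)) (g : B.N → B.N) : Prop :=
  IsoS g (Fc B U b univ) (Fc B U b univ) ∧ (∀ x ∈ Fc B U b ∅, g x = x) ∧ (∀ m, g (b m) = b m) ∧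
    ∀ s ∈ 𝒮, ∀ x ∈ Fc B U b s, g x = x

/-- The closure of the EM model of `U` and of the set `R`. -/
def Gc {J : Type u} [LinearOrder J] (B : EM X.t J) (U : Set J) (R : Set B.N) :
    L.Substructure B.N :=
  cl X.K ((closure (exLang L X.t.Λ) (B.c '' U) : Set B.N) ∪ R)

/-- Automorphisms of `Gc B U R` fixing `R` and the faces in `𝒯`. -/
structure Fx {J : Type u} [LinearOrder J] (B : EM X.t J) (U : Set J) (R : Set B.N)
    (𝒯 : Set (Set B.N)) (g : B.N → B.N) : Prop where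
  iso : IsoS g (Gc B U R) (Gc B U R)
  base : ∀ x ∈ Gc B U ∅, g x = x
  fix : ∀ x ∈ R, g x = x
  face : ∀ T ∈ 𝒯, ∀ x ∈ Gc B U T, g x = x

theorem fix_iff {J : Type u} [LinearOrder J] (B : EM X.t J) (U : Set J) {n : Type u}
    (b : n → B.N) (𝒮 : Set (Set n)) (g : B.N → B.N) :
    Fix B U b 𝒮 g ↔ Fx B U (range b) ((fun s => b '' s) '' 𝒮) g := by
  have h1 : ∀ s : Set n, Fc B U b s = Gc B U (b '' s) := fun _ => rfl
  have h2 : Fc B U b univ = Gc B U (range b) := by rw [h1, image_univ]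
  have h3 : Fc B U b ∅ = Gc B U ∅ := by rw [h1, image_empty]
  constructor
  · rintro ⟨h4, h5, h6, h7⟩
    rw [h2] at h4
    rw [h3] at h5
    refine ⟨h4, h5, ?_, ?_⟩
    · rintro _ ⟨m, rfl⟩
      exact h6 m
    · rintro _ ⟨s, hs, rfl⟩
      exact h7 s hs
  · rintro ⟨h4, h5, h6, h7⟩
    rw [← h2] at h4
    rw [← h3] at h5
    exact ⟨h4, h5, fun m => h6 _ ⟨m, rfl⟩, fun s hs => h7 _ ⟨s, hs, rfl⟩⟩

section maps

variable {I J : Type u} [LinearOrder I] [LinearOrder J]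

theorem le_mk_gen (B : EM X.t J) {U : Set J} (hU : X.l ≤ #U) (R : Set B.N) :
    X.l ≤ #((closure (exLang L X.t.Λ) (B.c '' U) : Set B.N) ∪ R : Set B.N) := by
  refine hU.trans ?_
  rw [← mk_image_eq B.inj]
  exact mk_le_mk_of_subset (subset_closure.trans subset_union_left)

theorem gen_subset (B : EM X.t J) (U : Set J) (R : Set B.N) :
    ((closure (exLang L X.t.Λ) (B.c '' U) : Set B.N) ∪ R : Set B.N) ⊆ Gc B U R :=
  subset_cl _ _

theorem gc_mono (B : EM X.t J) {U U' : Set J} (hU : U ⊆ U') {R R' : Set B.N} (hR : R ⊆ R') :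
    Gc B U R ≤ Gc B U' R' :=
  cl_mono _ (union_subset_union (closure_mono (image_mono hU)) hR)

theorem le_gc (B : EM X.t J) {U : Set J} (hU : X.l ≤ #U) (R : Set B.N) : X.K.le (Gc B U R) :=
  le_cl B.mem (le_mk_gen B hU R)

variable (A : EM X.t I) (B : EM X.t J) (σ : I → J) (f : A.N ↪[L] B.N)

theorem image_closure (hf : ∀ s : (exLang L X.t.Λ).Term I,
    f (s.realize A.c) = s.realize fun i => B.c (σ i)) (U : Set I) :
    f '' (closure (exLang L X.t.Λ) (A.c '' U) : Set A.N) =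
      (closure (exLang L X.t.Λ) (B.c '' (σ '' U)) : Set B.N) := by
  have hA : A.c '' U = range fun i : U => A.c i := by
    rw [image_eq_range]
  have hB : B.c '' (σ '' U) = range fun i : U => B.c (σ i) := by
    rw [← image_comp, image_eq_range]
    rfl
  have key : ∀ s : (exLang L X.t.Λ).Term U, f (s.realize fun i : U => A.c i) =
      s.realize fun i : U => B.c (σ i) := by
    intro s
    have h := hf (s.relabel Subtype.val)
    rw [Language.Term.realize_relabel, Language.Term.realize_relabel] at h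
    exact h
  rw [hA, hB]
  ext y
  constructor
  · rintro ⟨x, hx, rfl⟩
    obtain ⟨s, rfl⟩ := Gr.mem_closure_range.1 hx
    exact Gr.mem_closure_range.2 ⟨s, (key s).symm⟩
  · intro hy
    obtain ⟨s, rfl⟩ := Gr.mem_closure_range.1 hy
    exact ⟨_, Gr.mem_closure_range.2 ⟨s, rfl⟩, key s⟩

theorem map_gc (hf : ∀ s : (exLang L X.t.Λ).Term I,
    f (s.realize A.c) = s.realize fun i => B.c (σ i)) (hfe : X.K.Emb f) {U : Set I}
    (hU : X.l ≤ #U) (R : Set A.N) : (Gc A U R).map f.toHom = Gc B (σ '' U) (f '' R) := by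
  unfold Gc
  rw [map_cl f hfe (le_mk_gen A hU R), image_union, image_closure A B σ f hf]

theorem isoS_map (S : L.Substructure A.N) : IsoS f S (S.map f.toHom) :=
  ⟨f.substructureEquivMap S, fun _ => rfl⟩

theorem mk_image_strict (hσ : StrictMono σ) {U : Set I} (hU : X.l ≤ #U) :
    X.l ≤ #(σ '' U) := by
  rwa [mk_image_eq hσ.injective]

/-- Pushing forward automorphisms. -/
theorem Fx.push (hf : ∀ s : (exLang L X.t.Λ).Term I,
    f (s.realize A.c) = s.realize fun i => B.c (σ i)) (hfe : X.K.Emb f) {U : Set I}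
    (hU : X.l ≤ #U) {R : Set A.N} {𝒯 : Set (Set A.N)} (h𝒯 : ∀ T ∈ 𝒯, T ⊆ R) {g : A.N → A.N}
    (hg : Fx A U R 𝒯 g) : ∃ g' : B.N → B.N,
      Fx B (σ '' U) (f '' R) ((fun T => f '' T) '' 𝒯) g' ∧ ∀ x ∈ Gc A U R, g' (f x) = f (g x) := by
  have : Nonempty A.N := by
    have h1 : (0 : Cardinal.{u}) < #U := (X.hK.1.trans_lt' aleph0_pos).trans_le hU
    obtain ⟨i⟩ := mk_ne_zero_iff.1 h1.ne'
    exact ⟨A.c i⟩
  obtain ⟨m₀⟩ := (inferInstance : Nonempty A.N)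
  have h1 := isoS_map A B f (Gc A U R)
  rw [map_gc A B σ f hf hfe hU] at h1
  obtain ⟨fi, hfi, hfi1, -⟩ := h1.exists_inv m₀
  have key : ∀ x ∈ Gc A U R, f (g (fi (f x))) = f (g x) := fun x hx => by rw [hfi1 x hx]
  have hsub : ∀ T : Set A.N, T ⊆ R → ∀ y ∈ Gc B (σ '' U) (f '' T),
      ∃ x ∈ Gc A U T, f x = y ∧ x ∈ Gc A U R := by
    intro T hT y hy
    rw [← map_gc A B σ f hf hfe hU] at hy
    obtain ⟨x, hx, rfl⟩ := hy
    exact ⟨x, hx, rfl, gc_mono A le_rfl hT hx⟩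
  refine ⟨fun y => f (g (fi y)), ⟨?_, ?_, ?_, ?_⟩, key⟩
  · exact h1.comp (hg.iso.comp hfi)
  · intro y hy
    rw [← image_empty (f := f)] at hy
    obtain ⟨x, hx, rfl, hx'⟩ := hsub ∅ (empty_subset _) y hy
    rw [key x hx', hg.base x hx]
  · rintro _ ⟨x, hx, rfl⟩
    rw [key x (gen_subset A U R (Or.inr hx)), hg.fix x hx]
  · rintro _ ⟨T, hT, rfl⟩ y hy
    obtain ⟨x, hx, rfl, hx'⟩ := hsub T (h𝒯 T hT) y hy
    rw [key x hx', hg.face T hT x hx]

/-- An automorphism fixing generators restricts. -/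
theorem Fx.restrict {U U' : Set J} (hUU : U ⊆ U') (hU : X.l ≤ #U) {R : Set B.N}
    {𝒯 : Set (Set B.N)} {g : B.N → B.N} (hg : Fx B U' R 𝒯 g) : Fx B U R 𝒯 g := by
  have hU' : X.l ≤ #U' := hU.trans (mk_le_mk_of_subset hUU)
  refine ⟨?_, fun x hx => hg.base x (gc_mono B hUU le_rfl hx), hg.fix,
    fun T hT x hx => hg.face T hT x (gc_mono B hUU le_rfl hx)⟩
  have h1 := isoS_cl hg.iso (le_gc B hU' R) (le_gc B hU' R) (le_mk_gen B hU R)
    ((gen_subset B U R).trans (gc_mono B hUU le_rfl))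
  have h2 : g '' ((closure (exLang L X.t.Λ) (B.c '' U) : Set B.N) ∪ R : Set B.N) =
      ((closure (exLang L X.t.Λ) (B.c '' U) : Set B.N) ∪ R : Set B.N) := by
    have h3 : ∀ x ∈ ((closure (exLang L X.t.Λ) (B.c '' U) : Set B.N) ∪ R : Set B.N),
        g x = x := by
      rintro x (hx | hx)
      · exact hg.base x (gc_mono B hUU le_rfl (gen_subset B U ∅ (Or.inl hx)))
      · exact hg.fix x hx
    rw [image_congr h3, image_id']
  rw [h2] at h1
  exact h1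

/-- Pulling back automorphisms. -/
theorem Fx.pull (hf : ∀ s : (exLang L X.t.Λ).Term I,
    f (s.realize A.c) = s.realize fun i => B.c (σ i)) (hfe : X.K.Emb f) (hσ : StrictMono σ)
    {U : Set I} (hU : X.l ≤ #U) {R : Set A.N} {𝒯 : Set (Set A.N)} (h𝒯 : ∀ T ∈ 𝒯, T ⊆ R)
    {U' : Set J} (hU' : σ '' U ⊆ U') {g : B.N → B.N}
    (hg : Fx B U' (f '' R) ((fun T => f '' T) '' 𝒯) g) : ∃ g' : A.N → A.N,
      Fx A U R 𝒯 g' ∧ ∀ x ∈ Gc A U R, f (g' x) = g (f x) := by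
  have : Nonempty A.N := by
    have h1 : (0 : Cardinal.{u}) < #U := (X.hK.1.trans_lt' aleph0_pos).trans_le hU
    obtain ⟨i⟩ := mk_ne_zero_iff.1 h1.ne'
    exact ⟨A.c i⟩
  obtain ⟨m₀⟩ := (inferInstance : Nonempty A.N)
  replace hg := hg.restrict B hU' (mk_image_strict σ hσ hU)
  have h1 := isoS_map A B f (Gc A U R)
  rw [map_gc A B σ f hf hfe hU] at h1
  obtain ⟨fi, hfi, hfi1, hfi2⟩ := h1.exists_inv m₀
  have key : ∀ x ∈ Gc A U R, f (fi (g (f x))) = g (f x) := fun x hx =>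
    hfi2 _ (hg.iso.mem (h1.mem hx))
  have hmem : ∀ T : Set A.N, ∀ x ∈ Gc A U T, f x ∈ Gc B (σ '' U) (f '' T) := by
    intro T x hx
    rw [← map_gc A B σ f hf hfe hU]
    exact ⟨x, hx, rfl⟩
  refine ⟨fun x => fi (g (f x)), ⟨?_, ?_, ?_, ?_⟩, key⟩
  · exact hfi.comp (hg.iso.comp h1)
  · intro x hx
    have h2 := hmem ∅ x hx
    rw [image_empty] at h2
    rw [hg.base _ h2]
    exact hfi1 x (gc_mono A le_rfl (empty_subset _) hx)
  · intro x hx
    rw [hg.fix _ ⟨x, hx, rfl⟩]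
    exact hfi1 x (gen_subset A U R (Or.inr hx))
  · intro T hT x hx
    rw [hg.face _ ⟨T, hT, rfl⟩ _ (hmem T x hx)]
    exact hfi1 x (gc_mono A le_rfl (h𝒯 T hT) hx)

end maps

section lift

variable {I : Type u} [LinearOrder I] (A : EM X.t I) (U : Set I) (R : Set A.N)
  (𝒯 : Set (Set A.N)) (α : A.N → A.N)

/-- The configuration lifts to the order `V` put on top. -/
def Lift (V : Type u) [LinearOrder V] : Prop :=
  ∃ (J : Type u) (_ : LinearOrder J) (B : EM X.t J) (σ : I → J) (τ : V → J) (f : A.N ↪[L] B.N),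
    StrictMono σ ∧ StrictMono τ ∧ (∀ i v, σ i < τ v) ∧ X.K.Emb f ∧
    (∀ s : (exLang L X.t.Λ).Term I, f (s.realize A.c) = s.realize fun i => B.c (σ i)) ∧
    ∃ g : B.N → B.N, Fx B (σ '' U ∪ range τ) (f '' R) ((fun T => f '' T) '' 𝒯) g ∧
      ∀ x ∈ Gc A U R, g (f x) = f (α x)

variable {A U R 𝒯 α}

theorem Lift.transfer (hU : X.l ≤ #U) (h𝒯 : ∀ T ∈ 𝒯, T ⊆ R)
    {V V₁ : Type u} [LinearOrder V] [LinearOrder V₁] (hV : Lift A U R 𝒯 α V) (h : V₁ → V)
    (hh : StrictMono h) {J₁ : Type u} [LinearOrder J₁] (B₁ : EM X.t J₁) (σ₁ : I → J₁)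
    (τ₁ : V₁ → J₁) (f₁ : A.N ↪[L] B₁.N) (hσ₁ : StrictMono σ₁) (hτ₁ : StrictMono τ₁)
    (hστ₁ : ∀ i v, σ₁ i < τ₁ v) (hf₁ : ∀ s : (exLang L X.t.Λ).Term I,
      f₁ (s.realize A.c) = s.realize fun i => B₁.c (σ₁ i)) :
    ∃ g : B₁.N → B₁.N, Fx B₁ (σ₁ '' U ∪ range τ₁) (f₁ '' R) ((fun T => f₁ '' T) '' 𝒯) g ∧
      ∀ x ∈ Gc A U R, g (f₁ x) = f₁ (α x) := by
  obtain ⟨J, oJ, B, σ, τ, f, hσ, hτ, hστ, hfe, hf, g, hg, hgα⟩ := hV
  -- the model of the sum
  obtain ⟨C⟩ := exists_em X.t (I ⊕ₗ V₁)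
  let φ : I ⊕ₗ V₁ → J := fun z => Sum.elim σ (τ ∘ h) (ofLex z)
  let ψ : I ⊕ₗ V₁ → J₁ := fun z => Sum.elim σ₁ τ₁ (ofLex z)
  let ι : I → I ⊕ₗ V₁ := fun i => toLex (Sum.inl i)
  have hmono : ∀ {J : Type u} [LinearOrder J] (a : I → J) (b : V₁ → J), StrictMono a →
      StrictMono b → (∀ i v, a i < b v) → StrictMono fun z : I ⊕ₗ V₁ =>
        Sum.elim a b (ofLex z) := by
    intro J _ a b ha hb hab x y hxy
    obtain ⟨x, rfl⟩ : ∃ x', toLex x' = x := ⟨ofLex x, rfl⟩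
    obtain ⟨y, rfl⟩ : ∃ y', toLex y' = y := ⟨ofLex y, rfl⟩
    rcases x with x | x <;> rcases y with y | y
    · exact ha (Sum.Lex.inl_lt_inl_iff.1 hxy)
    · exact hab _ _
    · exact absurd hxy Sum.Lex.not_inr_lt_inl
    · exact hb (Sum.Lex.inr_lt_inr_iff.1 hxy)
  have hφ : StrictMono φ := hmono σ (τ ∘ h) hσ (hτ.comp hh) (fun i v => hστ i (h v))
  have hψ : StrictMono ψ := hmono σ₁ τ₁ hσ₁ hτ₁ hστ₁
  have hι : StrictMono ι := fun i j hij => Sum.Lex.inl_lt_inl_iff.2 hij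
  obtain ⟨F, hFe, hF⟩ := C.exists_map B φ hφ
  obtain ⟨G, hGe, hG⟩ := C.exists_map B₁ ψ hψ
  obtain ⟨H, hHe, hH⟩ := A.exists_map C ι hι
  have hrep : ∀ x : A.N, ∃ s : (exLang L X.t.Λ).Term I, s.realize A.c = x := by
    intro x
    have hx : x ∈ closure (exLang L X.t.Λ) (range A.c) := by rw [A.top]; trivial
    exact Gr.mem_closure_range.1 hx
  have hFH : ∀ x, F (H x) = f x := by
    intro x
    obtain ⟨s, rfl⟩ := hrep x
    rw [hH, hf]
    have h1 := hF (s.relabel ι)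
    rw [Language.Term.realize_relabel, Language.Term.realize_relabel] at h1
    exact h1
  have hGH : ∀ x, G (H x) = f₁ x := by
    intro x
    obtain ⟨s, rfl⟩ := hrep x
    rw [hH, hf₁]
    have h1 := hG (s.relabel ι)
    rw [Language.Term.realize_relabel, Language.Term.realize_relabel] at h1
    exact h1
  let U' : Set (I ⊕ₗ V₁) := ι '' U ∪ range fun v : V₁ => (toLex (Sum.inr v) : I ⊕ₗ V₁)
  have hlU' : X.l ≤ #U' := by
    refine le_trans ?_ (mk_le_mk_of_subset (subset_union_left (s := ι '' U)))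
    rwa [mk_image_eq hι.injective]
  have hφU : φ '' U' ⊆ σ '' U ∪ range τ := by
    rintro _ ⟨_, (⟨i, hi, rfl⟩ | ⟨v, rfl⟩), rfl⟩
    · exact Or.inl ⟨i, hi, rfl⟩
    · exact Or.inr ⟨h v, rfl⟩
  have hψU : ψ '' U' = σ₁ '' U ∪ range τ₁ := by
    ext y
    constructor
    · rintro ⟨_, (⟨i, hi, rfl⟩ | ⟨v, rfl⟩), rfl⟩
      · exact Or.inl ⟨i, hi, rfl⟩
      · exact Or.inr ⟨v, rfl⟩
    · rintro (⟨i, hi, rfl⟩ | ⟨v, rfl⟩)
      · exact ⟨_, Or.inl ⟨i, hi, rfl⟩, rfl⟩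
      · exact ⟨_, Or.inr ⟨v, rfl⟩, rfl⟩
  have hFR : ∀ T : Set A.N, F '' (H '' T) = f '' T := by
    intro T
    rw [← image_comp]
    exact image_congr fun x _ => hFH x
  have hGR : ∀ T : Set A.N, G '' (H '' T) = f₁ '' T := by
    intro T
    rw [← image_comp]
    exact image_congr fun x _ => hGH x
  have h𝒯' : ∀ T ∈ (fun T => H '' T) '' 𝒯, T ⊆ H '' R := by
    rintro _ ⟨T, hT, rfl⟩
    exact image_mono (h𝒯 T hT)
  have hg' : Fx B (σ '' U ∪ range τ) (F '' (H '' R))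
      ((fun T => F '' T) '' ((fun T => H '' T) '' 𝒯)) g := by
    rw [hFR, ← image_comp]
    have h1 : ((fun T => F '' T) ∘ fun T => H '' T) = fun T => f '' T := funext hFR
    rw [h1]
    exact hg
  obtain ⟨g₁, hg₁, hg₁F⟩ := Fx.pull C B φ F hF hFe hφ hlU' h𝒯' hφU hg'
  obtain ⟨g₂, hg₂, hg₂G⟩ := Fx.push C B₁ ψ G hG hGe hlU' h𝒯' hg₁
  refine ⟨g₂, ?_, ?_⟩
  · rw [hψU, hGR, ← image_comp] at hg₂
    have h1 : ((fun T => G '' T) ∘ fun T => H '' T) = fun T => f₁ '' T := funext hGR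
    rw [h1] at hg₂
    exact hg₂
  · intro x hx
    have h2 : H x ∈ Gc C U' (H '' R) := by
      have h3 : H x ∈ (Gc A U R).map H.toHom := ⟨x, hx, rfl⟩
      rw [map_gc A C ι H hH hHe hU] at h3
      exact gc_mono C subset_union_left le_rfl h3
    have h3 : g₁ (H x) = H (α x) := by
      apply F.injective
      rw [hg₁F _ h2, hFH, hgα x hx, hFH]
    rw [← hGH, hg₂G _ h2, h3, hGH]

theorem Lift.mono (hU : X.l ≤ #U) (h𝒯 : ∀ T ∈ 𝒯, T ⊆ R)
    {V V₁ : Type u} [LinearOrder V] [LinearOrder V₁] (hV : Lift A U R 𝒯 α V) (h : V₁ → V)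
    (hh : StrictMono h) : Lift A U R 𝒯 α V₁ := by
  obtain ⟨C⟩ := exists_em X.t (I ⊕ₗ V₁)
  have hι : StrictMono fun i : I => (toLex (Sum.inl i) : I ⊕ₗ V₁) :=
    fun i j hij => Sum.Lex.inl_lt_inl_iff.2 hij
  have hτ : StrictMono fun v : V₁ => (toLex (Sum.inr v) : I ⊕ₗ V₁) :=
    fun i j hij => Sum.Lex.inr_lt_inr_iff.2 hij
  have hιτ : ∀ (i : I) (v : V₁), (toLex (Sum.inl i) : I ⊕ₗ V₁) < toLex (Sum.inr v) :=
    fun i v => Sum.Lex.inl_lt_inr i v
  obtain ⟨H, hHe, hH⟩ := A.exists_map C _ hι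
  exact ⟨_, _, C, _, _, H, hι, hτ, hιτ, hHe, hH,
    hV.transfer hU h𝒯 h hh C _ _ H hι hτ hιτ hH⟩

end lift

/-- Well-orders of size at least `κ` contain `κ`. -/
theorem exists_strictMono_of_le {κ : Cardinal.{u}} {V : Type u} [LinearOrder V]
    [WellFoundedLT V] (h : κ ≤ #V) : ∃ f : κ.ord.ToType → V, StrictMono f := by
  have h1 : κ.ord ≤ Ordinal.type (· < · : V → V → Prop) := by
    refine Cardinal.ord_le.2 ?_
    rwa [Ordinal.card_type]
  rw [← Ordinal.type_toType κ.ord] at h1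
  obtain ⟨f⟩ := Ordinal.type_le_iff'.1 h1
  exact ⟨f, fun a b hab => f.map_rel_iff.2 hab⟩

/-- Every well-order is contained in a cardinal. -/
theorem exists_strictMono_succ (V : Type u) [LinearOrder V] [WellFoundedLT V] :
    ∃ f : V → (Order.succ #V).ord.ToType, StrictMono f := by
  have h1 : Ordinal.type (· < · : V → V → Prop) ≤ (Order.succ #V).ord := by
    refine le_of_lt (Cardinal.lt_ord.2 ?_)
    rw [Ordinal.card_type]
    exact Order.lt_succ _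
  rw [← Ordinal.type_toType (Order.succ #V).ord] at h1
  obtain ⟨f⟩ := Ordinal.type_le_iff'.1 h1
  exact ⟨f, fun a b hab => f.map_rel_iff.2 hab⟩

/-- The chosen EM model. -/
noncomputable def em0 (X : Ctx L) (I : Type u) [LinearOrder I] : EM X.t I :=
  (exists_em X.t I).some

/-- Configurations on subsets of `T`. -/
structure Cfg (X : Ctx L) (T : Type u) : Type u where
  I : Set T
  o : LinearOrder I
  U : Set I
  R : Set (em0 X I).N
  𝒯 : Set (Set (em0 X I).N)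
  α : (em0 X I).N → (em0 X I).N

attribute [instance] Cfg.o

/-- The configuration does not lift to the well-order `κ`. -/
def Cfg.Bad {T : Type u} (C : Cfg X T) (κ : Cardinal.{u}) : Prop :=
  ¬ Lift (em0 X C.I) C.U C.R C.𝒯 C.α κ.ord.ToType

open Classical in
/-- The bound of a configuration. -/
noncomputable def Cfg.bd {T : Type u} (C : Cfg X T) : Cardinal.{u} :=
  if h : ∃ κ, C.Bad κ then h.choose else 0

/-- A configuration which lifts to a long order lifts to all well-orders. -/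
theorem Cfg.lift_of_le {T : Type u} (C : Cfg X T) (hU : X.l ≤ #C.U) (h𝒯 : ∀ T ∈ C.𝒯, T ⊆ C.R)
    {V V₂ : Type u} [LinearOrder V] [LinearOrder V₂] [WellFoundedLT V] [WellFoundedLT V₂]
    (hV : C.bd ≤ #V) (hl : Lift (em0 X C.I) C.U C.R C.𝒯 C.α V) :
    Lift (em0 X C.I) C.U C.R C.𝒯 C.α V₂ := by
  by_contra hno
  have h1 : ∃ κ, C.Bad κ := by
    refine ⟨Order.succ #V₂, fun h => hno ?_⟩
    obtain ⟨f, hf⟩ := exists_strictMono_succ V₂
    exact h.mono hU h𝒯 f hf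
  have h2 : C.bd = h1.choose := dif_pos h1
  have h3 : C.Bad C.bd := by
    rw [h2]
    exact h1.choose_spec
  obtain ⟨f, hf⟩ := exists_strictMono_of_le hV
  exact h3 (hl.mono hU h𝒯 f hf)

/-- The bound for all configurations of size `χ`. -/
noncomputable def fMl (X : Ctx L) (χ : Cardinal.{u}) : Cardinal.{u} :=
  ⨆ C : Cfg X χ.out, C.bd

theorem Cfg.bd_le {χ : Cardinal.{u}} (C : Cfg X χ.out) : C.bd ≤ fMl X χ :=
  le_ciSup (f := fun C : Cfg X χ.out => C.bd) bddAbove_of_small C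

/-- Lifting of automorphisms along top extensions. -/
theorem exists_fM (X : Ctx L) : ∃ F : Cardinal.{u} → Cardinal.{u}, ∀ (χ : Cardinal.{u}),
    X.l ≤ χ → ∀ (J : Type u) [LinearOrder J] (B : EM X.t J) (U₀ U₁ U₂ W : Set J), U₀ ⊆ U₁ →
    U₁ ⊆ U₂ → #U₀ ≤ χ → X.l ≤ #U₀ → W.Finite → (∀ x ∈ U₀ ∪ W, ∀ y ∈ U₂ \ U₀, x < y) →
    (U₂ \ U₀).IsWF → F χ ≤ #(U₁ \ U₀ : Set J) → ∀ (n : Type u) [Finite n] (b : n → B.N),
    (∀ m, b m ∈ closure (exLang L X.t.Λ) (B.c '' (U₀ ∪ W))) → ∀ (𝒮 : Set (Set n))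
    (g₁ : B.N → B.N), Fix B U₁ b 𝒮 g₁ → ∃ g₂ : B.N → B.N, Fix B U₂ b 𝒮 g₂ ∧
      ∀ x ∈ Fc B U₀ b univ, g₂ x = g₁ x := by
  refine ⟨fMl X, ?_⟩
  intro χ hχ J _ B U₀ U₁ U₂ W h01 h12 hU₀χ hlU₀ hW hlt hwf hF n _ b hb 𝒮 g₁ hg₁
  -- the configuration
  have hcard : #(U₀ ∪ W : Set J) ≤ χ := by
    refine (mk_union_le _ _).trans (add_le_of_le (X.hK.1.trans hχ) hU₀χ ?_)
    exact (hW.lt_aleph0.le).trans (X.hK.1.trans hχ)
  obtain ⟨ι⟩ : Nonempty ((U₀ ∪ W : Set J) ↪ χ.out) := by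
    rw [← Cardinal.le_def, mk_out]
    exact hcard
  let ε : (U₀ ∪ W : Set J) ≃ range ι := Equiv.ofInjective ι ι.injective
  let o : LinearOrder (range ι) := LinearOrder.lift' (fun i => (ε.symm i : (U₀ ∪ W : Set J)))
    ε.symm.injective
  let A : EM X.t (range ι) := em0 X (range ι)
  let σ : range ι → J := fun i => (ε.symm i : (U₀ ∪ W : Set J)).1
  have hσ : StrictMono σ := fun i j hij => hij
  have hσr : range σ = U₀ ∪ W := by
    ext y
    constructor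
    · rintro ⟨i, rfl⟩
      exact (ε.symm i).2
    · intro hy
      exact ⟨ε ⟨y, hy⟩, by simp only [σ, Equiv.symm_apply_apply]⟩
  obtain ⟨f, hfe, hf⟩ := A.exists_map B σ hσ
  have hfr : range f = (closure (exLang L X.t.Λ) (B.c '' (U₀ ∪ W)) : Set B.N) := by
    have h1 := image_closure A B σ f hf univ
    rw [image_univ, image_univ, hσr, A.top] at h1
    rw [← h1, Language.Substructure.coe_top, image_univ]
  let U : Set (range ι) := σ ⁻¹' U₀
  have hσU : σ '' U = U₀ := by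
    rw [image_preimage_eq_inter_range, hσr]
    exact inter_eq_left.2 subset_union_left
  have hlU : X.l ≤ #U := by
    rw [← hσU, mk_image_eq hσ.injective] at hlU₀
    exact hlU₀
  have hpre : ∀ T : Set B.N, T ⊆ range b → f '' (f ⁻¹' T) = T := by
    intro T hT
    rw [image_preimage_eq_inter_range, hfr]
    refine inter_eq_left.2 (hT.trans ?_)
    rintro _ ⟨m, rfl⟩
    exact hb m
  let R : Set A.N := f ⁻¹' range b
  let 𝒯 : Set (Set A.N) := (fun s : Set n => f ⁻¹' (b '' s)) '' 𝒮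
  have h𝒯 : ∀ T ∈ 𝒯, T ⊆ R := by
    rintro _ ⟨s, -, rfl⟩
    exact preimage_mono (image_subset_range b s)
  have hfR : f '' R = range b := hpre _ le_rfl
  have hf𝒯 : (fun T => f '' T) '' 𝒯 = (fun s => b '' s) '' 𝒮 := by
    rw [← image_comp]
    exact image_congr fun s _ => hpre _ (image_subset_range b s)
  have hFx₁ : Fx B U₁ (range b) ((fun s => b '' s) '' 𝒮) g₁ := (fix_iff B U₁ b 𝒮 g₁).1 hg₁
  have hFc : Fc B U₀ b univ = Gc B U₀ (range b) := by
    rw [← image_univ]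
    rfl
  have hmap : (Gc A U R).map f.toHom = Gc B U₀ (range b) := by
    rw [map_gc A B σ f hf hfe hlU, hσU, hfR]
  -- the automorphism
  have : Nonempty A.N := by
    have h1 : (0 : Cardinal.{u}) < #U := (X.hK.1.trans_lt' aleph0_pos).trans_le hlU
    obtain ⟨i⟩ := mk_ne_zero_iff.1 h1.ne'
    exact ⟨A.c i⟩
  obtain ⟨m₀⟩ := this
  have h1 := isoS_map A B f (Gc A U R)
  rw [hmap] at h1
  obtain ⟨fi, hfi, hfi1, hfi2⟩ := h1.exists_inv m₀
  have hFx₀ : Fx B U₀ (range b) ((fun s => b '' s) '' 𝒮) g₁ := hFx₁.restrict B h01 hlU₀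
  let α : A.N → A.N := fun x => fi (g₁ (f x))
  have hα : ∀ x ∈ Gc A U R, g₁ (f x) = f (α x) := fun x hx =>
    (hfi2 _ (hFx₀.iso.mem (h1.mem hx))).symm
  let C : Cfg X χ.out := ⟨range ι, o, U, R, 𝒯, α⟩
  have hlift₁ : Lift A U R 𝒯 α (U₁ \ U₀ : Set J) := by
    refine ⟨J, inferInstance, B, σ, Subtype.val, f, hσ, fun _ _ h => h, ?_, hfe, hf, g₁, ?_, hα⟩
    · intro i v
      refine hlt _ ?_ _ ⟨h12 v.2.1, v.2.2⟩
      rw [← hσr]
      exact ⟨i, rfl⟩
    · rw [hσU, Subtype.range_coe, union_sdiff_cancel h01, hfR, hf𝒯]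
      exact hFx₁
  have hwf₂ : WellFoundedLT (U₂ \ U₀ : Set J) := ⟨hwf⟩
  have hwf₁ : WellFoundedLT (U₁ \ U₀ : Set J) := ⟨hwf.mono (sdiff_subset_sdiff_left h12)⟩
  have hlift₂ : Lift A U R 𝒯 α (U₂ \ U₀ : Set J) :=
    C.lift_of_le hlU h𝒯 (C.bd_le.trans hF) hlift₁
  obtain ⟨g₂, hg₂, hg₂α⟩ := hlift₂.transfer hlU h𝒯 id strictMono_id B σ
    (Subtype.val : (U₂ \ U₀ : Set J) → J) f hσ (fun _ _ h => h) (fun i v => by
      refine hlt _ ?_ _ v.2
      rw [← hσr]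
      exact ⟨i, rfl⟩) hf
  refine ⟨g₂, ?_, ?_⟩
  · rw [hσU, Subtype.range_coe, union_sdiff_cancel (h01.trans h12), hfR, hf𝒯] at hg₂
    exact (fix_iff B U₂ b 𝒮 g₂).2 hg₂
  · intro x hx
    rw [hFc, ← hmap] at hx
    obtain ⟨y, hy, rfl⟩ := hx
    exact (hg₂α y hy).trans (hα y hy).symm

noncomputable def fM (X : Ctx L) : Cardinal.{u} → Cardinal.{u} := X.exists_fM.choose

end Ctx

end Vale.Agent.P307.R2.H301
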