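import Vale.Agent.P307.R2.H301.Tm
import Vale.Agent.P307.R2.H301.Ml
import Vale.Agent.P307.R2.H624.IsoU
import Vale.Agent.P307.R2.H624.Filt

set_option linter.unusedSectionVars false

universe u v w

open FirstOrder Cardinal Set

namespace Vale.Agent.P307.R2.H301

open Vale.Agent.P307 Vale.Agent.P307.H304 Vale.Agent.P307.R2.H287 Language.Structure
  Language.Substructure

variable {L : Language.{u, u}} {X : Ctx L} {θ : Cardinal.{u}}
variable {M N P : Type u} [L.Structure M] [L.Structure N] [L.Structure P]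

namespace Ctx

variable {N' : Type u} [L.Structure N']

/-- The third strengthening of admissibility. -/
structure Adm3 (X : Ctx L) (θ : Cardinal.{u}) : Prop extends X.Adm2 θ where
  fM : ∀ ρ < θ, X.fM ρ < θ

theorem range_adj {D : Set M} (g : M → N) (b : N) :
    range (adj (fun d : D => g d) b) = insert b (g '' D) := by
  ext x
  constructor
  · rintro ⟨d | d, rfl⟩
    · exact Or.inr ⟨d, d.2, rfl⟩
    · exact Or.inl rfl
  · rintro (rfl | ⟨d, hd, rfl⟩)
    · exact ⟨Sum.inr PUnit.unit, rfl⟩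
    · exact ⟨Sum.inl ⟨d, hd⟩, rfl⟩

section em

variable {I J : Type u} [LinearOrder I] [LinearOrder J]

/-- The EM substructures. -/
def emS (B : EM X.t J) (U : Set J) : L.Substructure B.N :=
  (exHom L X.t.Λ).substructureReduct (closure (exLang L X.t.Λ) (B.c '' U))

theorem le_emS (B : EM X.t J) (U : Set J) : X.K.le (emS B U) :=
  (em_le (exHom L X.t.Λ) B.isEM B.top X.t.cl).2 U

theorem coe_emS (B : EM X.t J) (U : Set J) :
    (emS B U : Set B.N) = closure (exLang L X.t.Λ) (B.c '' U) := rfl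

theorem Fc_empty (B : EM X.t J) (U : Set J) {n : Type u} (b : n → B.N) :
    Fc B U b ∅ = emS B U := by
  unfold Fc
  rw [image_empty, union_empty]
  exact cl_eq_self X.K (le_emS B U)

/-- Images of EM substructures. -/
theorem image_emS (A : EM X.t I) (B : EM X.t J) {σ : I → J} {f : A.N ↪[L] B.N}
    (hfσ : ∀ s : (exLang L X.t.Λ).Term I, f (s.realize A.c) = s.realize fun i => B.c (σ i))
    (S : Set I) : f '' (emS A S) = emS B (σ '' S) := by
  have key : ∀ t : (exLang L X.t.Λ).Term S, f (t.realize fun q => A.c q.1) =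
      t.realize fun q => B.c (σ q.1) := by
    intro t
    have h1 := hfσ (t.relabel Subtype.val)
    rw [Language.Term.realize_relabel, Language.Term.realize_relabel] at h1
    exact h1
  ext y
  rw [coe_emS, coe_emS, SetLike.mem_coe, image_image]
  rw [mem_closure_image_iff (fun i => B.c (σ i)) S y]
  constructor
  · rintro ⟨x, hx, rfl⟩
    rw [SetLike.mem_coe, mem_closure_image_iff] at hx
    obtain ⟨t, rfl⟩ := hx
    exact ⟨t, (key t).symm⟩
  · rintro ⟨t, rfl⟩
    refine ⟨t.realize fun q => A.c q.1, ?_, key t⟩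
    rw [SetLike.mem_coe, mem_closure_image_iff]
    exact ⟨t, rfl⟩

theorem mk_emS_le (A : EM X.t I) (S : Set I) {κ : Cardinal.{u}} (hl : X.l ≤ κ) (hS : #S ≤ κ) :
    #(emS A S : Set A.N) ≤ κ := by
  have h1 : Function.Surjective fun t : (exLang L X.t.Λ).Term S =>
      (⟨t.realize fun q => A.c q.1, (mem_closure_image_iff A.c S _).2 ⟨t, rfl⟩⟩ :
        (emS A S : Set A.N)) := by
    rintro ⟨x, hx⟩
    obtain ⟨t, ht⟩ := (mem_closure_image_iff A.c S x).1 hx
    exact ⟨t, Subtype.ext ht⟩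
  exact (mk_le_of_surjective h1).trans (mk_term_le (X.t.hν.trans hl) (X.t.hx.trans hl) S hS)

theorem le_mk_emS (A : EM X.t I) (S : Set I) : #S ≤ #(emS A S : Set A.N) := by
  have h1 : Function.Injective fun s : S => (⟨A.c s, subset_closure ⟨s.1, s.2, rfl⟩⟩ :
      (emS A S : Set A.N)) := by
    intro s t hst
    exact Subtype.ext (A.inj (congrArg Subtype.val hst))
  exact mk_le_of_injective h1

theorem emS_mono (A : EM X.t I) {S T : Set I} (h : S ⊆ T) : (emS A S : Set A.N) ⊆ emS A T :=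
  closure_mono (image_mono h)

theorem exists_mem_emS (A : EM X.t I) {S : ℕ → Set I} (hS : Monotone S)
    (hcov : ∀ x, ∃ n, x ∈ S n) (x : A.N) : ∃ n, x ∈ (emS A (S n) : Set A.N) := by
  have h1 : x ∈ closure (exLang L X.t.Λ) (range A.c) := by rw [A.top]; trivial
  obtain ⟨t, rfl⟩ := Gr.mem_closure_range.1 h1
  choose m hm using hcov
  classical
  refine ⟨t.varFinset.sup m, ?_⟩
  change _ ∈ closure (exLang L X.t.Λ) (A.c '' _)
  rw [mem_closure_image_iff]
  refine ⟨t.restrictVar fun q => ⟨q.1, hS (Finset.le_sup q.2) (hm q.1)⟩, ?_⟩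
  exact Language.Term.realize_restrictVar _ fun q => rfl

end em

/-- Types over `EM(θ)` of standard elements. -/
theorem ge_std (hθ : X.Adm3 θ) (A : EM X.t θ.ord.ToType) {i : A.N ↪[L] N} (hi : X.K.Emb i)
    {b : N} {J : Type u} [LinearOrder J] (B : EM X.t J) {σ : θ.ord.ToType → J}
    (hσ : StrictMono σ) {f : A.N ↪[L] B.N} (hf : X.K.Emb f)
    (hfσ : ∀ s : (exLang L X.t.Λ).Term θ.ord.ToType,
      f (s.realize A.c) = s.realize fun i => B.c (σ i))
    {Q : Type u} [Finite Q] (τ : (exLang L X.t.Λ).Term Q) (v : Q → J) (ζ₀ : θ.ord.ToType)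
    (hv : ∀ q, ∀ y, ζ₀ ≤ y → v q < σ y)
    (h : ∀ χ < θ, X.SE θ χ i b f (τ.realize fun q => B.c (v q))) :
    X.GE f (τ.realize fun q => B.c (v q)) i b := by
  obtain ⟨bs, hbs⟩ : ∃ bs, bs = τ.realize fun q => B.c (v q) := ⟨_, rfl⟩
  rw [← hbs] at h ⊢
  have hA : θ ≤ #A.N := by
    have h1 := A.le_card
    rwa [mk_toType, card_ord] at h1
  have hBN : X.Big θ B.N := Big.of_emb f hf hA
  have hN : X.Big θ N := Big.of_emb i hi hA
  obtain ⟨a, ha, ha0, hcof, hal, haF⟩ :=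
    exists_filt hθ.aleph0_lt hθ.cof hθ.pow hθ.fM hθ.lt ζ₀
  have hSmono : Monotone fun n => Iio (a n) := fun m n hmn => Iio_subset_Iio (ha.monotone hmn)
  obtain ⟨Mn, hMn⟩ : ∃ Mn : ℕ → Set A.N, ∀ n, Mn n = emS A (Iio (a n)) := ⟨_, fun n => rfl⟩
  have hMmono : Monotone Mn := fun m n hmn => by
    rw [hMn, hMn]
    exact emS_mono A (hSmono hmn)
  have hfM : ∀ n, f '' Mn n = emS B (σ '' Iio (a n)) := fun n => by
    rw [hMn]
    exact image_emS A B hfσ _
  have hMl : ∀ n, X.l ≤ #(Mn n) := fun n => by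
    rw [hMn]
    exact (hal n).trans (le_mk_emS A _)
  have hMθ : ∀ n, #(Mn n) < θ := fun n => by
    rw [hMn]
    exact (mk_emS_le A _ (le_max_left _ _) (le_max_right _ _)).trans_lt
      (max_lt hθ.lt (mk_Iio_lt' (a n)))
  have hMcov : ∀ m, ∃ n, m ∈ Mn n := fun m => by
    obtain ⟨n, hn⟩ := exists_mem_emS A hSmono hcof m
    exact ⟨n, by rw [hMn]; exact hn⟩
  obtain ⟨P, hP⟩ : ∃ P : ℕ → Set B.N, ∀ n, P n = insert bs (f '' Mn n) := ⟨_, fun n => rfl⟩
  obtain ⟨P', hP'⟩ : ∃ P' : ℕ → Set N, ∀ n, P' n = insert b (i '' Mn n) := ⟨_, fun n => rfl⟩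
  have hPmono : Monotone P := fun m n hmn => by
    rw [hP, hP]
    exact insert_subset_insert (image_mono (hMmono hmn))
  have hPmono' : Monotone P' := fun m n hmn => by
    rw [hP', hP']
    exact insert_subset_insert (image_mono (hMmono hmn))
  have hPl : ∀ n, X.l ≤ #(P n) := fun n => by
    rw [hP]
    refine (hMl n).trans ?_
    rw [← mk_image_eq (s := Mn n) f.injective]
    exact mk_le_mk_of_subset (subset_insert _ _)
  have hPl' : ∀ n, X.l ≤ #(P' n) := fun n => by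
    rw [hP']
    refine (hMl n).trans ?_
    rw [← mk_image_eq (s := Mn n) i.injective]
    exact mk_le_mk_of_subset (subset_insert _ _)
  have hPle : ∀ n, X.K.le (cl X.K (P n)) := fun n => le_cl hBN.1 (hPl n)
  have hPle' : ∀ n, X.K.le (cl X.K (P' n)) := fun n => le_cl hN.1 (hPl' n)
  obtain ⟨T, hT⟩ : ∃ T : ℕ → (B.N → N) → Prop, ∀ n g, T n g ↔
      IsoS g (cl X.K (P n)) (cl X.K (P' n)) ∧ (∀ m ∈ Mn n, g (f m) = i m) ∧ g bs = b :=
    ⟨_, fun n g => Iff.rfl⟩
  have himg : ∀ n g, (∀ m ∈ Mn n, g (f m) = i m) → g bs = b → g '' P n = P' n := by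
    intro n g h1 h2
    rw [hP, hP', image_insert_eq, h2, image_image]
    congr 1
    exact image_congr h1
  have hT0 : ∀ n, ∃ g, T n g := by
    intro n
    have h1 := (h _ (hMθ n) (Mn n) le_rfl).symm
    obtain ⟨g, hg1, hg2, -⟩ := E.exists_isoS hθ.toAdm hBN hN (by
      rw [mk_sum, lift_id, lift_id]
      exact add_lt_of_lt hθ.aleph0_lt.le (hMθ n) ((mk_lt_aleph0).trans hθ.aleph0_lt)) h1 (by
      rw [range_adj, ← hP]
      exact hPl n)
    rw [range_adj, range_adj, ← hP, ← hP'] at hg1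
    refine ⟨g, (hT _ _).2 ⟨hg1, fun m hm => ?_, ?_⟩⟩
    · exact hg2 (Sum.inl ⟨m, hm⟩)
    · exact hg2 (Sum.inr PUnit.unit)
  have hTs : ∀ n g, T (n + 1) g → T n g := by
    intro n g hg
    rw [hT] at hg ⊢
    obtain ⟨h1, h2, h3⟩ := hg
    have h4 : ∀ m ∈ Mn n, g (f m) = i m := fun m hm => h2 m (hMmono n.le_succ hm)
    refine ⟨?_, h4, h3⟩
    have h5 := isoS_cl h1 (hPle _) (hPle' _) (hPl n)
      ((hPmono n.le_succ).trans (subset_cl X.K _))
    rwa [himg n g h4 h3] at h5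
  have hbW : ∀ U : Set J, bs ∈ closure (exLang L X.t.Λ) (B.c '' (U ∪ range v)) := by
    intro U
    rw [hbs]
    exact Language.Term.realize_mem τ _ fun q => subset_closure ⟨v q, Or.inr ⟨q, rfl⟩, rfl⟩
  have hFc : ∀ n, Fc B (σ '' Iio (a n)) (fun _ : PUnit.{u + 1} => bs) univ = cl X.K (P n) := by
    intro n
    unfold Fc
    rw [hP, hfM, image_univ, range_const, coe_emS, union_comm, singleton_union]
  have key : ∀ n g, T (n + 1) g → ∃ g', T (n + 2) g' ∧ ∀ x ∈ cl X.K (P n), g' x = g x := by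
    intro n g hg
    obtain ⟨h', hh'⟩ := hT0 (n + 2)
    have hh1 := (hT _ _).1 (hTs _ _ hh')
    have hh2 := (hT _ _).1 hh'
    obtain ⟨hi1, hi2, hi3⟩ := (hT _ _).1 hg
    obtain ⟨r, hr1, hr2, hr3⟩ := hh1.1.exists_inv bs
    have hsub : ∀ m, P m ⊆ cl X.K (P m) := fun m => subset_cl X.K _
    have hbP : ∀ m, bs ∈ cl X.K (P m) := fun m => hsub m (by rw [hP]; exact Or.inl rfl)
    have hfP : ∀ m, ∀ y ∈ Mn m, f y ∈ cl X.K (P m) := fun m y hy =>
      hsub m (by rw [hP]; exact Or.inr ⟨y, hy, rfl⟩)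
    have hfix : Fix B (σ '' Iio (a (n + 1))) (fun _ : PUnit.{u + 1} => bs) ∅ (r ∘ g) := by
      refine ⟨?_, ?_, ?_, ?_⟩
      · rw [hFc]
        exact hr1.comp hi1
      · intro x hx
        rw [Fc_empty, ← SetLike.mem_coe, ← hfM] at hx
        obtain ⟨m, hm, rfl⟩ := hx
        change r (g (f m)) = f m
        rw [hi2 m hm, ← hh1.2.1 m hm]
        exact hr2 _ (hfP _ m hm)
      · intro _
        change r (g bs) = bs
        rw [hi3, ← hh1.2.2]
        exact hr2 _ (hbP _)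
      · intro s hs
        exact absurd hs (notMem_empty _)
    have hIn : ∀ m m', m ≤ m' → σ '' Iio (a m) ⊆ σ '' Iio (a m') := fun m m' hm =>
      image_mono (hSmono hm)
    obtain ⟨g₂, hg₂, hg₂'⟩ := X.exists_fM.choose_spec #(Iio (a n)) (hal n) J B
      (σ '' Iio (a n)) (σ '' Iio (a (n + 1))) (σ '' Iio (a (n + 2))) (range v)
      (hIn _ _ n.le_succ) (hIn _ _ (n + 1).le_succ) (mk_image_le) (by
        rw [mk_image_eq hσ.injective]
        exact hal n) (finite_range v) (by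
        rintro x hx y ⟨⟨z, hz, rfl⟩, hz2⟩
        have hz3 : a n ≤ z := by
          by_contra hcon
          exact hz2 ⟨z, not_le.1 hcon, rfl⟩
        rcases hx with ⟨w, hw, rfl⟩ | ⟨q, rfl⟩
        · exact hσ (lt_of_lt_of_le hw hz3)
        · exact hv q z ((ha0.trans (ha.monotone (Nat.zero_le n))).trans hz3)) (by
        have h1 : (range σ).IsWF := by
          unfold Set.IsWF
          rw [Set.wellFoundedOn_range]
          refine Subrelation.wf (r := ((· < ·) : θ.ord.ToType → θ.ord.ToType → Prop)) ?_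
            wellFounded_lt
          intro x y hxy
          exact hσ.lt_iff_lt.1 hxy
        refine h1.mono ?_
        rintro _ ⟨⟨z, -, rfl⟩, -⟩
        exact ⟨z, rfl⟩) (by
        rw [← image_sdiff hσ.injective, mk_image_eq hσ.injective]
        exact haF n) PUnit.{u + 1} (fun _ => bs) (fun _ => hbW _) ∅ (r ∘ g) hfix
    rw [hFc] at hg₂'
    obtain ⟨hk1, hk2, hk3, -⟩ := hg₂
    rw [hFc] at hk1
    refine ⟨h' ∘ g₂, (hT _ _).2 ⟨hh2.1.comp hk1, ?_, ?_⟩, ?_⟩
    · intro m hm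
      have h1 : g₂ (f m) = f m := hk2 _ (by
        rw [Fc_empty, ← SetLike.mem_coe, ← hfM]
        exact ⟨m, hm, rfl⟩)
      change h' (g₂ (f m)) = i m
      rw [h1]
      exact hh2.2.1 m hm
    · change h' (g₂ bs) = b
      rw [hk3 PUnit.unit]
      exact hh2.2.2
    · intro x hx
      change h' (g₂ x) = g x
      rw [hg₂' x hx]
      exact hr3 _ (hi1.mem (cl_mono X.K (hPmono n.le_succ) hx))
  choose! nx hnx1 hnx2 using key
  obtain ⟨g0, hg0⟩ := hT0 1
  let G : ℕ → B.N → N := fun n => Nat.rec g0 (fun n g => nx n g) n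
  have hG0 : G 0 = g0 := rfl
  have hGs : ∀ n, G (n + 1) = nx n (G n) := fun n => rfl
  have hGT : ∀ n, T (n + 1) (G n) := by
    intro n
    induction n with
    | zero => exact hg0
    | succ n ih =>
      rw [hGs]
      exact hnx1 n _ ih
  obtain ⟨F, hF⟩ := exists_union_fun (S := fun n => (cl X.K (P n) : Set B.N))
    (fun m n hmn => cl_mono X.K (hPmono hmn)) G fun n x hx => by
      rw [hGs]
      exact hnx2 n _ (hGT n) x hx
  have hFT : ∀ n, T n F := by
    intro n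
    have h1 := (hT _ _).1 (hTs _ _ (hGT n))
    refine (hT _ _).2 ⟨h1.1.congr fun x hx => hF n x hx, fun m hm => ?_, ?_⟩
    · rw [← h1.2.1 m hm]
      exact hF n _ (subset_cl X.K _ (by rw [hP]; exact Or.inr ⟨m, hm, rfl⟩))
    · refine Eq.trans ?_ h1.2.2
      exact hF n _ (subset_cl X.K _ (by rw [hP]; exact Or.inl rfl))
  refine ⟨F, ?_, fun m => ?_, ((hT _ _).1 (hFT 0)).2.2⟩
  · refine isoS_iUnion (S := fun n => cl X.K (P n)) (T := fun n => cl X.K (P' n))
      (fun m n hmn => cl_mono X.K (hPmono hmn)) (fun n => ((hT _ _).1 (hFT n)).1) ?_ ?_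
    · refine mem_cl_iff_nat hPmono hPle ?_ ?_
      · rintro x (rfl | ⟨m, rfl⟩)
        · exact ⟨0, by rw [hP]; exact Or.inl rfl⟩
        · obtain ⟨n, hn⟩ := hMcov m
          exact ⟨n, by rw [hP]; exact Or.inr ⟨m, hn, rfl⟩⟩
      · intro n
        rw [hP]
        exact insert_subset_insert (image_subset_range _ _)
    · refine mem_cl_iff_nat hPmono' hPle' ?_ ?_
      · rintro x (rfl | ⟨m, rfl⟩)
        · exact ⟨0, by rw [hP']; exact Or.inl rfl⟩
        · obtain ⟨n, hn⟩ := hMcov m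
          exact ⟨n, by rw [hP']; exact Or.inr ⟨m, hn, rfl⟩⟩
      · intro n
        rw [hP']
        exact insert_subset_insert (image_subset_range _ _)
  · obtain ⟨n, hn⟩ := hMcov m
    exact ((hT _ _).1 (hFT n)).2.1 m hn

/-- Small types over `EM(θ)` determine Galois types. -/
theorem ge_of_se_em (hθ : X.Adm3 θ) (A : EM X.t θ.ord.ToType) {i : A.N ↪[L] N} {b : N}
    {j : A.N ↪[L] N'} {b' : N'} (hi : X.K.Emb i) (hj : X.K.Emb j)
    (h : ∀ χ < θ, X.SE θ χ i b j b') : X.GE i b j b' := by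
  have hl0 : ℵ₀ ≤ X.l := X.hK.1
  have hAθ : #A.N = θ := A.card_eq hθ.lt.le (by rw [mk_toType, card_ord])
  obtain ⟨R⟩ := exists_srep hθ.toAdm1 X.le_H hθ.H A i hi b
  obtain ⟨J, oJ, σ, hJ, hσ⟩ := exists_nice_ext θ hθ.aleph0_lt.le θ.ord.ToType
  have hρ : ℵ₀ ≤ R.ρ := (hl0.trans X.le_H).trans R.hχ
  have hconv : Conv (fun j q => σ (R.w j q)) (range σ) := by
    refine ⟨?_, ?_⟩
    · rintro q _ ⟨y, rfl⟩
      obtain ⟨j₀, hj₀⟩ := R.conv.conv q y (mem_univ _)
      refine ⟨j₀, fun j hj => ?_⟩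
      simp only [hσ.le_iff_le]
      exact hj₀ j hj
    · intro j j' q q'
      simp only [hσ.le_iff_le]
      exact R.conv.pat j j' q q'
  obtain ⟨v, hv⟩ := exists_limPat hθ.aleph0_lt.le hJ
    (mk_range_le.trans (by rw [mk_toType, card_ord])) hconv hρ
  obtain ⟨B⟩ := exists_em X.t J
  obtain ⟨f, hf, hfσ⟩ := A.exists_map B σ hσ
  obtain ⟨ζ₀, hζ₀⟩ := R.bdd
  have hv2 : ∀ q, ∀ y, ζ₀ ≤ y → v q < σ y := by
    intro q y hy
    obtain ⟨j₀, hj₀⟩ := hv.conv q (σ y) ⟨y, rfl⟩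
    have h1 := (hj₀ j₀ le_rfl).2
    rw [hσ.le_iff_le] at h1
    by_contra hcon
    exact absurd (h1.2 (not_lt.1 hcon)) (not_le.2 ((hζ₀ j₀ q).trans_le hy))
  have h1 := R.se hθ.toAdm1 X.le_H hi B σ hσ f hfσ v hv
  have h2 : ∀ χ < θ, X.SE θ χ i b f (R.τ.realize fun q => B.c (v q)) := fun χ hχ =>
    se_of_H hθ.toAdm2 A.mem hAθ hi hf h1 χ hχ
  have h3 : ∀ χ < θ, X.SE θ χ j b' f (R.τ.realize fun q => B.c (v q)) := fun χ hχ =>
    (h χ hχ).symm.trans (h2 χ hχ)
  exact (ge_std hθ A hi B hσ hf hfσ R.τ v ζ₀ hv2 h2).symm.trans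
    (ge_std hθ A hj B hσ hf hfσ R.τ v ζ₀ hv2 h3)

/-- Small types over models of size `θ` determine Galois types. -/
theorem ge_of_se (hθ : X.Adm3 θ) (hM : X.K.mem M) (hMθ : #M = θ) {i : M ↪[L] N} {b : N}
    {j : M ↪[L] N'} {b' : N'} (hi : X.K.Emb i) (hj : X.K.Emb j)
    (h : ∀ χ < θ, X.SE θ χ i b j b') : X.GE i b j b' := by
  obtain ⟨A⟩ := exists_em X.t θ.ord.ToType
  have hAθ : #A.N = θ := A.card_eq hθ.lt.le (by rw [mk_toType, card_ord])
  obtain ⟨e, -⟩ := exists_iso_of_E (ι := PEmpty.{u + 1}) hθ.toAdm A.mem hM hAθ hMθ (by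
    rw [mk_pempty]
    exact hθ.aleph0_lt.trans_le' zero_le) (E.empty hθ.toAdm ⟨A.mem, hAθ.ge⟩ ⟨hM, hMθ.ge⟩
      (fun x => x.elim) fun x => x.elim)
  have hie : X.K.Emb (i.comp e.toEmbedding) := AEC.Emb.comp hi (AEC.Emb.of_equiv e A.mem)
  have hje : X.K.Emb (j.comp e.toEmbedding) := AEC.Emb.comp hj (AEC.Emb.of_equiv e A.mem)
  have h1 := ge_of_se_em hθ A (b := b) (b' := b') hie hje (fun χ hχ D hD => by
    have h2 := h χ hχ (e '' D) (mk_image_le.trans hD)
    have hlt : #((e '' D : Set M) ⊕ PUnit.{u + 1}) < θ := by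
      rw [mk_sum, lift_id, lift_id]
      exact add_lt_of_lt hθ.aleph0_lt.le ((mk_image_le.trans hD).trans_lt hχ)
        ((mk_lt_aleph0).trans hθ.aleph0_lt)
    have h3 := h2.comp hθ.toAdm hlt (fun d : D ⊕ PUnit.{u + 1} =>
      Sum.map (fun d : D => (⟨e d, d.1, d.2, rfl⟩ : (e '' D : Set M))) id d)
    convert h3 using 1
    · funext d
      rcases d with d | d <;> rfl
    · funext d
      rcases d with d | d <;> rfl)
  have h2 := h1.equiv e.symm
  have h3 : ∀ {Z : Type u} [L.Structure Z] (k : M ↪[L] Z),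
      (k.comp e.toEmbedding).comp e.symm.toEmbedding = k := by
    intro Z _ k
    ext m
    exact congrArg k (e.apply_symm_apply m)
  rwa [h3, h3] at h2

theorem ge_of_H (hθ : X.Adm3 θ) (hM : X.K.mem M) (hMθ : #M = θ) {i : M ↪[L] N} {b : N}
    {j : M ↪[L] N'} {b' : N'} (hi : X.K.Emb i) (hj : X.K.Emb j) (h : X.SE θ X.H i b j b') :
    X.GE i b j b' :=
  ge_of_se hθ hM hMθ hi hj (se_of_H hθ.toAdm2 hM hMθ hi hj h)

/-- Admissible cardinals are unbounded. -/
theorem exists_adm3 (X : Ctx L) (κ : Cardinal.{u}) : ∃ θ, κ < θ ∧ X.Adm3 θ := by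
  obtain ⟨θ, h1, h2, h3⟩ := exists_closure_cof (fun ρ => max (X.α ρ) (max (thr X.κf ρ)
    (max ((2 : Cardinal.{u}) ^ ρ) (max (X.fL ρ) (X.fM ρ))))) (max κ (max X.l X.H))
  refine ⟨θ, (le_max_left _ _).trans_lt h1, ?_⟩
  have h4 : max X.l X.H < θ := (le_max_right _ _).trans_lt h1
  refine { lt := (le_max_left _ _).trans_lt h4
           cof := h3
           α := fun ρ hρ => (le_max_left _ _).trans_lt (h2 ρ hρ)
           thr := fun ρ hρ => ?_
           pow := fun ρ hρ => ?_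
           fL := fun ρ hρ => ?_
           H := (le_max_right _ _).trans_lt h4
           fM := fun ρ hρ => ?_ }
  all_goals
    have h5 := h2 ρ hρ
    simp only [max_lt_iff] at h5
  · exact h5.2.1
  · exact h5.2.2.1
  · exact h5.2.2.2.1
  · exact h5.2.2.2.2

end Ctx

end Vale.Agent.P307.R2.H301
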