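import Vale.Agent.P307.R2.H301.Op

set_option linter.unusedSectionVars false

universe u v w

open FirstOrder Cardinal Set

namespace Vale.Agent.P307.R2.H301

open Vale.Agent.P307 Vale.Agent.P307.H304 Vale.Agent.P307.R2.H287 Language.Structure
  Language.Substructure

variable {L : Language.{u, u}} {X : Ctx L} {θ : Cardinal.{u}}
variable {M N P : Type u} [L.Structure M] [L.Structure N] [L.Structure P]

namespace Ctx

/-- Small types of members over `A` are realized. -/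
theorem exists_real_elt (hθ : X.Adm θ) (i : M ↪[L] N) (hi : X.K.Emb i) (hM : θ ≤ #M) (b : N)
    (A : Set M) (hA : #A < θ) :
    ∃ m : M, X.E θ (adj (fun a : A => (a : M)) m) (adj (fun a : A => i a) b) := by
  have h1 : X.E θ (fun a : A => i a) (fun a : A => (a : M)) :=
    (E.of_emb hθ i hi hM (fun a : A => (a : M))).symm
  obtain ⟨w, hw⟩ := E.extend hθ (Big.of_emb i hi hM) (Big.of_emb_left i hi hM) hA
    (ζ := PUnit.{u + 1}) ((by rw [mk_punit]; exact one_lt_aleph0.trans hθ.aleph0_lt)) h1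
    (fun _ => b)
  exact ⟨w PUnit.unit, hw.symm⟩

/-- A small set with representatives of all types of small tuples over a small sequence. -/
theorem exists_reps (hθ : X.Adm θ) {ρ χ : Cardinal.{u}} (hl : X.l ≤ ρ) (hρ : ρ < θ) (hχ : χ ≤ ρ)
    (i : M ↪[L] N) (hi : X.K.Emb i) (hM : θ ≤ #M) (b : N) {I : Type u} (hI : #I ≤ ρ)
    (e : I → M) (A' : Set M) (hA' : #A' ≤ 2 ^ ρ) : ∃ A : Set M, A' ⊆ A ∧ #A ≤ 2 ^ ρ ∧
      ∀ y : χ.out → M, ∃ y' : χ.out → M, (∀ z, y' z ∈ A) ∧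
        X.E θ (Sum.elim (Sum.elim (fun k => i (e k)) (fun _ : PUnit.{u + 1} => b))
          (fun z => i (y z))) (Sum.elim (Sum.elim (fun k => i (e k)) (fun _ => b))
          (fun z => i (y' z))) := by
  classical
  have hρ0 : ℵ₀ ≤ ρ := X.hK.1.trans hl
  have h2ρ : ℵ₀ ≤ 2 ^ ρ := hρ0.trans (cantor ρ).le
  have hN : X.Big θ N := Big.of_emb i hi hM
  have hMne : Nonempty M := by
    rw [← mk_ne_zero_iff]
    exact ((aleph0_pos.trans hθ.aleph0_lt).trans_le hM).ne'
  have hc : #((I ⊕ PUnit.{u + 1}) ⊕ χ.out) ≤ ρ := by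
    rw [mk_sum, mk_sum, lift_id, lift_id, lift_id, lift_id, mk_out, mk_punit]
    exact add_le_of_le hρ0 (add_le_of_le hρ0 hI (one_le_aleph0.trans hρ0)) hχ
  obtain ⟨C, hC, c, hcc⟩ := exists_code (X := X) hθ (ι := (I ⊕ PUnit.{u + 1}) ⊕ χ.out) hl hρ hc
  let tp : (χ.out → M) → (I ⊕ PUnit.{u + 1}) ⊕ χ.out → N := fun y =>
    Sum.elim (Sum.elim (fun k => i (e k)) (fun _ => b)) (fun z => i (y z))
  let f : (χ.out → M) → C := fun y => c N hN (tp y)
  let rep : C → χ.out → M := fun k =>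
    if h : ∃ y, f y = k then h.choose else fun _ => Classical.arbitrary M
  have hrep : ∀ y, f (rep (f y)) = f y := by
    intro y
    have h : ∃ y', f y' = f y := ⟨y, rfl⟩
    have h1 : rep (f y) = h.choose := dif_pos h
    rw [h1]
    exact h.choose_spec
  refine ⟨A' ∪ range fun p : C × χ.out => rep p.1 p.2, subset_union_left, ?_, fun y =>
    ⟨rep (f y), fun z => Or.inr ⟨(f y, z), rfl⟩, ?_⟩⟩
  · refine (mk_union_le _ _).trans (add_le_of_le h2ρ hA' (mk_range_le.trans ?_))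
    rw [mk_prod, lift_id, lift_id, mk_out]
    exact (mul_le_mul' hC (hχ.trans (cantor ρ).le)).trans (mul_eq_self h2ρ).le
  · exact hcc N N hN hN _ _ (hrep y).symm

/-- Elements of extensions are limits of sequences of the small model. -/
theorem exists_lim (X : Ctx L) : ∃ ρ F : Cardinal.{u} → Cardinal.{u}, (∀ χ, χ ≤ ρ χ) ∧
    (∀ χ, ρ χ ≤ F χ) ∧ ∀ θ, X.Adm θ → (∀ ρ < θ, F ρ < θ) → ∀ χ, X.l ≤ χ → χ < θ →
      ∀ (M N : Type u) [L.Structure M] [L.Structure N] (i : M ↪[L] N), X.K.Emb i → θ ≤ #M →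
        ∀ b : N, ∃ e : SuccTy (ρ χ) → M, X.LimSeq θ χ e i b := by
  classical
  let lam : Cardinal.{u} → Cardinal.{u} := fun χ =>
    if h : X.l ≤ χ then (X.exists_op χ h).choose else 0
  have hlam : ∀ χ (h : X.l ≤ χ), lam χ = (X.exists_op χ h).choose := fun χ h => dif_pos h
  refine ⟨fun χ => max χ (lam χ), fun χ => max χ (lam χ), fun χ => le_max_left _ _,
    fun χ => le_rfl, ?_⟩
  intro θ hθ hF χ hl hχ M N _ _ i hi hMθ b
  change ∃ e : SuccTy (max χ (lam χ)) → M, X.LimSeq θ χ e i b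
  have hρθ : max χ (lam χ) < θ := hF χ hχ
  have hop := (X.exists_op χ hl).choose_spec θ hθ (by
    rw [← hlam χ hl]
    exact (le_max_right _ _).trans_lt hρθ)
  rw [← hlam χ hl] at hop
  have hlamρ : lam χ ≤ max χ (lam χ) := le_max_right _ _
  have hχρ : χ ≤ max χ (lam χ) := le_max_left _ _
  generalize max χ (lam χ) = ρ at *
  generalize lam χ = lm at *
  have hlρ : X.l ≤ ρ := hl.trans hχρ
  have hρ0 : ℵ₀ ≤ ρ := X.hK.1.trans hlρ
  have h2ρ0 : ℵ₀ ≤ 2 ^ ρ := hρ0.trans (cantor ρ).le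
  have h2ρ : (2 : Cardinal.{u}) ^ ρ < θ := hθ.pow ρ hρθ
  have hM : X.Big θ M := Big.of_emb_left i hi hMθ
  have hN : X.Big θ N := Big.of_emb i hi hMθ
  let S : Type u := {A : Set M // #A ≤ 2 ^ ρ} × M
  have hstep : ∀ (j : SuccTy ρ) (g : ∀ k : SuccTy ρ, k < j → S), ∃ p : S,
      (∀ k hk, (g k hk).1.1 ⊆ p.1.1) ∧ (∀ y : χ.out → M, ∃ y' : χ.out → M,
        (∀ z, y' z ∈ p.1.1) ∧ X.E θ (Sum.elim (Sum.elim (fun k : Iio j => i (g k.1 k.2).2)
          (fun _ : PUnit.{u + 1} => b)) (fun z => i (y z)))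
          (Sum.elim (Sum.elim (fun k : Iio j => i (g k.1 k.2).2) (fun _ => b))
          (fun z => i (y' z)))) ∧
      X.E θ (adj (fun a : p.1.1 => (a : M)) p.2) (adj (fun a : p.1.1 => i a) b) := by
    intro j g
    obtain ⟨A, h1, h2, h3⟩ := exists_reps hθ hlρ hρθ hχρ i hi hMθ b (mk_Iio_succTy j)
      (fun k : Iio j => (g k.1 k.2).2) (⋃ k : Iio j, (g k.1 k.2).1.1) (by
        refine (mk_iUnion_le _).trans ?_
        have h4 : (⨆ k : Iio j, #((g k.1 k.2).1.1)) ≤ 2 ^ ρ := ciSup_le' fun k => (g k.1 k.2).1.2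
        exact (mul_le_mul' ((mk_Iio_succTy j).trans (cantor ρ).le) h4).trans
          (mul_eq_self h2ρ0).le)
    obtain ⟨m, hm⟩ := exists_real_elt hθ i hi hMθ b A (h2.trans_lt h2ρ)
    refine ⟨(⟨A, h2⟩, m), fun k hk => ?_, h3, hm⟩
    exact (subset_iUnion (fun k : Iio j => (g k.1 k.2).1.1) ⟨k, hk⟩).trans h1
  choose F hF1 hF2 hF3 using hstep
  let a : SuccTy ρ → S := WellFounded.fix (r := (· < ·)) wellFounded_lt F
  have ha : ∀ x, a x = F x fun y _ => a y := fun x => WellFounded.fix_eq _ _ x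
  have hmono : ∀ k j, k < j → (a k).1.1 ⊆ (a j).1.1 := by
    intro k j hkj
    have h1 := hF1 j (fun y _ => a y) k hkj
    rw [← ha j] at h1
    exact h1
  have hreps : ∀ j (y : χ.out → M), ∃ y' : χ.out → M, (∀ z, y' z ∈ (a j).1.1) ∧
      X.E θ (Sum.elim (Sum.elim (fun k : Iio j => i (a k.1).2) (fun _ : PUnit.{u + 1} => b))
        (fun z => i (y z))) (Sum.elim (Sum.elim (fun k : Iio j => i (a k.1).2) (fun _ => b))
        (fun z => i (y' z))) := by
    intro j y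
    have h1 := hF2 j (fun y _ => a y) y
    rw [← ha j] at h1
    exact h1
  have hreal : ∀ j, X.E θ (adj (fun z : (a j).1.1 => (z : M)) (a j).2)
      (adj (fun z : (a j).1.1 => i z) b) := by
    intro j
    have h1 := hF3 j (fun y _ => a y)
    rw [← ha j] at h1
    exact h1
  have hθ0 : ℵ₀ < θ := hθ.aleph0_lt
  have hcard1 : ∀ {ι ζ : Type u}, #ι < θ → #ζ < θ → #(ι ⊕ ζ) < θ := by
    intro ι ζ h1 h2
    rw [mk_sum, lift_id, lift_id]
    exact add_lt_of_lt hθ0.le h1 h2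
  have hpu : #(PUnit.{u + 1}) < θ := by
    rw [mk_punit]
    exact one_lt_aleph0.trans hθ0
  have hχo : #χ.out < θ := by
    rw [mk_out]
    exact hχ
  have hIio : ∀ j : SuccTy ρ, #(Iio j) < θ := fun j => (mk_Iio_succTy j).trans_lt hρθ
  refine ⟨fun j => (a j).2, fun D hD => ?_⟩
  by_contra hcon
  push Not at hcon
  obtain ⟨x₀, -⟩ := exists_gt_of_small hρ0 (∅ : Set (SuccTy ρ)) (by simp)
  rcases D.eq_empty_or_nonempty with hD0 | ⟨d₀, hd₀⟩
  · obtain ⟨j, -, hj⟩ := hcon x₀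
    refine hj ?_
    have hDe : IsEmpty D := Set.isEmpty_coe_sort.2 hD0
    have h1 := E.comp hθ (hreal j) (hcard1 ((a j).1.2.trans_lt h2ρ) hpu)
      (κ := D ⊕ PUnit.{u + 1}) (Sum.elim (fun d => hDe.elim d) fun x => Sum.inr x)
    have h2 : (fun k : D ⊕ PUnit.{u + 1} => adj (fun z : (a j).1.1 => (z : M)) (a j).2
        (Sum.elim (fun d => hDe.elim d) (fun x => Sum.inr x) k)) =
        adj (fun d : D => (d : M)) (a j).2 := by
      funext k
      rcases k with d | x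
      · exact hDe.elim d
      · rfl
    have h3 : (fun k : D ⊕ PUnit.{u + 1} => adj (fun z : (a j).1.1 => i z) b
        (Sum.elim (fun d => hDe.elim d) (fun x => Sum.inr x) k)) =
        adj (fun d : D => i d) b := by
      funext k
      rcases k with d | x
      · exact hDe.elim d
      · rfl
    rw [h2, h3] at h1
    exact h1
  -- the enumeration of `D`
  have hDc : #D ≤ #χ.out := by rwa [mk_out]
  obtain ⟨r⟩ : Nonempty (D ↪ χ.out) := (Cardinal.le_def _ _).1 hDc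
  have hDne : Nonempty D := ⟨⟨d₀, hd₀⟩⟩
  let s : χ.out → D := Function.invFun r
  have hsr : ∀ d, s (r d) = d := Function.leftInverse_invFun r.injective
  let y : χ.out → M := fun z => (s z : M)
  choose y' hy1 hy2 using fun j => hreps j y
  let B : Set (SuccTy ρ) := {j | ¬ X.E θ (adj (fun d : D => (d : M)) (a j).2)
    (adj (fun d : D => i d) b)}
  have hB : Order.succ ρ ≤ #B := by
    by_contra h
    have h1 : #B ≤ ρ := Order.lt_succ_iff.1 (not_le.1 h)
    obtain ⟨x, hx⟩ := exists_gt_of_small hρ0 B h1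
    obtain ⟨j, h2, h3⟩ := hcon x
    exact absurd (hx j h3) (not_lt.2 h2)
  obtain ⟨k, j, hkj, hE⟩ := hop M hM B ((hlamρ.trans (Order.le_succ ρ)).trans hB)
    (PUnit.{u + 1}) χ.out (by
      rw [mk_punit]
      exact one_le_aleph0.trans (X.hK.1.trans hl)) (by rw [mk_out])
    (fun j _ => (a j.1).2) (fun j => y' j.1)
  have hkj' : k.1 < j.1 := hkj
  refine k.2 ?_
  -- `(e k, y) ≡ (i (e k), i y)`
  have h1 : X.E θ (Sum.elim (fun _ : PUnit.{u + 1} => (a k.1).2) y)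
      (Sum.elim (fun _ : PUnit.{u + 1} => i (a k.1).2) fun z => i (y z)) := by
    have h := E.of_emb hθ i hi hMθ (Sum.elim (fun _ : PUnit.{u + 1} => (a k.1).2) y)
    have h' : (fun z => i ((Sum.elim (fun _ : PUnit.{u + 1} => (a k.1).2) y) z)) =
        Sum.elim (fun _ : PUnit.{u + 1} => i (a k.1).2) fun z => i (y z) := by
      funext z
      rcases z with z | z <;> rfl
    rwa [h'] at h
  -- `(i (e k), i y) ≡ (i (e k), i (y' j))`
  have h2 : X.E θ (Sum.elim (fun _ : PUnit.{u + 1} => i (a k.1).2) fun z => i (y z))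
      (Sum.elim (fun _ : PUnit.{u + 1} => i (a k.1).2) fun z => i (y' j.1 z)) := by
    have h := E.comp hθ (hy2 j.1) (hcard1 (hcard1 (hIio _) hpu) hχo)
      (κ := PUnit.{u + 1} ⊕ χ.out)
      (Sum.elim (fun _ => Sum.inl (Sum.inl ⟨k.1, hkj'⟩)) fun z => Sum.inr z)
    have h' : ∀ v : χ.out → M, (fun z : PUnit.{u + 1} ⊕ χ.out =>
        (Sum.elim (Sum.elim (fun k : Iio j.1 => i (a k.1).2) (fun _ : PUnit.{u + 1} => b))
        (fun z => i (v z))) ((Sum.elim (fun _ => Sum.inl (Sum.inl ⟨k.1, hkj'⟩))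
        fun z => Sum.inr z : PUnit.{u + 1} ⊕ χ.out → (Iio j.1 ⊕ PUnit.{u + 1}) ⊕ χ.out) z)) =
        Sum.elim (fun _ : PUnit.{u + 1} => i (a k.1).2) fun z => i (v z) := by
      intro v
      funext z
      rcases z with z | z <;> rfl
    rw [h', h'] at h
    exact h
  -- `(e k, y' j) ≡ (i (e k), i (y' j))`
  have h3 : X.E θ (Sum.elim (fun _ : PUnit.{u + 1} => (a k.1).2) (y' j.1))
      (Sum.elim (fun _ : PUnit.{u + 1} => i (a k.1).2) fun z => i (y' j.1 z)) := by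
    have h := E.of_emb hθ i hi hMθ (Sum.elim (fun _ : PUnit.{u + 1} => (a k.1).2) (y' j.1))
    have h' : (fun z => i ((Sum.elim (fun _ : PUnit.{u + 1} => (a k.1).2) (y' j.1)) z)) =
        Sum.elim (fun _ : PUnit.{u + 1} => i (a k.1).2) fun z => i (y' j.1 z) := by
      funext z
      rcases z with z | z <;> rfl
    rwa [h'] at h
  -- `(e j, y' k) ≡ (b, i (y' k))`
  have h4 : X.E θ (Sum.elim (fun _ : PUnit.{u + 1} => (a j.1).2) (y' k.1))
      (Sum.elim (fun _ : PUnit.{u + 1} => b) fun z => i (y' k.1 z)) := by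
    have hmem : ∀ z, y' k.1 z ∈ (a j.1).1.1 := fun z => hmono _ _ hkj' (hy1 k.1 z)
    have h := E.comp hθ (hreal j.1) (hcard1 ((a j.1).1.2.trans_lt h2ρ) hpu)
      (κ := PUnit.{u + 1} ⊕ χ.out)
      (Sum.elim (fun x => Sum.inr x) fun z => Sum.inl ⟨y' k.1 z, hmem z⟩)
    have h' : (fun z : PUnit.{u + 1} ⊕ χ.out => adj (fun z : (a j.1).1.1 => (z : M)) (a j.1).2
        ((Sum.elim (fun x => Sum.inr x) fun z => Sum.inl ⟨y' k.1 z, hmem z⟩ :
        PUnit.{u + 1} ⊕ χ.out → (a j.1).1.1 ⊕ PUnit.{u + 1}) z)) =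
        Sum.elim (fun _ : PUnit.{u + 1} => (a j.1).2) (y' k.1) := by
      funext z
      rcases z with z | z <;> rfl
    have h'' : (fun z : PUnit.{u + 1} ⊕ χ.out => adj (fun z : (a j.1).1.1 => i z) b
        ((Sum.elim (fun x => Sum.inr x) fun z => Sum.inl ⟨y' k.1 z, hmem z⟩ :
        PUnit.{u + 1} ⊕ χ.out → (a j.1).1.1 ⊕ PUnit.{u + 1}) z)) =
        Sum.elim (fun _ : PUnit.{u + 1} => b) fun z => i (y' k.1 z) := by
      funext z
      rcases z with z | z <;> rfl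
    rw [h', h''] at h
    exact h
  -- `(b, i (y' k)) ≡ (b, i y)`
  have h5 : X.E θ (Sum.elim (fun _ : PUnit.{u + 1} => b) fun z => i (y z))
      (Sum.elim (fun _ : PUnit.{u + 1} => b) fun z => i (y' k.1 z)) := by
    have h := E.comp hθ (hy2 k.1) (hcard1 (hcard1 (hIio _) hpu) hχo)
      (κ := PUnit.{u + 1} ⊕ χ.out) (Sum.elim (fun x => Sum.inl (Sum.inr x)) fun z => Sum.inr z)
    have h' : ∀ v : χ.out → M, (fun z : PUnit.{u + 1} ⊕ χ.out =>
        (Sum.elim (Sum.elim (fun k : Iio k.1 => i (a k.1).2) (fun _ : PUnit.{u + 1} => b))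
        (fun z => i (v z))) ((Sum.elim (fun x => Sum.inl (Sum.inr x))
        fun z => Sum.inr z : PUnit.{u + 1} ⊕ χ.out → (Iio k.1 ⊕ PUnit.{u + 1}) ⊕ χ.out) z)) =
        Sum.elim (fun _ : PUnit.{u + 1} => b) fun z => i (v z) := by
      intro v
      funext z
      rcases z with z | z <;> rfl
    rw [h', h'] at h
    exact h
  have h6 : X.E θ (Sum.elim (fun _ : PUnit.{u + 1} => (a k.1).2) y)
      (Sum.elim (fun _ : PUnit.{u + 1} => b) fun z => i (y z)) :=
    (((h1.trans h2).trans h3.symm).trans (hE.trans h4)).trans h5.symm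
  have h7 := E.comp hθ h6 (hcard1 hpu hχo) (κ := D ⊕ PUnit.{u + 1})
    (Sum.elim (fun d => Sum.inr (r d)) fun x => Sum.inl x)
  have h8 : (fun z : D ⊕ PUnit.{u + 1} => (Sum.elim (fun _ : PUnit.{u + 1} => (a k.1).2) y)
      ((Sum.elim (fun d => Sum.inr (r d)) fun x => Sum.inl x :
      D ⊕ PUnit.{u + 1} → PUnit.{u + 1} ⊕ χ.out) z)) = adj (fun d : D => (d : M)) (a k.1).2 := by
    funext z
    rcases z with z | z
    · exact congrArg Subtype.val (hsr z)
    · rfl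
  have h9 : (fun z : D ⊕ PUnit.{u + 1} => (Sum.elim (fun _ : PUnit.{u + 1} => b)
      fun z => i (y z)) ((Sum.elim (fun d => Sum.inr (r d)) fun x => Sum.inl x :
      D ⊕ PUnit.{u + 1} → PUnit.{u + 1} ⊕ χ.out) z)) = adj (fun d : D => i d) b := by
    funext z
    rcases z with z | z
    · exact congrArg (fun d : D => i d.1) (hsr z)
    · rfl
  rw [h8, h9] at h7
  exact h7

/-- The lengths of the sequences. -/
noncomputable def rho (X : Ctx L) : Cardinal.{u} → Cardinal.{u} := X.exists_lim.choose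

/-- The growth function. -/
noncomputable def fL (X : Ctx L) : Cardinal.{u} → Cardinal.{u} := X.exists_lim.choose_spec.choose

theorem le_rho (X : Ctx L) (χ : Cardinal.{u}) : χ ≤ X.rho χ :=
  X.exists_lim.choose_spec.choose_spec.1 χ

theorem rho_le (X : Ctx L) (χ : Cardinal.{u}) : X.rho χ ≤ X.fL χ :=
  X.exists_lim.choose_spec.choose_spec.2.1 χ

/-- The first strengthening of admissibility. -/
structure Adm1 (X : Ctx L) (θ : Cardinal.{u}) : Prop extends X.Adm θ where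
  fL : ∀ ρ < θ, X.fL ρ < θ

theorem lim (hθ : X.Adm1 θ) {χ : Cardinal.{u}} (hl : X.l ≤ χ) (hχ : χ < θ) (i : M ↪[L] N)
    (hi : X.K.Emb i) (hM : θ ≤ #M) (b : N) : ∃ e : SuccTy (X.rho χ) → M, X.LimSeq θ χ e i b :=
  X.exists_lim.choose_spec.choose_spec.2.2 θ hθ.toAdm hθ.fL χ hl hχ M N i hi hM b

theorem rho_lt (hθ : X.Adm1 θ) {χ : Cardinal.{u}} (hχ : χ < θ) : X.rho χ < θ :=
  (X.rho_le χ).trans_lt (hθ.fL χ hχ)

end Ctx

end Vale.Agent.P307.R2.H301
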