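import Vale.Agent.P307.R2.H301.Nf

set_option linter.unusedSectionVars false

universe u v w

open FirstOrder Cardinal Set

namespace Vale.Agent.P307.R2.H301

open Vale.Agent.P307 Vale.Agent.P307.H304 Vale.Agent.P307.R2.H287 Language.Structure
  Language.Substructure

variable {L : Language.{u, u}} {X : Ctx L} {θ : Cardinal.{u}}
variable {M N P : Type u} [L.Structure M] [L.Structure N] [L.Structure P]

namespace Ctx

/-- A minimal type. -/
structure MinPt (X : Ctx L) (θ : Cardinal.{u}) where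
  M : Type u
  [sM : L.Structure M]
  N : Type u
  [sN : L.Structure N]
  i : M ↪[L] N
  b : N
  emb : X.K.Emb i
  card : #M = θ
  notMem : b ∉ range i
  min : ∀ (M₁ N₁ N₂ : Type u) [L.Structure M₁] [L.Structure N₁] [L.Structure N₂]
    (k : M ↪[L] M₁) (j₁ : M₁ ↪[L] N₁) (j₂ : M₁ ↪[L] N₂) (b₁ : N₁) (b₂ : N₂), X.K.Emb k →
    #M₁ = θ → X.K.Emb j₁ → X.K.Emb j₂ → b₁ ∉ range j₁ → b₂ ∉ range j₂ →
    X.GE i b (j₁.comp k) b₁ → X.GE i b (j₂.comp k) b₂ → X.GE j₁ b₁ j₂ b₂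

attribute [instance] MinPt.sM MinPt.sN

theorem NF.congr_range {M M' M'' N : Type u} [L.Structure M] [L.Structure M'] [L.Structure M'']
    [L.Structure N] {k : M ↪[L] M'} {k' : M'' ↪[L] M'} {j : M' ↪[L] N} {b : N}
    (h : X.NF θ k j b) (hk : ∀ m, ∃ m', k' m' = k m) : X.NF θ k' j b := by
  obtain ⟨ρ, e, h1, h2, h3, h4⟩ := h
  choose f hf using hk
  refine ⟨ρ, fun x => f (e x), h1, h2, h3, ?_⟩
  simpa only [hf] using h4

/-- If there is no minimal type, every nonalgebraic type has a forking nonalgebraic extension. -/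
theorem exists_forking (hθ : X.Adm3 θ) (hno : ¬ Nonempty (MinPt X θ)) (i : M ↪[L] N) (b : N)
    (hi : X.K.Emb i) (hM : #M = θ) (hb : b ∉ range i) :
    ∃ (M₁ N₁ : Type u) (_ : L.Structure M₁) (_ : L.Structure N₁) (k : M ↪[L] M₁) (j : M₁ ↪[L] N₁)
      (b₁ : N₁), X.K.Emb k ∧ #M₁ = θ ∧ X.K.Emb j ∧ b₁ ∉ range j ∧ X.GE i b (j.comp k) b₁ ∧
        ¬ X.NF θ k j b₁ := by
  by_contra hcon
  refine hno ⟨⟨M, N, i, b, hi, hM, hb, ?_⟩⟩
  intro M₁ N₁ N₂ _ _ _ k j₁ j₂ b₁ b₂ hk hM₁ hj₁ hj₂ hb₁ hb₂ h₁ h₂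
  have hn₁ : X.NF θ k j₁ b₁ := by
    by_contra h
    exact hcon ⟨M₁, N₁, _, _, k, j₁, b₁, hk, hM₁, hj₁, hb₁, h₁, h⟩
  have hn₂ : X.NF θ k j₂ b₂ := by
    by_contra h
    exact hcon ⟨M₁, N₂, _, _, k, j₂, b₂, hk, hM₁, hj₂, hb₂, h₂, h⟩
  exact NF.unique hθ hM hM₁ hk hj₁ hj₂ hn₁ hn₂ (h₁.symm.trans h₂)

/-- States of the construction of a chain of forking extensions. -/
structure MSt (X : Ctx L) (Ω : Type u) (θ : Cardinal.{u}) where
  p : Pt X.K Ω θ
  S : L.Substructure p.s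
  b : p.s
  le : X.K.le S
  card : #S = θ
  notMem : b ∉ S
  cl_eq : cl X.K (insert b (S : Set p.s)) = ⊤

variable {Ω : Type u}

/-- Forking extensions. -/
def MSt.Step (x y : MSt X Ω θ) : Prop :=
  ∃ (f : x.p.s ↪[L] y.p.s) (k : x.S ↪[L] y.S), IsIncl f ∧ f x.b = y.b ∧
    (∀ s : x.S, f s = k s) ∧
    ¬ X.NF θ k y.S.subtype y.b

/-- The closure of a type. -/
theorem exists_hull (hθ : X.Adm3 θ) (j : M ↪[L] N) (b : N) (hj : X.K.Emb j)
    (hM : #M = θ) :
    ∃ T : L.Substructure N, T = cl X.K (insert b (range j)) ∧ X.K.le T ∧ #T = θ ∧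
      (∀ m, j m ∈ T) ∧ b ∈ T := by
  have hinf : ℵ₀ ≤ θ := hθ.toAdm.aleph0_lt.le
  have hr : #(range j) = θ := (mk_range_eq j j.injective).trans hM
  have hA : #(insert b (range j) : Set N) = θ := by
    apply le_antisymm
    · exact (mk_insert_le).trans (add_le_of_le hinf hr.le (one_le_aleph0.trans hinf))
    · exact hr.ge.trans (mk_le_mk_of_subset (subset_insert _ _))
  have h0 := subset_cl X.K (insert b (range j) : Set N)
  refine ⟨_, rfl, le_cl hj.mem_right (hθ.lt.le.trans hA.ge), le_antisymm ?_ ?_, ?_, ?_⟩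
  · exact (mk_cl_le hj.mem_right _).trans (add_le_of_le hinf hA.le hθ.lt.le)
  · exact hA.ge.trans (mk_le_mk_of_subset h0)
  · intro m
    exact h0 (Or.inr ⟨m, rfl⟩)
  · exact h0 (Or.inl rfl)

/-- The state given by a nonalgebraic type. -/
theorem exists_mst (hθ : X.Adm3 θ) (hΩ : θ < #Ω) (x : Pt X.K Ω θ) (j : M ↪[L] N) (b : N)
    (hj : X.K.Emb j) (hM : #M = θ) (hb : b ∉ range j) (g : x.s ↪[L] N) (hg : X.K.Emb g)
    (hgc : ∀ a, g a ∈ cl X.K (insert b (range j))) :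
    ∃ (y : MSt X Ω θ) (f : y.p.s ↪[L] N) (ε : M ≃[L] y.S), X.K.Emb f ∧ x ≤ y.p ∧
      (∀ (a : x.s) (a' : y.p.s), a'.1 = a.1 → f a' = g a) ∧ (∀ m, f (ε m) = j m) ∧ f y.b = b := by
  obtain ⟨T, hT, hTle, hTθ, hjT, hbT⟩ := exists_hull hθ j b hj hM
  rw [← hT] at hgc
  have hinf : ℵ₀ ≤ θ := hθ.toAdm.aleph0_lt.le
  let g' : x.s ↪[L] T := g.codRestrict T hgc
  have hg' : X.K.Emb g' := by
    refine AEC.Emb.of_comp (g := T.subtype) (AEC.emb_subtype.2 hTle) ?_
    have h1 : T.subtype.comp g' = g := by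
      ext x
      rfl
    rw [h1]
    exact hg
  obtain ⟨z, h, hz, hh⟩ := exists_room hinf hΩ x hTθ g' hg'
  let j' : M ↪[L] T := j.codRestrict T hjT
  have hj' : X.K.Emb j' := by
    refine AEC.Emb.of_comp (g := T.subtype) (AEC.emb_subtype.2 hTle) ?_
    have h1 : T.subtype.comp j' = j := by
      ext x
      rfl
    rw [h1]
    exact hj
  let jz : M ↪[L] z.s := h.toEmbedding.comp j'
  have hjz : X.K.Emb jz := AEC.Emb.comp (AEC.Emb.of_equiv h hj'.mem_right) hj'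
  let f : z.s ↪[L] N := T.subtype.comp h.symm.toEmbedding
  have hf : X.K.Emb f := AEC.Emb.comp (AEC.emb_subtype.2 hTle) (AEC.Emb.of_equiv h.symm z.mem)
  have hfh : ∀ t : T, f (h t) = t := by
    intro t
    change ((h.symm (h t) : T) : N) = t
    rw [h.symm_apply_apply]
  have hfj : ∀ m, f (jz m) = j m := fun m => hfh (j' m)
  have hfb : f (h ⟨b, hbT⟩) = b := hfh _
  have himg : f '' (insert (h ⟨b, hbT⟩) (jz.toHom.range : Set z.s)) = insert b (range j) := by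
    rw [image_insert_eq, hfb]
    congr 1
    ext y
    constructor
    · rintro ⟨_, ⟨m, rfl⟩, rfl⟩
      exact ⟨m, (hfj m).symm⟩
    · rintro ⟨m, rfl⟩
      exact ⟨_, ⟨m, rfl⟩, hfj m⟩
  let y : MSt X Ω θ :=
    { p := z
      S := jz.toHom.range
      b := h ⟨b, hbT⟩
      le := hjz
      card := (mk_congr jz.equivRange.toEquiv).symm.trans hM
      notMem := by
        rintro ⟨m, hm⟩
        refine hb ⟨m, ?_⟩
        rw [← hfj m, ← hfb]
        exact congrArg f hm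
      cl_eq := by
        have hl : X.l ≤ #(insert (h ⟨b, hbT⟩) (jz.toHom.range : Set z.s) : Set z.s) := by
          exact hθ.lt.le.trans (hM.symm.trans_le ((mk_congr jz.equivRange.toEquiv).trans_le
            (mk_le_mk_of_subset (subset_insert _ _))))
        have h1 := map_cl f hf hl
        rw [himg, ← hT] at h1
        rw [eq_top_iff]
        intro a _
        have h2 : f a ∈ T := (h.symm a).2
        rw [← h1] at h2
        obtain ⟨a', ha', h3⟩ := h2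
        rwa [f.injective h3] at ha' }
  refine ⟨y, f, jz.equivRange, hf, hz, ?_, fun m => hfj m, hfb⟩
  intro a a' haa
  have h1 : a' = h (g' a) := Subtype.ext (haa.trans (hh a).symm)
  rw [h1, hfh]
  rfl

/-- The first state. -/
theorem exists_mst_init (hθ : X.Adm3 θ) (hΩ : θ < #Ω) : Nonempty (MSt X Ω θ) := by
  obtain ⟨hlt, ⟨N₀, _, hN₀, hN₀c⟩, -⟩ := X.hunb θ
  obtain ⟨S, hS, -, hSc⟩ := exists_sub_card X.hK hθ.lt.le hN₀ (hlt.le.trans hN₀c.ge) ∅ (by
    rw [mk_eq_zero]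
    exact zero_le)
  obtain ⟨b, hb⟩ : ∃ b, b ∉ S := by
    by_contra h
    push Not at h
    have h1 : #N₀ ≤ #S := mk_le_of_injective (f := fun a => (⟨a, h a⟩ : S)) fun a a' haa =>
      congrArg Subtype.val haa
    rw [hN₀c, hSc] at h1
    exact absurd hlt h1.not_gt
  have hj : X.K.Emb S.subtype := AEC.emb_subtype.2 hS
  have hb' : b ∉ range S.subtype := by
    rintro ⟨a, rfl⟩
    exact hb a.2
  obtain ⟨T, hT, hTle, hTθ, hjT, hbT⟩ := exists_hull hθ S.subtype b hj hSc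
  obtain ⟨z, ⟨e⟩⟩ := exists_pt (Ω := Ω) hΩ hTθ (X.K.mem_of_le _ hTle).1
  obtain ⟨y, -⟩ := exists_mst hθ hΩ z S.subtype b hj hSc hb' (T.subtype.comp e.symm.toEmbedding)
    (AEC.Emb.comp (AEC.emb_subtype.2 hTle) (AEC.Emb.of_equiv e.symm z.mem)) (fun a => by
      rw [← hT]
      exact (e.symm a).2)
  exact ⟨y⟩

/-- The step. -/
theorem MSt.exists_step (hθ : X.Adm3 θ) (hΩ : θ < #Ω) (hno : ¬ Nonempty (MinPt X θ))
    (x : MSt X Ω θ) : ∃ y, x.Step y := by
  have hb : x.b ∉ range x.S.subtype := by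
    rintro ⟨a, ha⟩
    exact x.notMem (ha ▸ a.2)
  obtain ⟨M₁, N₁, _, _, k, j, b₁, hk, hM₁, hj, hb₁, ⟨f, hf, hfm, hfb⟩, hNF⟩ :=
    exists_forking hθ hno x.S.subtype x.b (AEC.emb_subtype.2 x.le) x.card hb
  have hr : range x.S.subtype = (x.S : Set x.p.s) := by
    ext a
    exact ⟨fun ⟨s, hs⟩ => hs ▸ s.2, fun ha => ⟨⟨a, ha⟩, rfl⟩⟩
  rw [hr, x.cl_eq] at hf
  obtain ⟨e, he⟩ := hf
  let g : x.p.s ↪[L] N₁ := (cl X.K (insert b₁ (range (j.comp k)))).subtype.comp
    (e.toEmbedding.comp (topEquiv (L := L) (M := x.p.s)).symm.toEmbedding)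
  have hgf : ∀ a, g a = f a := fun a => (he ⟨a, mem_top a⟩).symm
  have hjk : X.K.Emb (j.comp k) := AEC.Emb.comp hj hk
  obtain ⟨T, hT, hTle, hTθ, hjT, hbT⟩ := exists_hull hθ (j.comp k) b₁ hjk x.card
  have hgr : g.toHom.range = T := by
    rw [hT]
    ext y
    constructor
    · rintro ⟨a, rfl⟩
      exact (e ⟨a, mem_top a⟩).2
    · intro hy
      refine ⟨(e.symm ⟨y, hy⟩).1, ?_⟩
      change ((e ⟨(e.symm ⟨y, hy⟩).1, _⟩ : cl X.K (insert b₁ (range (j.comp k)))) : N₁) = y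
      have h1 : (⟨(e.symm ⟨y, hy⟩).1, mem_top _⟩ : (⊤ : L.Substructure x.p.s)) = e.symm ⟨y, hy⟩ :=
        rfl
      rw [h1, e.apply_symm_apply]
  have hg : X.K.Emb g := by
    have h1 := hTle
    rw [← hgr] at h1
    exact h1
  obtain ⟨y, f', ε, hf', ⟨F, hF⟩, ha, hm, hb'⟩ := exists_mst hθ hΩ x.p j b₁ hj hM₁ hb₁ g hg (by
    intro a
    have h1 : g a ∈ g.toHom.range := ⟨a, rfl⟩
    rw [hgr, hT] at h1
    refine cl_mono X.K (insert_subset_insert ?_) h1
    rintro _ ⟨m, rfl⟩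
    exact ⟨k m, rfl⟩)
  have hFa : ∀ a, f' (F a) = f a := fun a => (ha a (F a) (hF.2 a)).trans (hgf a)
  refine ⟨y, F, ε.toEmbedding.comp k, hF, f'.injective ?_, fun s => f'.injective ?_, fun h => ?_⟩
  · rw [hFa, hfb, hb']
  · rw [hFa]
    exact (hfm s).trans (hm (k s)).symm
  · have hε : X.K.Emb ε.toEmbedding := AEC.Emb.of_equiv ε hk.mem_right
    have h1 : X.NF θ k (y.S.subtype.comp ε.toEmbedding) y.b := NF.restrict hθ hε hM₁.ge h
    have hi : X.K.Emb (y.S.subtype.comp ε.toEmbedding) :=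
      AEC.Emb.comp (AEC.emb_subtype.2 y.le) hε
    have h2 := GE.of_emb (y.S.subtype.comp ε.toEmbedding) hi (hθ.lt.le.trans hM₁.ge) f' hf' y.b
    have h3 : f'.comp (y.S.subtype.comp ε.toEmbedding) = j := by
      ext m
      exact hm m
    rw [h3, hb'] at h2
    exact hNF (h1.of_ge hθ hi hj hM₁.ge h2)

/-- There is no infinite chain of steps. -/
theorem MSt.not_chain (hθ : X.Adm3 θ) (x : ℕ → MSt X Ω θ) : ¬ ∀ n, (x n).Step (x (n + 1)) := by
  intro hx
  choose F kk hF hFb hkk hNF using hx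
  have hinf : ℵ₀ ≤ θ := hθ.toAdm.aleph0_lt.le
  have hmono : Monotone fun n => (x n).p := monotone_nat_of_le_succ fun n => ⟨F n, hF n⟩
  obtain ⟨z, hz, hle⟩ := exists_union (ι := ULift.{u} ℕ) hinf (by
    rw [mk_uLift, mk_nat, lift_aleph0]
    exact hinf) (fun n => (x n.down).p) fun m n hmn => hmono hmn
  have hle' : ∀ n, ∃ f : (x n).p.s ↪[L] z.s, IsIncl f := fun n => hle ⟨n⟩
  choose G hG using hle'
  have hb : ∀ n, G n (x n).b = G 0 (x 0).b := by
    intro n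
    induction n with
    | zero => rfl
    | succ n ih =>
      rw [← ih]
      apply Subtype.ext
      rw [(hG _).2, (hG _).2, ← hFb n]
      exact (hF n).2 _
  let g : ∀ n, (x n).S ↪[L] z.s := fun n => (G n).comp (x n).S.subtype
  have hg : ∀ n, X.K.Emb (g n) := fun n => AEC.Emb.comp (hG n).1 (AEC.emb_subtype.2 (x n).le)
  have hgk : ∀ n s, g (n + 1) (kk n s) = g n s := by
    intro n s
    apply Subtype.ext
    change (G (n + 1) (kk n s)).1 = (G n s).1
    rw [(hG _).2, (hG _).2, ← hkk n s]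
    exact (hF n).2 _
  have hR : Monotone fun n => (g n).toHom.range := by
    refine monotone_nat_of_le_succ fun n => ?_
    rintro _ ⟨s, rfl⟩
    exact ⟨kk n s, hgk n s⟩
  let S : L.Substructure z.s := ⨆ n : ULift.{u} ℕ, (g n.down).toHom.range
  have hSmem : ∀ y ∈ S, ∃ n, y ∈ (g n).toHom.range := by
    intro y hy
    have hd : Directed (· ≤ ·) fun n : ULift.{u} ℕ => (g n.down).toHom.range :=
      directed_of_isDirected_le fun m n hmn => hR hmn
    rw [mem_iSup_of_directed hd] at hy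
    obtain ⟨n, hn⟩ := hy
    exact ⟨_, hn⟩
  have hS : X.K.le S := X.K.chain_smooth (ι := ULift.{u} ℕ) _ (fun m n hmn => hR hmn)
    fun n => hg n.down
  have hRS : ∀ n, (g n).toHom.range ≤ S := fun n =>
    le_iSup (fun n : ULift.{u} ℕ => (g n.down).toHom.range) ⟨n⟩
  have hSc : #S = θ := by
    apply le_antisymm
    · exact (mk_le_of_injective Subtype.val_injective).trans z.card.le
    · exact (x 0).card.ge.trans (mk_le_of_injective (f := fun s => (⟨g 0 s, hRS 0 ⟨s, rfl⟩⟩ : S))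
        fun s s' hss => (g 0).injective (congrArg Subtype.val hss))
  have hj : X.K.Emb S.subtype := AEC.emb_subtype.2 hS
  obtain ⟨n, hn⟩ := exists_NF_nat hθ hj hSc (fun n => ((g n).toHom.range).comap S.subtype.toHom)
    (fun m n hmn => monotone_comap (hR hmn)) (fun n => X.K.coherence _ _ (hRS n) (hg n) hS)
    (fun n => by
      apply le_antisymm
      · exact (mk_le_of_injective Subtype.val_injective).trans hSc.le
      · exact (x n).card.ge.trans (mk_le_of_injective (f := fun s => (⟨⟨g n s, hRS n ⟨s, rfl⟩⟩,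
          ⟨s, rfl⟩⟩ : ((g n).toHom.range).comap S.subtype.toHom)) fun s s' hss =>
          (g n).injective (congrArg (fun t => t.1.1) hss)))
    (fun y => hSmem y y.2) (G 0 (x 0).b)
  let k' : (x (n + 1)).S ↪[L] S := (g (n + 1)).codRestrict S fun s => hRS _ ⟨s, rfl⟩
  have hk'S : S.subtype.comp k' = g (n + 1) := by
    ext s
    rfl
  have hk' : X.K.Emb k' := by
    refine AEC.Emb.of_comp (g := S.subtype) hj ?_
    rw [hk'S]
    exact hg _
  have h1 : X.NF θ (k'.comp (kk n)) S.subtype (G 0 (x 0).b) := by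
    refine hn.congr_range fun m => ?_
    obtain ⟨s, hs⟩ := m.2
    refine ⟨s, ?_⟩
    apply Subtype.ext
    exact (hgk n s).trans hs
  have h2 := h1.restrict hθ hk' (x (n + 1)).card.ge
  rw [hk'S, ← hb (n + 1)] at h2
  have h3 := GE.of_emb (X := X) (x (n + 1)).S.subtype (AEC.emb_subtype.2 (x (n + 1)).le)
    (hθ.lt.le.trans (x (n + 1)).card.ge) (G (n + 1)) (hG (n + 1)).1 (x (n + 1)).b
  exact hNF n (h2.of_ge hθ (hg _) (AEC.emb_subtype.2 (x (n + 1)).le) (x (n + 1)).card.ge h3.symm)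

theorem exists_minPt (hθ : X.Adm3 θ) : Nonempty (MinPt X θ) := by
  by_contra hno
  let Ω := (Order.succ θ).ord.ToType
  have hΩ : θ < #Ω := by
    rw [mk_toType, card_ord]
    exact Order.lt_succ θ
  obtain ⟨x₀⟩ := exists_mst_init hθ hΩ
  choose st hst using MSt.exists_step hθ hΩ hno
  exact MSt.not_chain hθ (fun n => Nat.rec x₀ (fun _ => st) n) fun n => hst _

/-- Realizations of the minimal type. -/
def MinPt.Real (q : MinPt X θ) {N : Type u} [L.Structure N] (i : q.M ↪[L] N) (b : N) : Prop :=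
  X.GE q.i q.b i b

theorem mk_succTy_lt (hθ : X.Adm θ) {ρ : Cardinal.{u}} (hρ : ρ < θ) : #(SuccTy ρ) < θ := by
  rw [mk_toType, card_ord]
  exact (Order.succ_le_of_lt (cantor ρ)).trans_lt (hθ.pow ρ hρ)

theorem mk_adj_lt (hθ : X.Adm θ) {ι : Type u} (h : #ι < θ) : #(ι ⊕ PUnit.{u + 1}) < θ := by
  rw [mk_sum, lift_id, lift_id]
  refine add_lt_of_lt hθ.aleph0_lt.le h ?_
  rw [mk_punit]
  exact one_lt_aleph0.trans hθ.aleph0_lt

theorem comp_symm_comp {M M₁ N : Type u} [L.Structure M] [L.Structure M₁] [L.Structure N]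
    (i : M ↪[L] N) (e : M ≃[L] M₁) :
    (i.comp e.symm.toEmbedding).comp e.toEmbedding = i := by
  apply Language.Embedding.ext
  intro x
  change i (e.symm (e x)) = i x
  rw [e.symm_apply_apply]

theorem comp_comp_symm {M M₁ N : Type u} [L.Structure M] [L.Structure M₁] [L.Structure N]
    (j : M₁ ↪[L] N) (e : M ≃[L] M₁) :
    (j.comp e.toEmbedding).comp e.symm.toEmbedding = j := by
  apply Language.Embedding.ext
  intro x
  change j (e (e.symm x)) = j x
  rw [e.apply_symm_apply]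

/-- Conjugation of the minimal type. -/
theorem MinPt.exists_conj (hθ : X.Adm3 θ) (q : MinPt X θ) {M₁ : Type u} [L.Structure M₁]
    (k : q.M ↪[L] M₁) (hk : X.K.Emb k) (hM₁ : #M₁ = θ) (C : Set q.M) (hC : #C < θ) :
    ∃ e : q.M ≃[L] M₁, (∀ c ∈ C, e c = k c) ∧ X.NF θ k (q.i.comp e.symm.toEmbedding) q.b ∧
      X.K.Emb (q.i.comp e.symm.toEmbedding) ∧ q.b ∉ range (q.i.comp e.symm.toEmbedding) ∧
      X.GE q.i q.b ((q.i.comp e.symm.toEmbedding).comp k) q.b ∧ ∀ x, (q.i.comp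
        e.symm.toEmbedding) (e x) = q.i x := by
  obtain ⟨C₀, hC₀, hbase⟩ := exists_base hθ q.emb q.card q.b
  obtain ⟨e, he⟩ := exists_iso_over hθ.toAdm k hk q.card hM₁ (C₀ ∪ C)
    ((mk_union_le _ _).trans_lt (add_lt_of_lt (hθ.toAdm.aleph0_lt).le hC₀ hC))
  obtain ⟨h1, h2⟩ := hbase M₁ k e hk fun c hc => he c (Or.inl hc)
  refine ⟨e, fun c hc => he c (Or.inr hc), h1, ?_, ?_, h2, ?_⟩
  · exact AEC.Emb.comp q.emb (AEC.Emb.of_equiv e.symm hk.mem_right)
  · rintro ⟨x, hx⟩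
    exact q.notMem ⟨e.symm x, hx⟩
  · intro x
    change q.i (e.symm (e x)) = q.i x
    rw [e.symm_apply_apply]

/-- The minimal type over a larger model is conjugate to the minimal type. -/
theorem MinPt.exists_equiv (hθ : X.Adm3 θ) (q : MinPt X θ) {M₁ : Type u} [L.Structure M₁]
    (k : q.M ↪[L] M₁) (hk : X.K.Emb k) (hM₁ : #M₁ = θ) (C : Set q.M) (hC : #C < θ) :
    ∃ e : q.M ≃[L] M₁, (∀ c ∈ C, e c = k c) ∧ ∀ (N : Type u) [L.Structure N] (j : M₁ ↪[L] N)
      (b : N), X.K.Emb j → b ∉ range j → (q.Real (j.comp k) b ↔ q.Real (j.comp e.toEmbedding) b) := by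
  obtain ⟨e, heC, -, hj₀, hb₀, hGE, -⟩ := q.exists_conj hθ k hk hM₁ C hC
  refine ⟨e, heC, fun N _ j b hj hb => ⟨fun h => ?_, fun h => ?_⟩⟩
  · have h1 : X.GE (q.i.comp e.symm.toEmbedding) q.b j b :=
      q.min M₁ q.N N k (q.i.comp e.symm.toEmbedding) j q.b b hk hM₁ hj₀ hj hb₀ hb hGE h
    have h2 := h1.equiv e
    rwa [comp_symm_comp] at h2
  · have h1 : X.GE q.i q.b (j.comp e.toEmbedding) b := h
    have h2 := h1.equiv e.symm
    rw [comp_comp_symm] at h2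
    exact hGE.trans (h2.restrict hj₀ hj k hk (hθ.lt.le.trans q.card.ge))

/-- Nonalgebraic extensions of the minimal type do not fork. -/
theorem MinPt.nf (hθ : X.Adm3 θ) (q : MinPt X θ) {M₁ : Type u} [L.Structure M₁]
    {k : q.M ↪[L] M₁} (hk : X.K.Emb k) (hM₁ : #M₁ = θ) {j : M₁ ↪[L] N} (hj : X.K.Emb j) {b : N}
    (hb : b ∉ range j) (h : q.Real (j.comp k) b) : X.NF θ k j b := by
  obtain ⟨e, -, hNF, hj₀, hb₀, hGE, -⟩ := q.exists_conj hθ k hk hM₁ ∅ (by
    rw [mk_eq_zero]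
    exact pos_of_gt hθ.lt)
  exact hNF.of_ge hθ hj₀ hj hM₁.ge
    (q.min M₁ q.N N k (q.i.comp e.symm.toEmbedding) j q.b b hk hM₁ hj₀ hj hb₀ hb hGE h)

/-- Realizations of the minimal type outside `M₁` are reflected in the small model. -/
theorem MinPt.reflect (hθ : X.Adm3 θ) (q : MinPt X θ) {M₁ : Type u} [L.Structure M₁]
    {k : q.M ↪[L] M₁} (hk : X.K.Emb k) (hM₁ : #M₁ = θ) {j : M₁ ↪[L] N} (hj : X.K.Emb j) {b : N}
    (hb : b ∉ range j) (h : q.Real (j.comp k) b) (D : Set M₁) (hD : #D < θ) :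
    ∃ b' : q.M, X.E θ (adj (fun d : D => (d : M₁)) (k b')) (adj (fun d : D => j d) b) := by
  have hχ : max X.H #D < θ := max_lt hθ.toAdm2.H hD
  obtain ⟨e', he'⟩ := Ctx.lim hθ.toAdm1 (X.le_H.trans (le_max_left _ _)) hχ q.i q.emb q.card.ge q.b
  have hrng : #(range e') < θ := mk_range_le.trans_lt (mk_succTy_lt hθ.toAdm
    (rho_lt hθ.toAdm1 hχ))
  obtain ⟨e, heC, -, hj₀, hb₀, hGE, hei⟩ := q.exists_conj hθ k hk hM₁ (range e') hrng
  obtain ⟨x₀, hx₀⟩ := he' (e.symm '' D) (mk_image_le.trans (le_max_right _ _))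
  refine ⟨e' x₀, ?_⟩
  have h1 := hx₀ x₀ le_rfl
  have h2 : X.E θ (adj (fun d : D => e.symm d) (e' x₀)) (adj (fun d : D => q.i (e.symm d)) q.b) := by
    have h := h1.comp hθ.toAdm (mk_adj_lt hθ.toAdm (mk_image_le.trans_lt hD))
      (Sum.map (fun d : D => (⟨e.symm d, d, d.2, rfl⟩ : (e.symm '' D : Set q.M))) id)
    convert h using 1 <;>
    · funext i
      rcases i with d | d <;> rfl
  have h3 := E.of_equiv hθ.toAdm e (adj (fun d : D => e.symm d) (e' x₀))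
  have h4 : X.SE θ (max X.H #D) (q.i.comp e.symm.toEmbedding) q.b j b :=
    GE.se hθ.toAdm (q.min M₁ q.N N k (q.i.comp e.symm.toEmbedding) j q.b b hk hM₁ hj₀ hj hb₀ hb
      hGE h) hj₀ hj hM₁.ge _ hχ
  have h5 := h4 D (le_max_right _ _)
  have h6 : (fun i => e (adj (fun d : D => e.symm d) (e' x₀) i)) =
      adj (fun d : D => (d : M₁)) (k (e' x₀)) := by
    funext i
    rcases i with d | d
    · exact e.apply_symm_apply _
    · exact heC _ ⟨x₀, rfl⟩
  rw [h6] at h3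
  exact (h3.symm.trans h2).trans h5

end Ctx

end Vale.Agent.P307.R2.H301
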