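import Vale.Agent.P307.R2.H301.Gal

set_option linter.unusedSectionVars false
set_option linter.unusedVariables false

universe u v w

open FirstOrder Cardinal Set

namespace Vale.Agent.P307.R2.H301

open Vale.Agent.P307 Vale.Agent.P307.H304 Vale.Agent.P307.R2.H287 Language.Structure
  Language.Substructure

variable {L : Language.{u, u}} {X : Ctx L} {θ : Cardinal.{u}}
variable {M N P : Type u} [L.Structure M] [L.Structure N] [L.Structure P]

namespace Ctx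

variable {M' N' N'' : Type u} [L.Structure M'] [L.Structure N'] [L.Structure N'']

theorem Adm.mk_adj_lt (hθ : X.Adm θ) {ι : Type u} (h : #ι < θ) :
    #(ι ⊕ PUnit.{u + 1}) < θ := by
  rw [mk_sum, lift_id, lift_id, mk_punit]
  exact add_lt_of_lt hθ.aleph0_lt.le h (one_lt_aleph0.trans hθ.aleph0_lt)

theorem Adm.mk_succTy_lt (hθ : X.Adm θ) {ρ : Cardinal.{u}} (h : ρ < θ) : #(SuccTy ρ) < θ := by
  rw [mk_toType, card_ord]
  exact (Order.succ_le_of_lt (cantor ρ)).trans_lt (hθ.pow ρ h)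

/-- Reindexing of `adj`. -/
theorem E.adj_comp (hθ : X.Adm θ) {ι κ : Type u} {x : ι → M} {b : M} {y : ι → N} {b' : N}
    (h : X.E θ (adj x b) (adj y b')) (hι : #ι < θ) (g : κ → ι) :
    X.E θ (adj (fun k => x (g k)) b) (adj (fun k => y (g k)) b') := by
  have h1 := E.comp hθ h (hθ.mk_adj_lt hι) (Sum.map g id)
  have h2 : ∀ {Q : Type u} (x : ι → Q) (b : Q),
      (fun k => adj x b (Sum.map g id k)) = adj (fun k => x (g k)) b := by
    intro Q x b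
    funext k
    cases k <;> rfl
  rwa [h2, h2] at h1

/-- Families instead of sets in `LimSeq`. -/
theorem LimSeq.fam (hθ : X.Adm θ) {χ ρ : Cardinal.{u}} (hχ : χ < θ) {e : SuccTy ρ → M}
    {i : M ↪[L] N} {b : N} (h : X.LimSeq θ χ e i b) {ι : Type u} (hι : #ι ≤ χ) (w : ι → M) :
    ∃ j₀, ∀ j, j₀ ≤ j → X.E θ (adj w (e j)) (adj (fun a => i (w a)) b) := by
  obtain ⟨j₀, hj₀⟩ := h (range w) (mk_range_le.trans hι)
  refine ⟨j₀, fun j hj => ?_⟩
  exact E.adj_comp hθ (hj₀ j hj) ((mk_range_le.trans hι).trans_lt hχ)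
    (fun a => (⟨w a, mem_range_self a⟩ : range w))

/-- Families instead of sets in `SE`. -/
theorem SE.fam (hθ : X.Adm θ) {χ : Cardinal.{u}} (hχ : χ < θ) {i : M ↪[L] N} {b : N}
    {j : M ↪[L] N'} {b' : N'} (h : X.SE θ χ i b j b') {ι : Type u} (hι : #ι ≤ χ) (w : ι → M) :
    X.E θ (adj (fun a => i (w a)) b) (adj (fun a => j (w a)) b') :=
  E.adj_comp hθ (h (range w) (mk_range_le.trans hι)) ((mk_range_le.trans hι).trans_lt hχ)
    (fun a => (⟨w a, mem_range_self a⟩ : range w))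

theorem adj_map {ι : Type u} (f : M → N) (x : ι → M) (b : M) :
    (fun k => f (adj x b k)) = adj (fun k => f (x k)) (f b) := by
  funext k
  cases k <;> rfl

theorem E.adj_emb (hθ : X.Adm θ) (f : M ↪[L] N) (hf : X.K.Emb f) (hM : θ ≤ #M) {ι : Type u}
    (x : ι → M) (b : M) : X.E θ (adj x b) (adj (fun k => f (x k)) (f b)) := by
  have := E.of_emb hθ f hf hM (adj x b)
  rwa [adj_map] at this

theorem E.adj_equiv (hθ : X.Adm θ) (f : M ≃[L] N) {ι : Type u}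
    (x : ι → M) (b : M) : X.E θ (adj x b) (adj (fun k => f (x k)) (f b)) := by
  have := E.of_equiv hθ f (adj x b)
  rwa [adj_map] at this

theorem E.adj_symm {ι : Type u} {x : ι → M} {b : M} {y : ι → N} {b' : N}
    (h : X.E θ (adj x b) (adj y b')) : X.E θ (adj y b') (adj x b) := E.symm h

/-- The type of `b` over `M'` is the limit of a sequence from `M`. -/
def NF (X : Ctx L) (θ : Cardinal.{u}) (k : M ↪[L] M') (j : M' ↪[L] N) (b : N) : Prop :=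
  ∃ (ρ : Cardinal.{u}) (e : SuccTy ρ → M), ℵ₀ ≤ ρ ∧ X.H ≤ ρ ∧ ρ < θ ∧
    X.LimSeq θ X.H (fun x => k (e x)) j b

theorem NF.of_ge (hθ : X.Adm3 θ) {k : M ↪[L] M'} {j : M' ↪[L] N} {b : N} {j' : M' ↪[L] N'}
    {b' : N'} (hj : X.K.Emb j) (hj' : X.K.Emb j') (hM' : θ ≤ #M') (h : X.NF θ k j b)
    (hb : X.GE j b j' b') : X.NF θ k j' b' := by
  obtain ⟨ρ, e, h1, h2, h3, h4⟩ := h
  refine ⟨ρ, e, h1, h2, h3, fun D hD => ?_⟩
  obtain ⟨j₀, hj₀⟩ := h4 D hD
  have h5 := hb.se hθ.toAdm hj hj' hM' X.H hθ.H D hD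
  exact ⟨j₀, fun x hx => (hj₀ x hx).trans h5⟩

theorem NF.restrict (hθ : X.Adm3 θ) {k : M ↪[L] M'} {k' : M' ↪[L] N'} {j : N' ↪[L] N} {b : N}
    (hk' : X.K.Emb k') (hM' : θ ≤ #M') (h : X.NF θ (k'.comp k) j b) :
    X.NF θ k (j.comp k') b := by
  obtain ⟨ρ, e, h1, h2, h3, h4⟩ := h
  refine ⟨ρ, e, h1, h2, h3, fun D hD => ?_⟩
  obtain ⟨j₀, hj₀⟩ := LimSeq.fam hθ.toAdm hθ.H h4 hD (fun d : D => k' d)
  refine ⟨j₀, fun x hx => ?_⟩
  exact (E.adj_emb hθ.toAdm k' hk' hM' (fun d : D => (d : M')) (k (e x))).trans (hj₀ x hx)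

theorem NF.unique (hθ : X.Adm3 θ) {k : M ↪[L] M'} {j : M' ↪[L] N} {b : N} {j' : M' ↪[L] N'}
    {b' : N'} (hM : #M = θ) (hM' : #M' = θ) (hk : X.K.Emb k) (hj : X.K.Emb j) (hj' : X.K.Emb j')
    (h : X.NF θ k j b) (h' : X.NF θ k j' b') (hb : X.GE (j.comp k) b (j'.comp k) b') :
    X.GE j b j' b' := by
  have hA := hθ.toAdm
  refine ge_of_H hθ hj.mem_left hM' hj hj' fun D hD => ?_
  obtain ⟨ρ, e, h1, h2, h3, h4⟩ := h
  obtain ⟨ρ', e', h1', h2', h3', h4'⟩ := h'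
  have hDθ : #D < θ := hD.trans_lt hθ.H
  have hs1 : #(SuccTy ρ) < θ := hA.mk_succTy_lt h3
  have hs2 : #(SuccTy ρ') < θ := hA.mk_succTy_lt h3'
  have hs : #(SuccTy ρ ⊕ SuccTy ρ') < θ := by
    rw [mk_sum, lift_id, lift_id]
    exact add_lt_of_lt hA.aleph0_lt.le hs1 hs2
  have hBM : X.Big θ M := ⟨hk.mem_left, hM.ge⟩
  have hBM' : X.Big θ M' := ⟨hk.mem_right, hM'.ge⟩
  obtain ⟨w, hw⟩ := E.extend hA hBM' hBM hs hDθ
    (E.of_emb hA k hk hM.ge (Sum.elim e e')).symm (fun d : D => (d : M'))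
  have hbig : #((SuccTy ρ ⊕ SuccTy ρ') ⊕ D) < θ := by
    rw [mk_sum, lift_id, lift_id]
    exact add_lt_of_lt hA.aleph0_lt.le hs hDθ
  -- `(D, k e_x) ≡ (w, e_x)`
  have hwe : ∀ x, X.E θ (adj (fun d : D => (d : M')) (k (e x))) (adj w (e x)) := by
    intro x
    have := E.comp hA hw hbig (Sum.elim Sum.inr fun _ : PUnit.{u + 1} => Sum.inl (Sum.inl x))
    convert this using 1 <;> · funext c; cases c <;> rfl
  have hwe' : ∀ x, X.E θ (adj (fun d : D => (d : M')) (k (e' x))) (adj w (e' x)) := by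
    intro x
    have := E.comp hA hw hbig (Sum.elim Sum.inr fun _ : PUnit.{u + 1} => Sum.inl (Sum.inr x))
    convert this using 1 <;> · funext c; cases c <;> rfl
  have key : ∀ {Q : Type u} [L.Structure Q] (j : M' ↪[L] Q) (b : Q) (ρ : Cardinal.{u})
      (hρ : ℵ₀ ≤ ρ) (e : SuccTy ρ → M) (h4 : X.LimSeq θ X.H (fun x => k (e x)) j b)
      (hwe : ∀ x, X.E θ (adj (fun d : D => (d : M')) (k (e x))) (adj w (e x))),
      X.E θ (adj (fun d : D => j d) b) (adj (fun d : D => j (k (w d))) b) := by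
    intro Q _ j b ρ hρ e h4 hwe
    obtain ⟨j₁, hj₁⟩ := h4 D hD
    obtain ⟨j₂, hj₂⟩ := LimSeq.fam hA hθ.H h4 hD (fun d : D => k (w d))
    have a1 := hj₁ (max j₁ j₂) (le_max_left _ _)
    have a2 := hj₂ (max j₁ j₂) (le_max_right _ _)
    have a3 := hwe (max j₁ j₂)
    have a4 := E.adj_emb hA k hk hM.ge w (e (max j₁ j₂))
    exact ((a1.symm.trans a3).trans a4).trans a2
  have b1 := key j b ρ h1 e h4 hwe
  have b2 := key j' b' ρ' h1' e' h4' hwe'
  have b3 := SE.fam hA hθ.H (hb.se hA (hj.comp hk) (hj'.comp hk) hM.ge X.H hθ.H) hD w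
  exact (b1.trans b3).trans b2.symm

theorem NF.notMem (hθ : X.Adm3 θ) {k : M ↪[L] M'} {j : M' ↪[L] N} {b : N} (hM : #M = θ)
    (hM' : #M' = θ) (hk : X.K.Emb k) (hj : X.K.Emb j) (h : X.NF θ k j b)
    (hb : b ∉ range fun m => j (k m)) : b ∉ range j := by
  rintro ⟨m', hm'⟩
  obtain ⟨ρ, e, h1, h2, h3, h4⟩ := h
  have hH : (1 : Cardinal.{u}) ≤ X.H := one_lt_aleph0.le.trans (X.hK.1.trans X.le_H)
  obtain ⟨j₀, hj₀⟩ := LimSeq.fam hθ.toAdm hθ.H h4 (ι := PUnit.{u + 1}) (by simpa using hH)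
    (fun _ => m')
  have h5 := hj₀ j₀ le_rfl
  have h6 := (E.eq_iff hθ.toAdm (hθ.toAdm.mk_adj_lt (by
    rw [mk_fintype]; exact natCast_lt_aleph0.trans hθ.toAdm.aleph0_lt)) h5
    (Sum.inl PUnit.unit) (Sum.inr PUnit.unit)).2 hm'
  have h7 : m' = k (e j₀) := h6
  exact hb ⟨e j₀, by rw [← hm', h7]⟩

/-- The base of a type. -/
theorem exists_base (hθ : X.Adm3 θ) {i : M ↪[L] N} (hi : X.K.Emb i) (hM : #M = θ) (b : N) :
    ∃ C : Set M, #C < θ ∧ ∀ (M' : Type u) [L.Structure M'] (k : M ↪[L] M') (e : M ≃[L] M'),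
      X.K.Emb k → (∀ c ∈ C, e c = k c) → X.NF θ k (i.comp e.symm.toEmbedding) b ∧
        X.GE i b ((i.comp e.symm.toEmbedding).comp k) b := by
  have hA := hθ.toAdm
  obtain ⟨e0, he0⟩ := lim hθ.toAdm1 X.le_H hθ.H i hi hM.ge b
  have hρ : X.rho X.H < θ := rho_lt hθ.toAdm1 hθ.H
  refine ⟨range e0, mk_range_le.trans_lt (hA.mk_succTy_lt hρ), ?_⟩
  intro M' _ k e hk hC
  have hke : ∀ x, e (e0 x) = k (e0 x) := fun x => hC _ (mem_range_self x)
  refine ⟨⟨X.rho X.H, e0, (X.hK.1.trans X.le_H).trans (X.le_rho _), X.le_rho _, hρ, ?_⟩, ?_⟩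
  · intro D hD
    obtain ⟨j₀, hj₀⟩ := LimSeq.fam hA hθ.H he0 hD (fun d : D => e.symm d)
    refine ⟨j₀, fun x hx => ?_⟩
    have a1 := E.adj_equiv hA e (fun d : D => e.symm d) (e0 x)
    have a2 := hj₀ x hx
    simp only [Language.Equiv.apply_symm_apply] at a1
    rw [hke] at a1
    exact a1.symm.trans a2
  · refine ge_of_H hθ hi.mem_left hM hi ?_ fun D hD => ?_
    · exact (hi.comp (AEC.Emb.of_equiv e.symm hk.mem_right)).comp hk
    · obtain ⟨j₁, hj₁⟩ := he0 D hD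
      obtain ⟨j₂, hj₂⟩ := LimSeq.fam hA hθ.H he0 hD (fun d : D => e.symm (k d))
      have a1 := hj₁ (max j₁ j₂) (le_max_left _ _)
      have a2 := hj₂ (max j₁ j₂) (le_max_right _ _)
      have a3 := E.adj_emb hA k hk hM.ge (fun d : D => (d : M)) (e0 (max j₁ j₂))
      have a4 := E.adj_equiv hA e (fun d : D => e.symm (k d)) (e0 (max j₁ j₂))
      simp only [Language.Equiv.apply_symm_apply] at a4
      rw [hke] at a4
      exact ((a1.symm.trans a3).trans a4.symm).trans a2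

/-- Isomorphisms over small sets. -/
theorem exists_iso_over (hθ : X.Adm θ) (k : M ↪[L] M') (hk : X.K.Emb k) (hM : #M = θ)
    (hM' : #M' = θ) (C : Set M) (hC : #C < θ) : ∃ e : M ≃[L] M', ∀ c ∈ C, e c = k c := by
  obtain ⟨e, he⟩ := exists_iso_of_E hθ hk.mem_left hk.mem_right hM hM' hC
    (E.of_emb hθ k hk hM.ge (fun c : C => (c : M)))
  exact ⟨e, fun c hc => he ⟨c, hc⟩⟩

/-- Local character along chains of length `ω`. -/
theorem exists_NF_nat (hθ : X.Adm3 θ) {j : M ↪[L] N} (hj : X.K.Emb j) (hM : #M = θ)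
    (S : ℕ → L.Substructure M) (hS : Monotone S) (hSle : ∀ n, X.K.le (S n))
    (hSθ : ∀ n, #(S n) = θ) (hU : ∀ x : M, ∃ n, x ∈ S n) (b : N) :
    ∃ n, X.NF θ (S n).subtype j b := by
  have hA := hθ.toAdm
  obtain ⟨e0, he0⟩ := lim hθ.toAdm1 X.le_H hθ.H j hj hM.ge b
  have hρ : X.rho X.H < θ := rho_lt hθ.toAdm1 hθ.H
  have hρ0 : ℵ₀ ≤ X.rho X.H := (X.hK.1.trans X.le_H).trans (X.le_rho _)
  choose n hn using hU
  obtain ⟨t, ht⟩ := exists_unbounded_color hρ0 (T := ULift.{u} ℕ) (by simpa using hρ0)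
    (fun x => ULift.up (n (e0 x)))
  choose g hg1 hg2 using ht
  have hmem : ∀ x, e0 (g x) ∈ S t.down := by
    intro x
    have h1 := hn (e0 (g x))
    have h2 : n (e0 (g x)) = t.down := congrArg ULift.down (hg2 x)
    rwa [h2] at h1
  refine ⟨t.down, X.rho X.H, fun x => ⟨e0 (g x), hmem x⟩, hρ0, X.le_rho _, hρ, fun D hD => ?_⟩
  obtain ⟨j₀, hj₀⟩ := he0 D hD
  exact ⟨j₀, fun x hx => hj₀ (g x) (hx.trans (hg1 x).le)⟩

end Ctx

end Vale.Agent.P307.R2.H301
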