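import Vale.Agent.P307.R2.H346.Std

set_option linter.unusedSectionVars false

universe u v w

open FirstOrder Cardinal Set

namespace Vale.Agent.P307.R2.H301

open Vale.Agent.P307 Vale.Agent.P307.H304 Vale.Agent.P307.R2.H287 Language.Structure
  Language.Substructure

variable {L : Language.{u, u}} {X : Ctx L} {θ : Cardinal.{u}}
variable {M N P : Type u} [L.Structure M] [L.Structure N] [L.Structure P]

namespace Ctx

theorem cl_union_cl_eq (K : AEC L) (A B : Set N) : cl K ((cl K A : Set N) ∪ B) = cl K (A ∪ B) := by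
  unfold cl
  congr 1
  ext S
  constructor
  · rintro ⟨h1, h2⟩
    exact ⟨h1, (union_subset_union_left _ (subset_cl K A)).trans h2⟩
  · rintro ⟨h1, h2⟩
    refine ⟨h1, union_subset ?_ (subset_union_right.trans h2)⟩
    exact cl_le K h1 (subset_union_left.trans h2)

theorem cl_insert_cl_eq (K : AEC L) (x : N) (A : Set N) :
    cl K (insert x (cl K A : Set N)) = cl K (insert x A) := by
  rw [← union_singleton, ← union_singleton, cl_union_cl_eq]

/-- Independent sequences of realizations of the minimal type are isomorphic. -/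
theorem MinPt.exists_iso_indep (hθ : X.Adm3 θ) (q : MinPt X θ) {n : Type u} [LinearOrder n]
    [Finite n] {N' : Type u} [L.Structure N'] {i : q.M ↪[L] N} (hi : X.K.Emb i) {a : n → N}
    (ha : ∀ m, q.Real i (a m)) (hind : ∀ m, ∀ s ⊆ Iio m, a m ∉ cl X.K (range i ∪ a '' s))
    {f : q.M ↪[L] N'} (hf : X.K.Emb f) {b : n → N'} (hb : ∀ m, q.Real f (b m))
    (hind' : ∀ m, ∀ s ⊆ Iio m, b m ∉ cl X.K (range f ∪ b '' s)) (hn : Nonempty n)
    (S : Finset n) : ∃ g : N → N', IsoS g (cl X.K (range i ∪ a '' S)) (cl X.K (range f ∪ b '' S)) ∧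
      (∀ x, g (i x) = f x) ∧ ∀ m ∈ S, g (a m) = b m := by
  classical
  have h0 : ℵ₀ ≤ θ := hθ.aleph0_lt.le
  have hN := hi.mem_right
  have hN' := hf.mem_right
  have hli : X.l ≤ #(range i) := by
    rw [mk_range_eq i i.injective, q.card]
    exact hθ.lt.le
  have hlf : X.l ≤ #(range f) := by
    rw [mk_range_eq f f.injective, q.card]
    exact hθ.lt.le
  induction S using Finset.induction_on_max with
  | empty =>
    obtain ⟨m⟩ := hn
    obtain ⟨F, hF1, hF2, hF3⟩ := (ha m).symm.trans (hb m)
    refine ⟨F, ?_, hF2, fun m hm => absurd hm (by simp)⟩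
    have h1 := isoS_cl (X := X) hF1
      (le_cl hN (hli.trans (mk_le_mk_of_subset (subset_insert _ _))))
      (le_cl hN' (hlf.trans (mk_le_mk_of_subset (subset_insert _ _)))) (A := range i) hli
      ((subset_insert _ _).trans (subset_cl X.K _))
    have h2 : F '' range i = range f := by
      rw [← range_comp]
      congr 1
      funext x
      exact hF2 x
    rw [h2] at h1
    simpa using h1
  | insert m S hmax ih =>
    obtain ⟨g, hg1, hg2, hg3⟩ := ih
    have hS : (S : Set n) ⊆ Iio m := fun x hx => hmax x hx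
    let M₁ : L.Substructure N := cl X.K (range i ∪ a '' S)
    let M₂ : L.Substructure N' := cl X.K (range f ∪ b '' S)
    have hM₁ : X.K.le M₁ := le_cl_union hθ.toAdm hN i.injective q.card _
    have hM₂ : X.K.le M₂ := le_cl_union hθ.toAdm hN' f.injective q.card _
    have hcM₁ : #M₁ = θ := mk_cl_union hθ.toAdm hN i.injective q.card a S
    obtain ⟨k, hk1, hk2⟩ := exists_codRestrict i hi hM₁ (subset_union_left.trans (subset_cl X.K _))
    obtain ⟨e, he⟩ := hg1
    let j₂ : M₁ ↪[L] N' := M₂.subtype.comp e.toEmbedding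
    have hj₂ : X.K.Emb j₂ := AEC.Emb.comp (AEC.emb_subtype.2 hM₂)
      (AEC.Emb.of_equiv e (X.K.mem_of_le _ hM₁).1)
    have hj₂r : range j₂ = (M₂ : Set N') := by
      ext y
      constructor
      · rintro ⟨x, rfl⟩
        exact (e x).2
      · intro hy
        exact ⟨e.symm ⟨y, hy⟩, by
          change ((e (e.symm ⟨y, hy⟩) : M₂) : N') = y
          rw [e.apply_symm_apply]⟩
    have hj₁r : range M₁.subtype = (M₁ : Set N) := Subtype.range_coe
    have hGE : X.GE M₁.subtype (a m) j₂ (b m) := by
      refine q.min M₁ N N' k M₁.subtype j₂ (a m) (b m) hk1 hcM₁ (AEC.emb_subtype.2 hM₁) hj₂ ?_ ?_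
        ?_ ?_
      · rw [hj₁r]
        exact hind m _ hS
      · rw [hj₂r]
        exact hind' m _ hS
      · have h1 : M₁.subtype.comp k = i := by
          ext x
          exact hk2 x
        rw [h1]
        exact ha m
      · have h1 : j₂.comp k = f := by
          ext x
          change ((e (k x) : M₂) : N') = f x
          rw [← he, hk2, hg2]
        rw [h1]
        exact hb m
    obtain ⟨F, hF1, hF2, hF3⟩ := hGE
    have hFg : ∀ x ∈ M₁, F x = g x := fun x hx => (hF2 ⟨x, hx⟩).trans (he ⟨x, hx⟩).symm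
    have hFi : ∀ x, F (i x) = f x := fun x => by
      rw [hFg _ (subset_cl X.K _ (Or.inl ⟨x, rfl⟩)), hg2]
    refine ⟨F, ?_, hFi, fun m' hm' => ?_⟩
    · rw [hj₁r, hj₂r] at hF1
      have h1 : cl X.K (insert (a m) (M₁ : Set N)) =
          cl X.K (range i ∪ a '' (insert m S : Finset n)) := by
        rw [cl_insert_cl_eq, Finset.coe_insert, image_insert_eq, union_insert]
      have h2 : cl X.K (insert (b m) (M₂ : Set N')) =
          cl X.K (range f ∪ b '' (insert m S : Finset n)) := by
        rw [cl_insert_cl_eq, Finset.coe_insert, image_insert_eq, union_insert]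
      rw [h1, h2] at hF1
      exact hF1
    · rcases Finset.mem_insert.1 hm' with rfl | hm'
      · exact hF3
      · rw [hFg _ (subset_cl X.K _ (Or.inr ⟨m', hm', rfl⟩)), hg3 m' hm']

theorem mk_hull_lt (hθ : X.Adm θ) {J : Type u} [LinearOrder J] (B : EM X.t J) {U : Set J}
    (hU : #U < θ) : #(closure (exLang L X.t.Λ) (B.c '' U) : Set B.N) < θ := by
  have h1 : (closure (exLang L X.t.Λ) (B.c '' U) : Set B.N) ⊆
      range fun s : (exLang L X.t.Λ).Term U => s.realize fun x : U => B.c x := by
    intro y hy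
    have h2 : B.c '' U = range fun x : U => B.c x := by
      rw [image_eq_range]
    rw [h2, SetLike.mem_coe] at hy
    exact Gr.mem_closure_range.1 hy
  refine ((mk_le_mk_of_subset h1).trans mk_range_le).trans_lt ?_
  exact (mk_term_le (X.t.hν.trans (le_max_left X.l #U)) (X.t.hx.trans (le_max_left _ _)) U
    (le_max_right _ _)).trans_lt (max_lt hθ.lt hU)

/-- Coherent families of automorphisms of the faces extend. -/
theorem MinPt.nu (hθ : X.Adm3 θ) (q : MinPt X θ) {i : q.M ↪[L] N} (hi : X.K.Emb i) {n : Type u}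
    [Finite n] (hn : 2 ≤ #n) {a : n → N} (ha : ∀ m, q.Real i (a m))
    (hind : ∀ m, a m ∉ cl X.K (range i ∪ a '' {m}ᶜ)) (δ : Set n → N → N)
    (h1 : ∀ s, s ≠ Set.univ → IsoS (δ s) (cl X.K (range i ∪ a '' s)) (cl X.K (range i ∪ a '' s)))
    (h2 : ∀ s, s ≠ Set.univ → ∀ m, δ s (i m) = i m) (h3 : ∀ s, s ≠ Set.univ → ∀ m ∈ s, δ s (a m) = a m)
    (h4 : ∀ s t, s ⊆ t → t ≠ Set.univ → ∀ x ∈ cl X.K (range i ∪ a '' s), δ t x = δ s x) :
    ∃ ε : N → N, IsoS ε (cl X.K (range i ∪ range a)) (cl X.K (range i ∪ range a)) ∧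
      ∀ s, s ≠ Set.univ → ∀ x ∈ cl X.K (range i ∪ a '' s), ε x = δ s x := by
  classical
  have h0 : ℵ₀ ≤ θ := hθ.aleph0_lt.le
  have hne : Nonempty n := by
    by_contra h
    rw [not_nonempty_iff] at h
    rw [mk_eq_zero] at hn
    exact absurd (Cardinal.one_lt_two.trans_le hn) not_lt_zero
  obtain ⟨lo⟩ : Nonempty (LinearOrder n) := ⟨linearOrderOfSTO WellOrderingRel⟩
  let _ := lo
  have hfin := Fintype.ofFinite n
  have hN := hi.mem_right
  obtain ⟨J, _, B, σ, f, b, W, ζ, hσ, hf, hrange, hW, hWζ, hbW, hreal, hind'⟩ := q.exists_std hθ n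
  have hB := B.mem
  obtain ⟨g, hg1, hg2, hg3⟩ := q.exists_iso_indep hθ hi ha (fun m s hs h => hind m (by
    refine cl_mono X.K (union_subset_union le_rfl (image_mono fun x hx => ?_)) h
    exact (ne_of_lt (hs hx) : x ≠ m))) hf hreal hind' hne Finset.univ
  simp only [Finset.coe_univ, Finset.mem_univ, forall_true_left] at hg1 hg3
  have hli : ∀ Z : Set N, X.l ≤ #(range i ∪ Z : Set N) := fun Z => by
    refine le_trans ?_ (mk_le_mk_of_subset subset_union_left)
    rw [mk_range_eq i i.injective, q.card]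
    exact hθ.lt.le
  have hgs : ∀ s : Set n, IsoS g (cl X.K (range i ∪ a '' s)) (cl X.K (range f ∪ b '' s)) := by
    intro s
    have h5 := isoS_cl (X := X) hg1 (le_cl_union hθ.toAdm hN i.injective q.card _)
      (le_cl_union hθ.toAdm hB f.injective q.card _) (A := range i ∪ a '' s) (hli _)
      ((union_subset_union le_rfl (image_mono (subset_univ s))).trans (subset_cl X.K _))
    have h6 : g '' (range i ∪ a '' s) = range f ∪ b '' s := by
      rw [image_union, ← range_comp, ← image_comp]
      congr 1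
      · congr 1
        funext x
        exact hg2 x
      · congr 1
        funext m
        exact hg3 m
    rw [h6] at h5
    exact h5
  -- strong independence of `b`
  have hindb : ∀ m, b m ∉ cl X.K (range f ∪ b '' {m}ᶜ) := by
    intro m hm
    obtain ⟨x, hx, hxm⟩ := (hgs {m}ᶜ).surj hm
    have h5 : x = a m := hg1.inj (cl_mono X.K (union_subset_union le_rfl
      (image_mono (subset_univ _))) hx) (subset_cl X.K _ (Or.inr ⟨m, mem_univ m, rfl⟩))
      (hxm.trans (hg3 m).symm)
    exact hind m (h5 ▸ hx)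
  -- the levels
  obtain ⟨z, hz1, hz2, hz3, hz4, hz5⟩ := exists_levels hθ.aleph0_lt hθ.cof
    (fun ρ hρ => (Order.succ_le_of_lt (cantor ρ)).trans_lt (hθ.pow ρ hρ)) X.fM hθ.fM hθ.lt ζ
  let U : ℕ → Set J := fun r => σ '' Iio (z r)
  have hU : Monotone U := fun r r' h => image_mono (Iio_subset_Iio (hz1 h))
  have hUc : ∀ r, #(U r) = #(Iio (z r)) := fun r => mk_image_eq hσ.injective
  let A : ℕ → Set B.N := fun r => (closure (exLang L X.t.Λ) (B.c '' U r) : Set B.N)
  have hA : Monotone A := fun r r' h => closure_mono (image_mono (hU h))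
  have hlU : ∀ r, X.l ≤ #(U r) := fun r => by
    rw [hUc]
    exact hz2.trans (mk_le_mk_of_subset (Iio_subset_Iio (hz1 (Nat.zero_le r))))
  have hl : ∀ r, X.l ≤ #(A r) := fun r => by
    refine (hlU r).trans ?_
    rw [← mk_image_eq (s := U r) B.inj]
    exact mk_le_mk_of_subset subset_closure
  have hAθ : ∀ r, #(A r) < θ := fun r => mk_hull_lt hθ.toAdm B (by
    rw [hUc]
    exact mk_Iio_ord_lt _)
  have hAf : ⋃ r, A r = range f := by
    rw [hrange]
    apply subset_antisymm
    · exact iUnion_subset fun r => closure_mono (image_mono (image_subset_range _ _))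
    · intro y hy
      have h5 : B.c '' range σ = ⋃ r, B.c '' U r := by
        rw [← image_iUnion]
        congr 1
        ext x
        constructor
        · rintro ⟨p, rfl⟩
          obtain ⟨r, hr⟩ := hz5 p
          exact mem_iUnion.2 ⟨r, p, hr, rfl⟩
        · intro hx
          obtain ⟨r, p, -, rfl⟩ := mem_iUnion.1 hx
          exact ⟨p, rfl⟩
      have hUd : Directed (· ≤ ·) fun r => closure (exLang L X.t.Λ) (B.c '' U r) :=
        (show Monotone fun r => closure (exLang L X.t.Λ) (B.c '' U r) from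
          fun r r' h => closure_mono (image_mono (hU h))).directed_le
      rw [h5, Language.Substructure.closure_iUnion, SetLike.mem_coe,
        Language.Substructure.mem_iSup_of_directed hUd] at hy
      exact mem_iUnion.2 hy
  have hrefl : X.ReflF A b := by
    intro r j
    let M₁ : L.Substructure B.N := cl X.K (range f ∪ b '' {j}ᶜ)
    have hM₁ : X.K.le M₁ := le_cl_union hθ.toAdm hB f.injective q.card _
    have hcM₁ : #M₁ = θ := mk_cl_union hθ.toAdm hB f.injective q.card b _
    obtain ⟨k, hk1, hk2⟩ := exists_codRestrict f hf hM₁ (subset_union_left.trans (subset_cl X.K _))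
    let D : Set M₁ := {x | (x : B.N) ∈ X.Fr A b r {j}ᶜ}
    have hDθ : #D < θ := by
      have h5 : #D ≤ #(X.Fr A b r {j}ᶜ) :=
        mk_le_of_injective (f := fun d : D => (⟨(d : M₁).1, d.2⟩ : X.Fr A b r {j}ᶜ))
          fun d d' h => by
            have h6 := congrArg Subtype.val h
            exact Subtype.ext (Subtype.ext h6)
      refine h5.trans_lt ((mk_cl_le hB _).trans_lt (add_lt_of_lt h0 ?_ hθ.lt))
      refine (mk_union_le _ _).trans_lt (add_lt_of_lt h0 (hAθ r) ?_)
      exact (mk_image_le.trans (mk_set_le _)).trans_lt ((lt_aleph0_of_finite n).trans_le h0)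
    have hj₁r : range M₁.subtype = (M₁ : Set B.N) := Subtype.range_coe
    obtain ⟨b', hb'⟩ := q.reflect hθ hk1 hcM₁ (j := M₁.subtype) (AEC.emb_subtype.2 hM₁) (b := b j)
      (by
        rw [hj₁r]
        exact hindb j) (by
        have h5 : M₁.subtype.comp k = f := by
          ext x
          exact hk2 x
        rw [h5]
        exact hreal j) D hDθ
    obtain ⟨r₁, hr₁⟩ := mem_iUnion.1 (show f b' ∈ ⋃ r, A r from hAf ▸ ⟨b', rfl⟩)
    let r' := max r r₁
    have hbig : X.Big θ B.N := Big.of_emb f hf q.card.ge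
    have hFM : X.Fr A b r {j}ᶜ ≤ M₁ := cl_mono X.K (union_subset_union
      ((subset_iUnion A r).trans hAf.le) le_rfl)
    let x : D ⊕ PUnit.{u + 1} → B.N := adj (fun d : D => ((d : M₁) : B.N)) (b j)
    let y : D ⊕ PUnit.{u + 1} → B.N := adj (fun d : D => ((d : M₁) : B.N)) (f b')
    have h6 : X.E θ x y := by
      refine E.symm (E.trans ?_ hb')
      have h7 := (E.of_emb (X := X) hθ.toAdm M₁.subtype (AEC.emb_subtype.2 hM₁) hcM₁.ge
        (adj (fun d : D => (d : M₁)) (k b'))).symm
      have h8 : (fun a => M₁.subtype (adj (fun d : D => (d : M₁)) (k b') a)) = y := by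
        funext a
        rcases a with d | a
        · rfl
        · exact hk2 b'
      rw [h8] at h7
      exact h7
    have hrange' : ∀ c : B.N, range (adj (fun d : D => ((d : M₁) : B.N)) c) =
        (X.Fr A b r {j}ᶜ : Set B.N) ∪ {c} := by
      intro c
      ext p
      constructor
      · rintro ⟨d | d, rfl⟩
        · exact Or.inl d.2
        · exact Or.inr rfl
      · rintro (hp | rfl)
        · exact ⟨Sum.inl ⟨⟨p, hFM hp⟩, hp⟩, rfl⟩
        · exact ⟨Sum.inr PUnit.unit, rfl⟩
    have hlr : ∀ c : B.N, X.l ≤ #(range (adj (fun d : D => ((d : M₁) : B.N)) c)) := fun c => by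
      rw [hrange']
      exact (hl r).trans (mk_le_mk_of_subset (subset_union_left.trans
        ((subset_cl X.K _).trans subset_union_left)))
    obtain ⟨ψ, hψ1, hψ2, -⟩ := E.exists_isoS hθ.toAdm hbig hbig (x := x) (y := y) (by
      rw [mk_sum, lift_id, lift_id, mk_punit]
      exact add_lt_of_lt h0 hDθ (one_lt_aleph0.trans_le h0)) h6 (hlr _)
    have hclx : cl X.K (range x) = X.Fr A b r Set.univ := by
      rw [hrange' (b j), Fr, Fr, cl_union_cl_eq]
      congr 1
      rw [union_assoc, ← image_singleton, ← image_union, compl_union_self]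
    refine ⟨r', le_max_left _ _, ψ, cl X.K (range y), hclx ▸ hψ1, ?_, le_cl hB (hlr _), ?_, ?_⟩
    · refine cl_le X.K (Fr_le hB hl _ _) ?_
      rw [hrange' (f b')]
      refine union_subset (Fr_mono hA (le_max_left _ _) le_rfl) ?_
      rintro _ rfl
      exact mem_Fr_A (hA (le_max_right _ _) hr₁) _
    · intro p hp
      exact hψ2 (Sum.inl ⟨⟨p, hFM hp⟩, hp⟩)
    · have h7 := hψ2 (Sum.inr PUnit.unit)
      have h8 : ψ (b j) = f b' := h7
      rw [h8]
      exact hA (le_max_right _ _) hr₁
  have hlift : X.LiftF A b := by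
    intro r g₁ h5 h6
    obtain ⟨g₂, h7, h8⟩ := X.exists_fM.choose_spec #(U r) (hlU r) J B (U r) (U (r + 1)) (U (r + 2))
      W (hU (Nat.le_succ r)) (hU (Nat.le_succ _)) le_rfl (hlU r) hW (by
        rintro x hx _ ⟨⟨p, hp, rfl⟩, hp'⟩
        have h7 : z r ≤ p := by
          by_contra h
          exact hp' ⟨p, not_le.1 h, rfl⟩
        rcases hx with ⟨p', hp'', rfl⟩ | hx
        · exact hσ (lt_of_lt_of_le hp'' h7)
        · refine (hWζ x hx).trans_le (hσ.monotone (hz3.trans ((hz1 (Nat.zero_le r)).trans h7)))) (by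
        have h7 : (range σ).IsWF := by
          rw [← image_univ]
          exact ((isPWO_of_wellQuasiOrderedLE Set.univ).image_of_monotone hσ.monotone).isWF
        exact h7.mono (sdiff_subset.trans (image_subset_range _ _))) (by
        have h7 : U (r + 1) \ U r = σ '' (Iio (z (r + 1)) \ Iio (z r)) :=
          (image_sdiff hσ.injective _ _).symm
        rw [h7, mk_image_eq hσ.injective, mk_image_eq hσ.injective]
        exact hz4 r) n b (fun m => closure_mono (image_mono subset_union_right) (hbW m))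
      {s | s ≠ Set.univ} g₁ ⟨h5, h6 ∅ (empty_ne_univ hn), fun m =>
        h6 {m} (Fr_ne_univ hn m) _ (mem_Fr_b (X := X) (A := A) _ rfl), fun s hs => h6 s hs⟩
    exact ⟨g₂, h7.1, fun s hs => h7.2.2.2 s hs, h8⟩
  -- transfer of the family
  have hNne : Nonempty N := ⟨a (Classical.arbitrary n)⟩
  obtain ⟨gi, hgi1, hgi2, hgi3⟩ := hg1.exists_inv'
  have hsub : ∀ s : Set n, cl X.K (range i ∪ a '' s) ≤ cl X.K (range i ∪ a '' Set.univ) :=
    fun s => cl_mono X.K (union_subset_union le_rfl (image_mono (subset_univ s)))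
  have hsub' : ∀ s : Set n, cl X.K (range f ∪ b '' s) ≤ cl X.K (range f ∪ b '' Set.univ) :=
    fun s => cl_mono X.K (union_subset_union le_rfl (image_mono (subset_univ s)))
  have hgii : ∀ x, gi (f x) = i x := fun x => by
    rw [← hg2]
    exact hgi2 _ (subset_cl X.K _ (Or.inl ⟨x, rfl⟩))
  have hgib : ∀ m, gi (b m) = a m := fun m => by
    rw [← hg3]
    exact hgi2 _ (subset_cl X.K _ (Or.inr ⟨m, mem_univ m, rfl⟩))
  have hgis : ∀ s : Set n, IsoS gi (cl X.K (range f ∪ b '' s)) (cl X.K (range i ∪ a '' s)) := by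
    intro s
    have h5 := isoS_cl (X := X) hgi1 (le_cl_union hθ.toAdm hB f.injective q.card _)
      (le_cl_union hθ.toAdm hN i.injective q.card _) (A := range f ∪ b '' s) (by
        refine le_trans ?_ (mk_le_mk_of_subset subset_union_left)
        rw [mk_range_eq f f.injective, q.card]
        exact hθ.lt.le)
      ((union_subset_union le_rfl (image_mono (subset_univ s))).trans (subset_cl X.K _))
    have h6 : gi '' (range f ∪ b '' s) = range i ∪ a '' s := by
      rw [image_union, ← range_comp, ← image_comp]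
      congr 1
      · congr 1
        funext x
        exact hgii x
      · congr 1
        funext m
        exact hgib m
    rw [h6] at h5
    exact h5
  have hstr : ∀ s, (⋃ r, A r) ∪ b '' s = range f ∪ b '' s := fun s => by rw [hAf]
  obtain ⟨ε, h5, h6⟩ := nu_abs hB hA hl hn hrefl hlift (fun s => g ∘ δ s ∘ gi)
    (fun s hs => by
      rw [hstr]
      exact (hgs s).comp ((h1 s hs).comp (hgis s)))
    (fun s hs x hx => by
      rw [hAf] at hx
      obtain ⟨y, rfl⟩ := hx
      change g (δ s (gi (f y))) = f y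
      rw [hgii, h2 s hs, hg2])
    (fun s hs m hm => by
      change g (δ s (gi (b m))) = b m
      rw [hgib, h3 s hs m hm, hg3])
    (fun s t hst ht x hx => by
      rw [hstr] at hx
      change g (δ t (gi x)) = g (δ s (gi x))
      rw [h4 s t hst ht _ ((hgis s).mem hx)])
  rw [hstr] at h5
  refine ⟨gi ∘ ε ∘ g, ?_, fun s hs x hx => ?_⟩
  · rw [← image_univ (f := a)]
    exact hgi1.comp (h5.comp hg1)
  · change gi (ε (g x)) = δ s x
    have h7 : g x ∈ cl X.K (range f ∪ b '' s) := (hgs s).mem hx
    rw [h6 s hs (g x) (by rw [hstr]; exact h7)]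
    change gi (g (δ s (gi (g x)))) = δ s x
    rw [hgi2 x (hsub s hx)]
    exact hgi2 _ (hsub s ((h1 s hs).mem hx))

end Ctx

end Vale.Agent.P307.R2.H301
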