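import Vale.Agent.P307.R2.H301.Gal

set_option linter.unusedSectionVars false

universe u v w

open FirstOrder Cardinal Set

namespace Vale.Agent.P307.R2.H301

open Vale.Agent.P307 Vale.Agent.P307.H304 Vale.Agent.P307.R2.H287 Language.Structure
  Language.Substructure

variable {L : Language.{u, u}} {X : Ctx L} {θ : Cardinal.{u}}
variable {M N P : Type u} [L.Structure M] [L.Structure N] [L.Structure P]

section thin

/-- A constant subsequence. -/
theorem exists_strictMono_color {ρ : Cardinal.{u}} (hρ : ℵ₀ ≤ ρ) {T : Type u} (hT : #T ≤ ρ)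
    (f : SuccTy ρ → T) : ∃ t, ∃ g : SuccTy ρ → SuccTy ρ, StrictMono g ∧ ∀ j, f (g j) = t := by
  obtain ⟨t, ht⟩ := exists_unbounded_color hρ hT f
  have h1 : ∀ (j : SuccTy ρ) (rec : ∀ j', j' < j → SuccTy ρ),
      ∃ i, (∀ j' (hj' : j' < j), rec j' hj' < i) ∧ f i = t := by
    intro j rec
    obtain ⟨x, hx⟩ := exists_gt_of_small hρ (range fun p : Iio j => rec p.1 p.2)
      (mk_range_le.trans (mk_Iio_succTy j))
    obtain ⟨i, hi, hi2⟩ := ht x
    exact ⟨i, fun j' hj' => (hx _ ⟨⟨j', hj'⟩, rfl⟩).trans hi, hi2⟩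
  choose nx hnx1 hnx2 using h1
  let g : SuccTy ρ → SuccTy ρ := WellFounded.fix (r := (· < ·)) wellFounded_lt nx
  have hg : ∀ j, g j = nx j fun j' _ => g j' := fun j => WellFounded.fix_eq _ _ j
  refine ⟨t, g, fun j' j hj => ?_, fun j => ?_⟩
  · rw [hg j]
    exact hnx1 j (fun j' _ => g j') j' hj
  · rw [hg j]
    exact hnx2 j _

theorem mk_sigma_term_le {L : Language.{u, u}} {ℓ : Cardinal.{u}} (hℓ : ℵ₀ ≤ ℓ)
    (hL : L.card ≤ ℓ) : #(Σ n : ULift.{u} ℕ, L.Term (Fin n.down)) ≤ ℓ := by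
  rw [mk_sigma]
  refine (sum_le_sum _ (fun _ => ℓ) fun n : ULift.{u} ℕ => mk_term_fin_le hℓ hL n.down).trans ?_
  rw [sum_const', mk_uLift]
  refine (mul_le_mul' (b := ℓ) ?_ le_rfl).trans (mul_eq_self hℓ).le
  simpa using hℓ

open Classical in
/-- Terms in finitely many variables. -/
theorem exists_fin_term {L : Language.{u, u}} {V : Type u} (t : L.Term V) :
    ∃ (n : ULift.{u} ℕ) (s : L.Term (Fin n.down)) (w : Fin n.down → V),
      ∀ (N : Type u) [L.Structure N] (φ : V → N), t.realize φ = s.realize fun i => φ (w i) := by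
  refine ⟨⟨t.varFinset.card⟩, (t.restrictVar fun d => d).relabel t.varFinset.equivFin,
    fun i => t.varFinset.equivFin.symm i, fun N _ φ => ?_⟩
  rw [Language.Term.realize_relabel]
  have h1 := Language.Term.realize_restrictVar (t := t) (f := fun d => d)
    (v := fun d : t.varFinset => φ d) φ fun _ => rfl
  rw [← h1]
  congr 1
  funext d
  simp

end thin

namespace Ctx

variable {N' : Type u} [L.Structure N']

theorem LimSeq.sub {χ ρ : Cardinal.{u}} {e : SuccTy ρ → M} {i : M ↪[L] N} {b : N}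
    (h : X.LimSeq θ χ e i b) {g : SuccTy ρ → SuccTy ρ} (hg : StrictMono g) :
    X.LimSeq θ χ (fun j => e (g j)) i b := by
  intro D hD
  obtain ⟨j₀, h₀⟩ := h D hD
  exact ⟨j₀, fun j hj => h₀ _ (hj.trans hg.le_apply)⟩

/-- Reindexing the base of an adjunction by a map. -/
theorem E.emb_adj (hθ : X.Adm θ) (f : M ↪[L] N) (hf : X.K.Emb f) (hM : θ ≤ #M) {ι : Type u}
    (x : ι → M) (b : M) : X.E θ (adj x b) (adj (fun a => f (x a)) (f b)) := by
  have h := E.of_emb hθ f hf hM (adj x b)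
  have e1 : (fun p => f (adj x b p)) = adj (fun a => f (x a)) (f b) := by
    funext p; rcases p with p | p <;> rfl
  rw [e1] at h
  exact h

/-- Saturation in the categoricity cardinals. -/
theorem sat (hθ : X.Adm3 θ) {κ : Cardinal.{u}} (hκ : θ < κ) (hcat : X.K.CategoricalIn κ)
    (hN : X.K.mem N) (hNκ : #N = κ) {k : M ↪[L] N} (hk : X.K.Emb k) (hM : #M = θ)
    {i : M ↪[L] N'} (hi : X.K.Emb i) (b : N') : ∃ c : N, X.GE i b k c := by
  classical
  have hθ0 : X.Adm θ := hθ.toAdm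
  have hθ1 : X.Adm1 θ := hθ.toAdm1
  have hl : ℵ₀ ≤ X.l := X.hK.1
  have hlH : X.l ≤ X.H := X.le_H
  have hHθ : X.H < θ := hθ.H
  have hρθ : X.rho X.H < θ := rho_lt hθ1 hHθ
  have hHρ : X.H ≤ X.rho X.H := X.le_rho X.H
  have hρ : ℵ₀ ≤ X.rho X.H := (hl.trans hlH).trans hHρ
  -- the standard model
  obtain ⟨J, _, hJκ, hJ⟩ := exists_sp hρ (Order.succ_le_of_lt hρθ) (Order.succ_le_of_lt hκ)
  obtain ⟨B⟩ := exists_em X.t J
  have hBκ : #B.N = κ := B.card_eq (hθ0.lt.le.trans hκ.le) hJκ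
  obtain ⟨e⟩ := hcat.2 N B.N hN B.mem hNκ hBκ
  have hk' : X.K.Emb (e.toEmbedding.comp k) := (AEC.Emb.of_equiv e hN).comp hk
  obtain ⟨k', hk'e⟩ : ∃ k' : M ↪[L] B.N, k' = e.toEmbedding.comp k := ⟨_, rfl⟩
  rw [← hk'e] at hk'
  -- the sequence
  obtain ⟨a, ha⟩ := lim hθ1 hlH hHθ i hi hM.ge b
  obtain ⟨V, hV, hVt⟩ := exists_cover' hθ0.aleph0_lt.le B.top (range k')
    (mk_range_le.trans hM.le)
  choose t ht using fun m : M => hVt (k' m) ⟨m, rfl⟩
  choose n s w hs using fun m : M => exists_fin_term (t m)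
  obtain ⟨⟨n₀, s₀⟩, g, hg, hg'⟩ := exists_strictMono_color hρ
    ((mk_sigma_term_le hl X.t.hx).trans (hlH.trans hHρ))
    (fun j => (⟨n (a j), s (a j)⟩ : Σ n : ULift.{u} ℕ, (exLang L X.t.Λ).Term (Fin n.down)))
  have h1 : ∀ j, ∃ w' : Fin n₀.down → V, k' (a (g j)) = s₀.realize fun q => B.c (w' q) := by
    intro j
    have h2 := hg' j
    have h3 : k' (a (g j)) = (s (a (g j))).realize fun q => B.c (w (a (g j)) q) := by
      rw [← ht (a (g j)), hs (a (g j))]
    have h4 : ∀ (p : Σ n : ULift.{u} ℕ, (exLang L X.t.Λ).Term (Fin n.down)),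
        p = ⟨n₀, s₀⟩ → ∀ (w : Fin p.1.down → V), k' (a (g j)) = p.2.realize (fun q => B.c (w q)) →
        ∃ w' : Fin n₀.down → V, k' (a (g j)) = s₀.realize fun q => B.c (w' q) := by
      rintro p rfl w hw
      exact ⟨w, hw⟩
    exact h4 _ h2 _ h3
  choose w' hw' using h1
  let Q : Type u := ULift.{u} (Fin n₀.down)
  let s₁ : (exLang L X.t.Λ).Term Q := s₀.relabel ULift.up
  have h2 : ∀ j, k' (a (g j)) = s₁.realize fun q => B.c (w' j q.down) := by
    intro j
    rw [hw' j, Language.Term.realize_relabel]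
    rfl
  obtain ⟨g', hg'm, v, hv⟩ := hJ V hV Q (fun j q => w' j q.down) fun j q => (w' j q.down).2
  obtain ⟨c, hc⟩ : ∃ c, c = s₁.realize fun q => B.c (v q) := ⟨_, rfl⟩
  have h3 : X.LimSeq θ X.H (fun j => a (g (g' j))) i b := (ha.sub hg).sub hg'm
  have h4 : X.SE θ X.H i b k' c := by
    intro D hD
    obtain ⟨j₀, h₀⟩ := h3 D hD
    have hD2 : ∀ d : D, k' d ∈ closure (exLang L X.t.Λ) (B.c '' V) := by
      intro d
      rw [← ht d]
      exact Language.Term.realize_mem (t d) _ fun q => subset_closure ⟨q.1, q.2, rfl⟩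
    obtain ⟨j₁, h₁⟩ := real hθ0 B (hκ.le.trans hJκ.ge) (hlH.trans hHρ) hρθ s₁ hv
      (hD.trans hHρ) (fun d : D => k' d) hD2
    have h5 := h₀ (max j₀ j₁) (le_max_left _ _)
    have h6 := h₁ (max j₀ j₁) (le_max_right _ _)
    rw [← h2 (g' (max j₀ j₁)), ← hc] at h6
    exact (h5.symm.trans (E.emb_adj hθ0 k' hk' hM.ge _ _)).trans h6
  have h5 : X.GE i b k' c := ge_of_H hθ hk'.mem_left hM hi hk' h4
  have h6 := GE.of_emb (X := X) k' hk' (hθ0.lt.le.trans hM.ge) e.symm.toEmbedding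
    (AEC.Emb.of_equiv e.symm B.mem) c
  have h7 : e.symm.toEmbedding.comp k' = k := by
    rw [hk'e]
    ext x
    simp
  rw [h7] at h6
  exact ⟨_, h5.trans h6⟩

end Ctx

end Vale.Agent.P307.R2.H301
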