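import Vale.Agent.P307.R2.H301.Min
import Vale.Agent.P307.R2.H301.Sat
import Vale.Agent.P307.R2.H301.Cop

set_option linter.unusedSectionVars false

universe u v w

open FirstOrder Cardinal Set

namespace Vale.Agent.P307.R2.H301

open Vale.Agent.P307 Vale.Agent.P307.H304 Vale.Agent.P307.R2.H287 Language.Structure
  Language.Substructure

variable {L : Language.{u, u}} {X : Ctx L} {θ : Cardinal.{u}}
variable {M N P : Type u} [L.Structure M] [L.Structure N] [L.Structure P]

namespace Ctx

theorem Adm3.lt' (hθ : X.Adm3 θ) : X.l < θ := hθ.toAdm2.toAdm.lt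

theorem MinPt.notMem_of_real (q : MinPt X θ) {N : Type u} [L.Structure N] {j : q.M ↪[L] N}
    {b : N} (h : q.Real j b) : b ∉ range j := by
  rintro ⟨m, hm⟩
  exact q.notMem ⟨m, ((GE.mem_range_iff h m).2 hm.symm).symm⟩

theorem range_equiv_comp {M' : Type u} [L.Structure M'] (j : M' ↪[L] N) (e : M ≃[L] M') :
    range (j.comp e.toEmbedding) = range j := by
  ext y
  constructor
  · rintro ⟨m, rfl⟩
    exact ⟨e m, rfl⟩
  · rintro ⟨m, rfl⟩
    exact ⟨e.symm m, congrArg j (e.apply_symm_apply m)⟩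

/-- The minimal type is realized in every proper strong extension of size `θ`. -/
theorem MinPt.exists_real (hθ : X.Adm3 θ) (q : MinPt X θ) {i : q.M ↪[L] N} (hi : X.K.Emb i)
    {d : N} (hd : d ∉ range i) : ∃ b, q.Real i b := by
  classical
  by_contra hcon
  push Not at hcon
  obtain ⟨hκ, hcat⟩ := X.hunb θ
  obtain ⟨P, sP, k, c, hk, hPκ, htop, hGE, hNF⟩ := exists_copies hθ hκ.le hi q.card d hd
  obtain ⟨x, hx⟩ := sat hθ hκ hcat hk.mem_right hPκ hk q.card q.emb q.b
  have hmk : #(range k) = θ := (mk_range_eq k k.injective).trans q.card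
  have hxr : x ∉ range k := q.notMem_of_real hx
  have hlA : ∀ A : Set P, X.l ≤ #(range k ∪ A : Set P) := fun A =>
    (hθ.lt'.le.trans hmk.ge).trans (mk_le_mk_of_subset subset_union_left)
  have hcls : ∀ A : Set P, X.K.le (cl X.K (range k ∪ A)) := fun A => le_cl hk.mem_right (hlA A)
  -- a minimal finite set of indices
  have h0 : ∃ n, ∃ s : Finset (X.κf θ).ord.ToType, s.card = n ∧
      x ∈ cl X.K (range k ∪ c '' s) := by
    have h1 : x ∈ cl X.K (range c ∪ range k) := by
      rw [union_comm, htop]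
      exact mem_top x
    obtain ⟨s, hs1, hs2, hs3⟩ := exists_finite hk.mem_right (hθ.lt'.le.trans hmk.ge) h1
    lift s to Finset P using hs2
    rw [← image_univ, Finset.subset_set_image_iff] at hs1
    obtain ⟨u, -, hu⟩ := hs1
    refine ⟨_, u, rfl, ?_⟩
    rwa [union_comm, ← Finset.coe_image, hu]
  obtain ⟨s, hs1, hs2⟩ := Nat.find_spec h0
  have hsmin : ∀ s' : Finset (X.κf θ).ord.ToType, s'.card < s.card →
      x ∉ cl X.K (range k ∪ c '' s') := fun s' h1 h2 =>
    Nat.find_min h0 (h1.trans_eq hs1) ⟨s', rfl, h2⟩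
  have hsne : s.Nonempty := by
    rw [Finset.nonempty_iff_ne_empty]
    rintro rfl
    rw [Finset.coe_empty, image_empty, union_empty] at hs2
    have h2 : cl X.K (range k) = k.toHom.range := cl_eq_self X.K hk
    rw [h2] at hs2
    exact hxr hs2
  obtain ⟨a, ha, hmax⟩ : ∃ a ∈ s, ∀ y ∈ s, y ≤ a :=
    ⟨s.max' hsne, s.max'_mem hsne, fun y hy => s.le_max' y hy⟩
  set s' := s.erase a with hs'
  have hxP : x ∉ cl X.K (range k ∪ c '' s') := hsmin s' (Finset.card_erase_lt_of_mem ha)
  have hlt : ∀ y ∈ (s' : Set (X.κf θ).ord.ToType), y < a := by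
    intro y hy
    rw [Finset.mem_coe, hs', Finset.mem_erase] at hy
    exact lt_of_le_of_ne (hmax y hy.2) hy.1
  obtain ⟨P', hP'⟩ : ∃ P' : L.Substructure P, P' = cl X.K (range k ∪ c '' s') := ⟨_, rfl⟩
  have hP'le : X.K.le P' := hP' ▸ hcls _
  have hsub : range k ∪ c '' s' ⊆ (P' : Set P) := by
    rw [hP']
    exact subset_cl _ _
  have hNF' := hNF s' a s'.finite_toSet hlt
  rw [← hP'] at hxP hNF'
  obtain ⟨k', hk'⟩ : ∃ k' : q.M ↪[L] P', P'.subtype.comp k' = k :=
    ⟨k.codRestrict P' fun m => hsub (Or.inl ⟨m, rfl⟩), Language.Embedding.subtype_comp_codRestrict ..⟩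
  have hk'm : ∀ m, (k' m : P) = k m := fun m => congrArg (fun f : q.M ↪[L] P => f m) hk'
  have hemk : X.K.Emb k' := AEC.Emb.of_comp (AEC.emb_subtype.2 hP'le) (hk'.symm ▸ hk)
  have hP'θ : #P' = θ := by
    apply le_antisymm
    · rw [hP']
      refine (mk_cl_le hk.mem_right _).trans ?_
      have h1 : #(range k ∪ c '' s' : Set P) ≤ θ := by
        refine (mk_union_le _ _).trans ?_
        rw [hmk]
        exact add_le_of_le (X.hK.1.trans hθ.lt'.le) le_rfl
          (((s'.finite_toSet.image c).lt_aleph0.le).trans (X.hK.1.trans hθ.lt'.le))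
      exact add_le_of_le (X.hK.1.trans hθ.lt'.le) h1 hθ.lt'.le
    · rw [← q.card]
      exact mk_le_of_injective k'.injective
  -- the base of the type of `d` and a conjugation
  obtain ⟨C, hC, hbase⟩ := exists_base hθ hi q.card d
  obtain ⟨e, he, hconj⟩ := q.exists_equiv hθ k' hemk hP'θ C hC
  obtain ⟨hn1, hn2⟩ := hbase P' k' e hemk he
  have hemi : X.K.Emb (i.comp e.symm.toEmbedding) :=
    AEC.Emb.comp hi (AEC.Emb.of_equiv e.symm (X.K.mem_of_le _ hP'le).1)
  have hge : X.GE P'.subtype (c a) (i.comp e.symm.toEmbedding) d := by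
    refine NF.unique hθ q.card hP'θ hemk (AEC.emb_subtype.2 hP'le) hemi (hNF' k' hk'm) hn1 ?_
    rw [hk']
    exact (hGE a).symm.trans hn2
  obtain ⟨f, hf, hfm, hfa⟩ := hge
  -- transport of `x`
  have hxj : x ∉ range P'.subtype := by
    rintro ⟨y, rfl⟩
    exact hxP y.2
  have hx2 : q.Real (P'.subtype.comp e.toEmbedding) x := by
    refine (hconj P P'.subtype x (AEC.emb_subtype.2 hP'le) hxj).1 ?_
    rw [hk']
    exact hx
  refine hcon (f x) (GE.trans hx2 ⟨f, ?_, ?_, rfl⟩)
  · have hlr : ∀ y : P, X.l ≤ #(insert y (range P'.subtype) : Set P) := fun y => by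
      refine hθ.lt'.le.trans ?_
      rw [← hP'θ, ← mk_range_eq P'.subtype P'.subtype.injective]
      exact mk_le_mk_of_subset (subset_insert _ _)
    have hS : X.K.le (cl X.K (insert (c a) (range P'.subtype))) := le_cl hk.mem_right (hlr _)
    have hrange : range (P'.subtype.comp e.toEmbedding) = range P'.subtype := range_equiv_comp _ _
    have hT : X.K.le (cl X.K (insert d (range (i.comp e.symm.toEmbedding)))) := by
      refine le_cl hi.mem_right (hθ.lt'.le.trans ?_)
      rw [range_equiv_comp]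
      refine (le_of_eq ?_).trans (mk_le_mk_of_subset (subset_insert _ _))
      rw [mk_range_eq i i.injective, q.card]
    have hxS : x ∈ cl X.K (insert (c a) (range P'.subtype)) := by
      refine cl_le X.K hS ?_ hs2
      rintro y (⟨m, rfl⟩ | ⟨b, hb, rfl⟩)
      · exact subset_cl _ _ (Or.inr ⟨k' m, hk'm m⟩)
      · by_cases hba : b = a
        · rw [hba]
          exact subset_cl _ _ (Or.inl rfl)
        · refine subset_cl _ _ (Or.inr ⟨⟨c b, hsub (Or.inr ⟨b, ?_, rfl⟩)⟩, rfl⟩)
          rw [Finset.mem_coe, hs', Finset.mem_erase]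
          exact ⟨hba, hb⟩
    have h3 := isoS_cl hf hS hT (A := insert x (range (P'.subtype.comp e.toEmbedding)))
      (by rw [hrange]; exact hlr x) (by
        rw [hrange]
        exact insert_subset hxS ((subset_insert _ _).trans (subset_cl _ _)))
    rw [image_insert_eq] at h3
    convert h3 using 3
    rw [← range_comp]
    congr 1
    ext m
    have h4 := hfm (e m)
    have h5 : (i.comp e.symm.toEmbedding) (e m) = i m := congrArg i (e.symm_apply_apply m)
    exact (h4.trans h5).symm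
  · intro m
    have h4 := hfm (e m)
    have h5 : (i.comp e.symm.toEmbedding) (e m) = i m := congrArg i (e.symm_apply_apply m)
    exact h4.trans h5

/-- There are no Vaughtian pairs for the minimal type. -/
theorem MinPt.nvp (hθ : X.Adm3 θ) (q : MinPt X θ) {i : q.M ↪[L] N} (hi : X.K.Emb i)
    (hN : #N = θ) {P : L.Substructure N} (hP : X.K.le P) (hiP : range i ⊆ P) (hne : P ≠ ⊤) :
    ∃ b, b ∉ P ∧ q.Real i b := by
  obtain ⟨k, hk⟩ : ∃ k : q.M ↪[L] P, P.subtype.comp k = i :=
    ⟨i.codRestrict P fun m => hiP ⟨m, rfl⟩, Language.Embedding.subtype_comp_codRestrict ..⟩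
  have hemk : X.K.Emb k := AEC.Emb.of_comp (AEC.emb_subtype.2 hP) (hk.symm ▸ hi)
  have hPθ : #P = θ := le_antisymm (by
    rw [← hN]
    exact mk_le_of_injective P.subtype.injective) (by
    rw [← q.card]
    exact mk_le_of_injective k.injective)
  obtain ⟨e, -, hconj⟩ := q.exists_equiv hθ k hemk hPθ ∅ (by
    rw [mk_eq_zero]
    exact (aleph0_pos.trans_le X.hK.1).trans hθ.lt')
  have hemi : X.K.Emb (P.subtype.comp e.toEmbedding) :=
    AEC.Emb.comp (AEC.emb_subtype.2 hP) (AEC.Emb.of_equiv e (q.emb.mem_left))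
  obtain ⟨d, hd⟩ : ∃ d, d ∉ P := by
    by_contra h
    push Not at h
    exact hne (eq_top_iff.2 fun x _ => h x)
  have hr : range (P.subtype.comp e.toEmbedding) = P := by
    rw [range_equiv_comp]
    exact Subtype.range_coe
  obtain ⟨b, hb⟩ := q.exists_real hθ hemi (d := d) (by rw [hr]; exact hd)
  have hbP : b ∉ P := by
    have := q.notMem_of_real hb
    rwa [hr] at this
  refine ⟨b, hbP, ?_⟩
  have h1 := (hconj N P.subtype b (AEC.emb_subtype.2 hP) (by
    rintro ⟨y, rfl⟩
    exact hbP y.2)).2 hb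
  rwa [hk] at h1

end Ctx

end Vale.Agent.P307.R2.H301
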