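import Vale.Agent.P307.R2.H301.Typ
import Vale.Agent.P307.R2.H1.Op

set_option linter.unusedSectionVars false

universe u v w

open FirstOrder Cardinal Set

namespace Vale.Agent.P307.R2.H301

open Vale.Agent.P307 Vale.Agent.P307.H304 Vale.Agent.P307.R2.H287 Language.Structure
  Language.Substructure

variable {L : Language.{u, u}} {X : Ctx L} {θ : Cardinal.{u}}
variable {M N P : Type u} [L.Structure M] [L.Structure N] [L.Structure P]

namespace Ctx

/-- No order property. -/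
theorem exists_op (X : Ctx L) (χ : Cardinal.{u}) (hχ : X.l ≤ χ) : ∃ lam : Cardinal.{u},
    ∀ θ, X.Adm θ → lam < θ → ∀ (N : Type u) [L.Structure N], X.Big θ N →
      ∀ (Λ : Type u) [LinearOrder Λ] [WellFoundedLT Λ], lam ≤ #Λ → ∀ (ι ζ : Type u), #ι ≤ χ →
        #ζ ≤ χ → ∀ (e : Λ → ι → N) (y : Λ → ζ → N), ∃ i j, i < j ∧
          X.E θ (Sum.elim (e i) (y j)) (Sum.elim (e j) (y i)) := by
  classical
  have hχ0 : ℵ₀ ≤ χ := X.hK.1.trans hχ
  have hν : χ ≤ X.α χ := (X.hα χ hχ).1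
  have hνo : X.α χ ≤ H1.opB X.κf (X.α χ) :=
    (H1.le_thr X.hunb _).trans (H1.thr_le_opB X.κf (X.α χ))
  refine ⟨max (arrowFn 2 (2 ^ χ) (H1.opB X.κf (X.α χ))) (H1.opB X.κf (X.α χ)), ?_⟩
  intro θ hθ hlam N _ hN Λ _ _ hΛ ι ζ hι hζ e y
  by_contra hcon
  push Not at hcon
  have hoθ : H1.opB X.κf (X.α χ) < θ := (le_max_right _ _).trans_lt hlam
  have hχθ : χ < θ := (hν.trans hνo).trans_lt hoθ
  have hιζ : #(ι ⊕ ζ) ≤ χ := by
    rw [mk_sum, lift_id, lift_id]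
    exact add_le_of_le hχ0 hι hζ
  obtain ⟨C, hC, c, hc⟩ := exists_code (X := X) hθ (ι := ι ⊕ ζ) hχ hχθ hιζ
  obtain ⟨H, hH, hhom⟩ := arrowFn_spec 2 (2 ^ χ) (H1.opB X.κf (X.α χ)) C hC Λ
    ((le_max_left _ _).trans hΛ) fun a => c N hN (Sum.elim (e (a 0)) (y (a 1)))
  have hHinf : Infinite H := infinite_iff.2 ((hχ0.trans hν).trans (hνo.trans hH))
  obtain ⟨p, q, hpq⟩ : ∃ p q : H, p < q := by
    obtain ⟨p, q, hne⟩ := exists_pair_ne H
    rcases lt_or_gt_of_ne hne with h | h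
    · exact ⟨p, q, h⟩
    · exact ⟨q, p, h⟩
  have hmono : ∀ p q : H, p < q → StrictMono (![(p : Λ), (q : Λ)] : Fin 2 → Λ) := by
    intro p q hpq
    rw [Fin.strictMono_iff_lt_succ]
    intro i
    have : i = 0 := Subsingleton.elim _ _
    subst this
    exact hpq
  have hmem : ∀ p q : H, ∀ i, (![(p : Λ), (q : Λ)] : Fin 2 → Λ) i ∈ H := by
    intro p q i
    fin_cases i
    · exact p.2
    · exact q.2
  have hE : ∀ x z : H, x < z → X.E θ (Sum.elim (e x) (y z)) (Sum.elim (e p) (y q)) := by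
    intro x z hxz
    exact hc N N hN hN _ _ (hhom _ _ (hmono x z hxz) (hmono p q hpq) (hmem x z) (hmem p q))
  have hlν : X.l ≤ X.α χ := hχ.trans hν
  refine H1.no_order X.hK X.hunb hlν hN.1 (hoθ.le.trans hN.2) (X := H) hH (hι.trans hν)
    (hζ.trans hν) (fun x => e x) (fun x => y x) (Sum.elim (e p) (y q)) ?_ ?_
  · intro x z hxz
    exact hE x z hxz _ hlν (hθ.α χ hχθ) (hιζ.trans hν)
  · intro x z hxz h
    have h1 : EqS L (X.α χ) (Sum.elim (e x) (y z)) (Sum.elim (e p) (y q)) :=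
      hE x z hxz _ hlν (hθ.α χ hχθ) (hιζ.trans hν)
    exact hcon x z hxz (E.of_level hθ hN hN hχ hιζ (h1.trans h.symm))

end Ctx

end Vale.Agent.P307.R2.H301
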