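import Vale.Agent.P307.R2.H301.Dk
import Vale.Agent.P307.R2.H301.Cl

set_option linter.unusedSectionVars false

universe u v w

open FirstOrder Cardinal Set

namespace Vale.Agent.P307.R2.H301

open Vale.Agent.P307 Vale.Agent.P307.H304 Vale.Agent.P307.R2.H287 Language.Structure
  Language.Substructure

variable {L : Language.{u, u}} {X : Ctx L} {θ : Cardinal.{u}}
variable {M N P : Type u} [L.Structure M] [L.Structure N] [L.Structure P]

/-- Strictly monotone maps preserve convergence. -/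
theorem Conv.map_range {ρ : Cardinal.{u}} {I J Q : Type u} [LinearOrder I] [LinearOrder J]
    {w : SuccTy ρ → Q → I} (h : Conv w univ) {σ : I → J} (hσ : StrictMono σ) :
    Conv (fun j q => σ (w j q)) (range σ) := by
  refine ⟨?_, fun j j' q q' => ?_⟩
  · rintro q _ ⟨y, rfl⟩
    obtain ⟨j₀, h₀⟩ := h.conv q y trivial
    refine ⟨j₀, fun j hj => ?_⟩
    rw [hσ.le_iff_le, hσ.le_iff_le, hσ.le_iff_le, hσ.le_iff_le]
    exact h₀ j hj
  · rw [hσ.le_iff_le, hσ.le_iff_le]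
    exact h.pat j j' q q'

namespace Ctx

variable {N' N'' : Type u} [L.Structure N'] [L.Structure N'']

theorem SE.symm {χ : Cardinal.{u}} {i : M ↪[L] N} {b : N} {j : M ↪[L] N'} {b' : N'}
    (h : X.SE θ χ i b j b') : X.SE θ χ j b' i b := fun D hD => (h D hD).symm

theorem SE.trans {χ : Cardinal.{u}} {i : M ↪[L] N} {b : N} {j : M ↪[L] N'} {b' : N'}
    {k : M ↪[L] N''} {b'' : N''} (h : X.SE θ χ i b j b') (h' : X.SE θ χ j b' k b'') :
    X.SE θ χ i b k b'' := fun D hD => (h D hD).trans (h' D hD)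

theorem SE.mono {χ χ' : Cardinal.{u}} {i : M ↪[L] N} {b : N} {j : M ↪[L] N'} {b' : N'}
    (h : X.SE θ χ i b j b') (hχ : χ' ≤ χ) : X.SE θ χ' i b j b' :=
  fun D hD => h D (hD.trans hχ)

/-- Restriction of the base. -/
theorem SE.comp_base (hθ : X.Adm θ) {χ : Cardinal.{u}} (hχ : χ < θ) {M' : Type u}
    [L.Structure M'] {i : M ↪[L] N} {b : N} {j : M ↪[L] N'} {b' : N'}
    (h : X.SE θ χ i b j b') (k : M' ↪[L] M) : X.SE θ χ (i.comp k) b (j.comp k) b' := by
  intro D hD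
  have h1 := h (k '' D) (mk_image_le.trans hD)
  have h2 : #((k '' D : Set M) ⊕ PUnit.{u + 1}) < θ := by
    rw [mk_sum, lift_id, lift_id, mk_punit]
    exact add_lt_of_lt hθ.aleph0_lt.le ((mk_image_le.trans hD).trans_lt hχ)
      (one_lt_aleph0.trans hθ.aleph0_lt)
  have h3 := h1.comp hθ h2 (κ := D ⊕ PUnit.{u + 1})
    (Sum.map (fun d => ⟨k d, mem_image_of_mem k d.2⟩) id)
  have e1 : (fun p : D ⊕ PUnit.{u + 1} => adj (fun d : (k '' D : Set M) => i d) b
      (Sum.map (fun d : D => (⟨k d, mem_image_of_mem k d.2⟩ : (k '' D : Set M))) id p)) =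
      adj (fun d : D => (i.comp k) d) b := by
    funext p; rcases p with p | p <;> rfl
  have e2 : (fun p : D ⊕ PUnit.{u + 1} => adj (fun d : (k '' D : Set M) => j d) b'
      (Sum.map (fun d : D => (⟨k d, mem_image_of_mem k d.2⟩ : (k '' D : Set M))) id p)) =
      adj (fun d : D => (j.comp k) d) b' := by
    funext p; rcases p with p | p <;> rfl
  rw [e1, e2] at h3
  exact h3

/-- Tameness for elements over models of size `θ`. -/
theorem se_of_H (hθ : X.Adm2 θ) (hM : X.K.mem M) (hMθ : #M = θ) {i : M ↪[L] N} {b : N}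
    {j : M ↪[L] N'} {b' : N'} (hi : X.K.Emb i) (hj : X.K.Emb j) (h : X.SE θ X.H i b j b')
    (χ : Cardinal.{u}) (hχ : χ < θ) : X.SE θ χ i b j b' := by
  have hθ0 : X.Adm θ := hθ.toAdm
  have hc : #θ.ord.ToType = θ := by rw [mk_toType, card_ord]
  -- the standard model
  obtain ⟨A⟩ := exists_em X.t θ.ord.ToType
  have hAc : #A.N = θ := A.card_eq hθ.lt.le hc
  obtain ⟨e, -⟩ := exists_iso_of_E hθ0 hM A.mem hMθ hAc (ι := PEmpty.{u + 1})
    (x := fun a => a.elim) (y := fun a => a.elim) (by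
      rw [mk_eq_zero]
      exact aleph0_pos.trans hθ0.aleph0_lt)
    (E.empty hθ0 ⟨hM, hMθ.ge⟩ ⟨A.mem, hAc.ge⟩ _ _)
  have hi' : X.K.Emb (i.comp e.symm.toEmbedding) := hi.comp (AEC.Emb.of_equiv e.symm A.mem)
  have hj' : X.K.Emb (j.comp e.symm.toEmbedding) := hj.comp (AEC.Emb.of_equiv e.symm A.mem)
  -- the level
  obtain ⟨ξ, hξ⟩ : ∃ ξ, ξ = max χ X.H := ⟨_, rfl⟩
  have hξθ : ξ < θ := by rw [hξ]; exact max_lt hχ hθ.H
  have hlξ : X.l ≤ ξ := by rw [hξ]; exact X.le_H.trans (le_max_right _ _)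
  have hHξ : X.H ≤ ξ := by rw [hξ]; exact le_max_right _ _
  have hχξ : χ ≤ ξ := by rw [hξ]; exact le_max_left _ _
  obtain ⟨R⟩ := exists_srep hθ.toAdm1 hlξ hξθ A _ hi' b
  obtain ⟨R'⟩ := exists_srep hθ.toAdm1 hlξ hξθ A _ hj' b'
  -- the extension
  obtain ⟨J, _, σ, hJ, hσ⟩ := exists_nice_ext θ hθ0.aleph0_lt.le θ.ord.ToType
  obtain ⟨B⟩ := exists_em X.t J
  obtain ⟨f, hf, hf'⟩ := A.exists_map B σ hσ
  have hY : #(range σ) ≤ θ := mk_range_le.trans hc.le
  obtain ⟨v, hv⟩ := exists_limPat hθ0.aleph0_lt.le hJ hY (R.conv.map_range hσ)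
    ((X.hK.1.trans hlξ).trans R.hχ)
  obtain ⟨v', hv'⟩ := exists_limPat hθ0.aleph0_lt.le hJ hY (R'.conv.map_range hσ)
    ((X.hK.1.trans hlξ).trans R'.hχ)
  have h1 := R.se hθ.toAdm1 hlξ hi' B σ hσ f hf' v hv
  have h2 := R'.se hθ.toAdm1 hlξ hj' B σ hσ f hf' v' hv'
  have h3 : X.SE θ X.H (i.comp e.symm.toEmbedding) b (j.comp e.symm.toEmbedding) b' :=
    h.comp_base hθ0 hθ.H _
  have h4 := X.exists_H.choose_spec.2 θ hθ0 hθ.H A J B σ hσ f hf' R.Q R'.Q R.τ R'.τ v v'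
    (((h1.mono hHξ).symm.trans h3).trans (h2.mono hHξ)) ξ hξθ
  have h5 : X.SE θ ξ (i.comp e.symm.toEmbedding) b (j.comp e.symm.toEmbedding) b' :=
    (h1.trans h4).trans h2.symm
  have h6 := (h5.mono hχξ).comp_base hθ0 hχ e.toEmbedding
  have e3 : (i.comp e.symm.toEmbedding).comp e.toEmbedding = i := by
    ext x
    simp
  have e4 : (j.comp e.symm.toEmbedding).comp e.toEmbedding = j := by
    ext x
    simp
  rw [e3, e4] at h6
  exact h6

end Ctx

end Vale.Agent.P307.R2.H301
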