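import Vale.Agent.P307.R2.H301.Base
import Vale.Agent.P307.R2.H1.Avg

set_option linter.unusedSectionVars false

universe u v w

open FirstOrder Cardinal Set

namespace Vale.Agent.P307.R2.H301

open Vale.Agent.P307 Vale.Agent.P307.H304 Vale.Agent.P307.R2.H287 Vale.Agent.P307.R2.H1
  Language.Structure Language.Substructure

variable {L : Language.{u, u}} {X : Ctx L} {θ : Cardinal.{u}}
variable {M N P : Type u} [L.Structure M] [L.Structure N] [L.Structure P]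

namespace Ctx

theorem Adm.aleph0_lt (h : X.Adm θ) : ℵ₀ < θ := X.hK.1.trans_lt h.lt

theorem Adm.max_lt (h : X.Adm θ) {ρ : Cardinal.{u}} (hρ : ρ < θ) : max X.l ρ < θ :=
  _root_.max_lt h.lt hρ

theorem aleph0_le (X : Ctx L) : ℵ₀ ≤ X.l := X.hK.1

theorem E.symm {ι : Type u} {x : ι → M} {y : ι → N} (h : X.E θ x y) : X.E θ y x :=
  fun ν h1 h2 h3 => (h ν h1 h2 h3).symm

theorem E.trans {ι : Type u} {x : ι → M} {y : ι → N} {z : ι → P} (h : X.E θ x y)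
    (h' : X.E θ y z) : X.E θ x z :=
  fun ν h1 h2 h3 => (h ν h1 h2 h3).trans (h' ν h1 h2 h3)

/-- Reindexing. -/
theorem E.comp (hθ : X.Adm θ) {ι κ : Type u} {x : ι → M} {y : ι → N} (h : X.E θ x y)
    (hι : #ι < θ) (g : κ → ι) : X.E θ (fun k => x (g k)) (fun k => y (g k)) := by
  intro ν h1 h2 h3
  have h4 : EqS L (max ν #ι) x y := h _ (h1.trans (le_max_left _ _)) (_root_.max_lt h2 hι)
    (le_max_right _ _)
  exact (EqS.comp h4 g).mono (X.aleph0_le.trans h1) (le_max_left _ _) h3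

theorem E.of_equiv (hθ : X.Adm θ) (e : M ≃[L] N) {ι : Type u} (x : ι → M) :
    X.E θ x (fun i => e (x i)) := by
  intro ν h1 h2 h3
  refine (good_gr_equiv (X.aleph0_le.trans h1) e (A := range x) (mk_range_le.trans h3)).subset ?_
  rintro _ ⟨i, rfl⟩
  exact mem_gr.2 ⟨⟨i, rfl⟩, rfl⟩

theorem E.refl (hθ : X.Adm θ) {ι : Type u} (x : ι → M) : X.E θ x x :=
  E.of_equiv hθ (Language.Equiv.refl L M) x

/-- Strong embeddings of large members preserve small types. -/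
theorem E.of_emb (hθ : X.Adm θ) (f : M ↪[L] N) (hf : X.K.Emb f) (hM : θ ≤ #M) {ι : Type u}
    (x : ι → M) : X.E θ x (fun i => f (x i)) :=
  fun ν h1 h2 h3 => EqS.map_emb X.hK X.hunb h1 f hf ((hθ.thr ν h2).le.trans hM) h3 x

theorem E.empty (hθ : X.Adm θ) (hM : X.Big θ M) (hN : X.Big θ N) {ι : Type u} [IsEmpty ι]
    (x : ι → M) (y : ι → N) : X.E θ x y := by
  intro ν h1 h2 h3
  refine (good_empty_thr X.hK X.hunb h1 hM.1 hN.1 ((hθ.thr ν h2).le.trans hM.2)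
    ((hθ.thr ν h2).le.trans hN.2)).subset ?_
  rintro _ ⟨i, -⟩
  exact isEmptyElim i

/-- One level suffices. -/
theorem E.of_level (hθ : X.Adm θ) (hM : X.Big θ M) (hN : X.Big θ N) {ι : Type u}
    {ρ : Cardinal.{u}} (hl : X.l ≤ ρ) (hι : #ι ≤ ρ) {x : ι → M} {y : ι → N}
    (h : EqS L (X.α ρ) x y) : X.E θ x y := by
  intro ν h1 h2 h3
  by_cases hρ : X.α ρ ≤ ν
  · exact (X.hα ρ hl).2 ν hρ M N hM.1 hN.1 ((hθ.thr ν h2).le.trans hM.2)
      ((hθ.thr ν h2).le.trans hN.2) _ (mk_range_le.trans hι) h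
  · exact h.mono (X.aleph0_le.trans h1) (not_le.1 hρ).le h3

/-- Back and forth. -/
theorem E.extend (hθ : X.Adm θ) (hM : X.Big θ M) (hN : X.Big θ N) {ι ζ : Type u} (hι : #ι < θ)
    (hζ : #ζ < θ) {x : ι → M} {y : ι → N} (h : X.E θ x y) (z : ζ → M) :
    ∃ w : ζ → N, X.E θ (Sum.elim x z) (Sum.elim y w) := by
  let ρ := max X.l (max #ι #ζ)
  have hρ : ρ < θ := hθ.max_lt (_root_.max_lt hι hζ)
  have hl : X.l ≤ ρ := le_max_left _ _
  have hι' : #ι ≤ ρ := (le_max_left _ _).trans (le_max_right _ _)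
  have hζ' : #ζ ≤ ρ := (le_max_right _ _).trans (le_max_right _ _)
  have hρα : ρ ≤ X.α ρ := (X.hα ρ hl).1
  obtain ⟨w, hw⟩ := EqS.exists_ext (h (X.α ρ) (hl.trans hρα) (hθ.α ρ hρ) (hι'.trans hρα))
    (hζ'.trans hρα) z
  refine ⟨w, E.of_level hθ hM hN hl ?_ hw⟩
  rw [mk_sum, lift_id, lift_id]
  exact add_le_of_le (X.aleph0_le.trans hl) hι' hζ'

theorem E.eq_iff (hθ : X.Adm θ) {ι : Type u} (hι : #ι < θ) {x : ι → M} {y : ι → N}
    (h : X.E θ x y) (a b : ι) : x a = x b ↔ y a = y b := by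
  have h1 : EqS L (max X.l #ι) x y := h _ (le_max_left _ _) (hθ.max_lt hι) (le_max_right _ _)
  exact h1.1.eq_iff (x a, y a) ⟨a, rfl⟩ (x b, y b) ⟨b, rfl⟩

theorem mk_nat_le (X : Ctx L) : #(ULift.{u} ℕ) ≤ X.l := by
  rw [mk_uLift, mk_nat, lift_aleph0]
  exact X.aleph0_le

theorem big_em (hθ : X.Adm θ) {I : Type u} [LinearOrder I] (A : EM X.t I) (hI : θ ≤ #I) :
    X.Big θ A.N := ⟨A.mem, hI.trans A.le_card⟩

/-- The small types of `ι`-sequences are coded by a small set. -/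
theorem exists_code (hθ : X.Adm θ) {ι : Type u} {χ : Cardinal.{u}} (hl : X.l ≤ χ) (hχ : χ < θ)
    (hι : #ι ≤ χ) : ∃ (C : Type u), #C ≤ 2 ^ χ ∧ ∃ c : ∀ (M : Type u) [L.Structure M],
      X.Big θ M → (ι → M) → C, ∀ (M N : Type u) [L.Structure M] [L.Structure N]
      (hM : X.Big θ M) (hN : X.Big θ N) (x : ι → M) (y : ι → N), c M hM x = c N hN y →
        X.E θ x y := by
  have hχ0 : ℵ₀ ≤ χ := X.aleph0_le.trans hl
  obtain ⟨A⟩ := exists_em X.t θ.ord.ToType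
  have hA : X.Big θ A.N := big_em hθ A (by rw [mk_ord_toType])
  have hne : Nonempty θ.ord.ToType := by
    rw [← mk_ne_zero_iff, mk_ord_toType]
    exact (pos_of_gt hχ).ne'
  choose s q hsq using exists_nat_term A
  have h1 : ∀ (M : Type u) [L.Structure M], X.Big θ M → ∀ x : ι → M, ∃ d : ι → A.N,
      X.E θ x d := by
    intro M _ hM x
    have h2 : X.E θ (fun i : PEmpty.{u + 1} => (i.elim : M)) (fun i => (i.elim : A.N)) :=
      E.empty hθ hM hA _ _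
    obtain ⟨w, hw⟩ := E.extend hθ hM hA (by simpa using pos_of_gt hχ) (hι.trans_lt hχ) h2 x
    refine ⟨w, ?_⟩
    have h3 := E.comp hθ hw (by
      rw [mk_sum, lift_id, lift_id, mk_pempty, zero_add]
      exact hι.trans_lt hχ) Sum.inr
    exact h3
  let d : ∀ (M : Type u) [L.Structure M], X.Big θ M → (ι → M) → ι → A.N :=
    fun M _ hM x => (h1 M hM x).choose
  have hd : ∀ (M : Type u) [L.Structure M] (hM : X.Big θ M) (x : ι → M), X.E θ x (d M hM x) :=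
    fun M _ hM x => (h1 M hM x).choose_spec
  let code : (ι → A.N) → (ι → (exLang L X.t.Λ).Term (ULift.{u} ℕ)) ×
    Set ((ι × ULift.{u} ℕ) × (ι × ULift.{u} ℕ)) := fun y => (fun i => s (y i),
      {p | q (y p.1.1) p.1.2 ≤ q (y p.2.1) p.2.2})
  have hN : #(ι × ULift.{u} ℕ) ≤ χ := by
    rw [mk_prod, lift_id, lift_id]
    exact (mul_le_mul' hι (X.mk_nat_le.trans hl)).trans (mul_eq_self hχ0).le
  refine ⟨(ι → (exLang L X.t.Λ).Term (ULift.{u} ℕ)) ×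
    Set ((ι × ULift.{u} ℕ) × (ι × ULift.{u} ℕ)), ?_, fun M _ hM x => code (d M hM x), ?_⟩
  · have h2 : #(ι → (exLang L X.t.Λ).Term (ULift.{u} ℕ)) ≤ 2 ^ χ := by
      have h3 : #(ι → (exLang L X.t.Λ).Term (ULift.{u} ℕ)) =
          #((exLang L X.t.Λ).Term (ULift.{u} ℕ)) ^ #ι := by simp
      rw [h3]
      have h4 : #((exLang L X.t.Λ).Term (ULift.{u} ℕ)) ≤ χ :=
        mk_term_le hχ0 (X.t.hx.trans hl) _ (X.mk_nat_le.trans hl)
      refine (power_le_power_right h4).trans ?_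
      refine (power_le_power_left (aleph0_pos.trans_le hχ0).ne' hι).trans ?_
      rw [power_self_eq hχ0]
    have h3 : #(Set ((ι × ULift.{u} ℕ) × (ι × ULift.{u} ℕ))) ≤ 2 ^ χ := by
      rw [mk_set]
      refine power_le_power_left two_ne_zero ?_
      rw [mk_prod, lift_id]
      exact (mul_le_mul' hN hN).trans (mul_eq_self hχ0).le
    rw [mk_prod, lift_id, lift_id]
    exact (mul_le_mul' h2 h3).trans (mul_eq_self (hχ0.trans (cantor χ).le)).le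
  · intro M N _ _ hM hN' x y h
    refine (hd M hM x).trans (E.trans ?_ (hd N hN' y).symm)
    have h2 : ∀ i, s (d M hM x i) = s (d N hN' y i) := fun i => congrFun (congrArg Prod.fst h) i
    have h3 : ∀ p p' : ι × ULift.{u} ℕ, q (d M hM x p.1) p.2 ≤ q (d M hM x p'.1) p'.2 ↔
        q (d N hN' y p.1) p.2 ≤ q (d N hN' y p'.1) p'.2 := by
      intro p p'
      have h4 : (p, p') ∈ (code (d M hM x)).2 ↔ (p, p') ∈ (code (d N hN' y)).2 := by
        change (p, p') ∈ (code (d M hM x)).2 ↔ (p, p') ∈ (code (d N hN' y)).2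
        rw [show code (d M hM x) = code (d N hN' y) from h]
      exact h4
    intro ν h4 h5 h6
    have h7 : thr X.κf ν ≤ #A.N := (hθ.thr ν h5).le.trans hA.2
    have hν0 : ℵ₀ ≤ ν := X.aleph0_le.trans h4
    have h8 := eqS_pat X.hK X.hunb h4 A A h7 h7 (Q := ι × ULift.{u} ℕ)
      (mk_prod_nat_le hν0 h6) (fun p => q (d M hM x p.1) p.2) (fun p => q (d N hN' y p.1) p.2) h3
      h6 (fun i => (s (d M hM x i)).relabel fun k => (i, k))
    have h9 : (fun i => ((s (d M hM x i)).relabel fun k => ((i, k) : ι × ULift.{u} ℕ)).realize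
        fun p : ι × ULift.{u} ℕ => A.c (q (d M hM x p.1) p.2)) = d M hM x := by
      funext i
      rw [Language.Term.realize_relabel]
      exact hsq (d M hM x i)
    have h10 : (fun i => ((s (d M hM x i)).relabel fun k => ((i, k) : ι × ULift.{u} ℕ)).realize
        fun p : ι × ULift.{u} ℕ => A.c (q (d N hN' y p.1) p.2)) = d N hN' y := by
      funext i
      rw [Language.Term.realize_relabel, h2]
      exact hsq (d N hN' y i)
    rw [h9, h10] at h8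
    exact h8

/-- The relation `R` preserves small types. -/
def ER (X : Ctx L) (θ : Cardinal.{u}) (R : Set (M × N)) : Prop :=
  X.E θ (fun p : R => p.1.1) (fun p : R => p.1.2)

theorem ER.mono (hθ : X.Adm θ) {R R' : Set (M × N)} (h : X.ER θ R') (hR' : #R' < θ)
    (hR : R ⊆ R') : X.ER θ R :=
  E.comp hθ h hR' (fun p : R => (⟨p.1, hR p.2⟩ : R'))

theorem ER.of_E (hθ : X.Adm θ) {ι : Type u} {x : ι → M} {y : ι → N} (h : X.E θ x y)
    (hι : #ι < θ) : X.ER θ (range fun i => (x i, y i)) := by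
  have h1 : ∀ p : (range fun i => (x i, y i)), ∃ i, (x i, y i) = p.1 := fun p => p.2
  choose g hg using h1
  have h2 := E.comp hθ h hι g
  have h3 : (fun p => x (g p)) = fun p : (range fun i => (x i, y i)) => p.1.1 :=
    funext fun p => congrArg Prod.fst (hg p)
  have h4 : (fun p => y (g p)) = fun p : (range fun i => (x i, y i)) => p.1.2 :=
    funext fun p => congrArg Prod.snd (hg p)
  rw [h3, h4] at h2
  exact h2

theorem ER.to_E (hθ : X.Adm θ) {R : Set (M × N)} (h : X.ER θ R) (hR : #R < θ) {ι : Type u}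
    {x : ι → M} {y : ι → N} (hxy : ∀ i, (x i, y i) ∈ R) : X.E θ x y :=
  E.comp hθ h hR (fun i => (⟨_, hxy i⟩ : R))

theorem ER.isPI (hθ : X.Adm θ) {R : Set (M × N)} (h : X.ER θ R) (hR : #R < θ) : IsPI L R := by
  have h1 : EqS L (max X.l #R) (fun p : R => p.1.1) (fun p : R => p.1.2) :=
    h _ (le_max_left _ _) (hθ.max_lt hR) (le_max_right _ _)
  refine h1.1.mono ?_
  rintro p hp
  exact ⟨⟨p, hp⟩, rfl⟩

theorem ER.swap (hθ : X.Adm θ) {R : Set (M × N)} (h : X.ER θ R) (hR : #R < θ) :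
    X.ER θ (Prod.swap ⁻¹' R : Set (N × M)) :=
  (E.comp hθ h hR (fun p : (Prod.swap ⁻¹' R : Set (N × M)) => (⟨p.1.swap, p.2⟩ : R))).symm

theorem ER.exists_left (hθ : X.Adm θ) (hM : X.Big θ M) (hN : X.Big θ N) {R : Set (M × N)}
    (h : X.ER θ R) (hR : #R < θ) (A : Set M) (hA : #A < θ) :
    ∃ R' : Set (M × N), R ⊆ R' ∧ #R' < θ ∧ X.ER θ R' ∧ ∀ a ∈ A, ∃ b, (a, b) ∈ R' := by
  obtain ⟨w, hw⟩ := E.extend hθ hM hN hR hA h (fun a : A => a.1)
  have h1 : #(R ⊕ A) < θ := by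
    rw [mk_sum, lift_id, lift_id]
    exact add_lt_of_lt hθ.aleph0_lt.le hR hA
  refine ⟨_, ?_, mk_range_le.trans_lt h1, ER.of_E hθ hw h1, ?_⟩
  · intro p hp
    exact ⟨Sum.inl ⟨p, hp⟩, rfl⟩
  · intro a ha
    exact ⟨w ⟨a, ha⟩, Sum.inr ⟨a, ha⟩, rfl⟩

theorem ER.exists_right (hθ : X.Adm θ) (hM : X.Big θ M) (hN : X.Big θ N) {R : Set (M × N)}
    (h : X.ER θ R) (hR : #R < θ) (B : Set N) (hB : #B < θ) :
    ∃ R' : Set (M × N), R ⊆ R' ∧ #R' < θ ∧ X.ER θ R' ∧ ∀ b ∈ B, ∃ a, (a, b) ∈ R' := by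
  have hsw : #(Prod.swap ⁻¹' R : Set (N × M)) < θ := by
    rw [mk_swap]
    exact hR
  obtain ⟨R', h1, h2, h3, h4⟩ := ER.exists_left hθ hN hM (h.swap hθ hR) hsw B hB
  have h2' : #(Prod.swap ⁻¹' R' : Set (M × N)) < θ := by
    rw [mk_swap]
    exact h2
  exact ⟨Prod.swap ⁻¹' R', fun p hp => h1 (a := p.swap) hp, h2', h3.swap hθ h2, h4⟩

theorem ER.exists_both (hθ : X.Adm θ) (hM : X.Big θ M) (hN : X.Big θ N) {R : Set (M × N)}
    (h : X.ER θ R) (hR : #R < θ) (A : Set M) (hA : #A < θ) (B : Set N) (hB : #B < θ) :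
    ∃ R' : Set (M × N), R ⊆ R' ∧ #R' < θ ∧ X.ER θ R' ∧ (∀ a ∈ A, ∃ b, (a, b) ∈ R') ∧
      ∀ b ∈ B, ∃ a, (a, b) ∈ R' := by
  obtain ⟨R₁, h1, h2, h3, h4⟩ := ER.exists_left hθ hM hN h hR A hA
  obtain ⟨R₂, h5, h6, h7, h8⟩ := ER.exists_right hθ hM hN h3 h2 B hB
  refine ⟨R₂, h1.trans h5, h6, h7, fun a ha => ?_, h8⟩
  obtain ⟨b, hb⟩ := h4 a ha
  exact ⟨b, h5 hb⟩

/-- Increasing unions of countably many partial isomorphisms. -/
theorem isPI_iUnion {R : ℕ → Set (M × N)} (hR : Monotone R) (h : ∀ n, IsPI L (R n)) :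
    IsPI L (⋃ n, R n) := by
  have hfin : ∀ {k : ℕ} (x : Fin k → M × N) (q : M × N), (∀ i, x i ∈ ⋃ n, R n) →
      q ∈ ⋃ n, R n → ∃ n, (∀ i, x i ∈ R n) ∧ q ∈ R n := by
    intro k x q hx hq
    choose g hg using fun i => mem_iUnion.1 (hx i)
    obtain ⟨m, hm⟩ := mem_iUnion.1 hq
    refine ⟨max m (Finset.univ.sup g), fun i => ?_, hR (le_max_left _ _) hm⟩
    exact hR ((Finset.le_sup (Finset.mem_univ i)).trans (le_max_right _ _)) (hg i)
  constructor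
  · intro p hp q hq
    obtain ⟨n, h1, h2⟩ := hfin (k := 1) (fun _ => p) q (fun _ => hp) hq
    exact (h n).eq_iff p (h1 0) q h2
  · intro k f x hx q hq
    obtain ⟨n, h1, h2⟩ := hfin x q hx hq
    exact (h n).fun_iff f x h1 q h2
  · intro k r x hx
    obtain ⟨n, h1⟩ : ∃ n, ∀ i, x i ∈ R n := by
      choose g hg using fun i => mem_iUnion.1 (hx i)
      exact ⟨Finset.univ.sup g, fun i => hR (Finset.le_sup (Finset.mem_univ i)) (hg i)⟩
    exact (h n).rel_iff r x h1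

/-- The back and forth of length `ω`. -/
theorem ER.exists_seq (hθ : X.Adm θ) (hM : X.Big θ M) (hN : X.Big θ N) {R : Set (M × N)}
    (h : X.ER θ R) (hR : #R < θ) (A : Set (M × N) → Set M) (B : Set (M × N) → Set N)
    (hA : ∀ R : Set (M × N), #R < θ → #(A R) < θ)
    (hB : ∀ R : Set (M × N), #R < θ → #(B R) < θ) :
    ∃ S : ℕ → Set (M × N), S 0 = R ∧ Monotone S ∧ (∀ n, #(S n) < θ) ∧ (∀ n, X.ER θ (S n)) ∧
      (∀ n, ∀ a ∈ A (S n), ∃ b, (a, b) ∈ S (n + 1)) ∧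
      ∀ n, ∀ b ∈ B (S n), ∃ a, (a, b) ∈ S (n + 1) := by
  have step : ∀ R : {R : Set (M × N) // #R < θ ∧ X.ER θ R}, ∃ R' : {R : Set (M × N) //
      #R < θ ∧ X.ER θ R}, R.1 ⊆ R'.1 ∧ (∀ a ∈ A R.1, ∃ b, (a, b) ∈ R'.1) ∧
      ∀ b ∈ B R.1, ∃ a, (a, b) ∈ R'.1 := by
    rintro ⟨R, h1, h2⟩
    obtain ⟨R', h3, h4, h5, h6, h7⟩ := ER.exists_both hθ hM hN h2 h1 (A R) (hA R h1) (B R)
      (hB R h1)
    exact ⟨⟨R', h4, h5⟩, h3, h6, h7⟩
  choose nx hnx using step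
  let S : ℕ → {R : Set (M × N) // #R < θ ∧ X.ER θ R} := fun n => Nat.rec ⟨R, hR, h⟩
    (fun _ R => nx R) n
  refine ⟨fun n => (S n).1, rfl, monotone_nat_of_le_succ fun n => (hnx (S n)).1,
    fun n => (S n).2.1, fun n => (S n).2.2, fun n => (hnx (S n)).2.1, fun n => (hnx (S n)).2.2⟩

/-- Homogeneity in size `θ`. -/
theorem exists_iso_of_E (hθ : X.Adm θ) (hM : X.K.mem M) (hN : X.K.mem N) (hMθ : #M = θ)
    (hNθ : #N = θ) {ι : Type u} (hι : #ι < θ) {x : ι → M} {y : ι → N} (h : X.E θ x y) :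
    ∃ e : M ≃[L] N, ∀ i, e (x i) = y i := by
  have hM' : X.Big θ M := ⟨hM, hMθ.ge⟩
  have hN' : X.Big θ N := ⟨hN, hNθ.ge⟩
  obtain ⟨A, hA1, hA2, hA3⟩ := exists_filtration hMθ hθ.aleph0_lt.le hθ.cof
  obtain ⟨B, hB1, hB2, hB3⟩ := exists_filtration hNθ hθ.aleph0_lt.le hθ.cof
  have step : ∀ (n : ℕ) (R : {R : Set (M × N) // #R < θ ∧ X.ER θ R}), ∃ R' : {R : Set (M × N) //
      #R < θ ∧ X.ER θ R}, R.1 ⊆ R'.1 ∧ (∀ a ∈ A n, ∃ b, (a, b) ∈ R'.1) ∧
      ∀ b ∈ B n, ∃ a, (a, b) ∈ R'.1 := by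
    rintro n ⟨R, h1, h2⟩
    obtain ⟨R', h3, h4, h5, h6, h7⟩ := ER.exists_both hθ hM' hN' h2 h1 (A n) (hA2 n) (B n) (hB2 n)
    exact ⟨⟨R', h4, h5⟩, h3, h6, h7⟩
  choose nx hnx using step
  let S : ℕ → {R : Set (M × N) // #R < θ ∧ X.ER θ R} := fun n => Nat.rec
    ⟨_, mk_range_le.trans_lt hι, ER.of_E hθ h hι⟩ (fun n R => nx n R) n
  have hS : ∀ n, S (n + 1) = nx n (S n) := fun n => rfl
  have hmono : Monotone fun n => (S n).1 := monotone_nat_of_le_succ fun n => (hnx n (S n)).1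
  have hPI := isPI_iUnion (L := L) hmono fun n => ER.isPI hθ (S n).2.2 (S n).2.1
  obtain ⟨e, he⟩ := hPI.exists_equiv
    (fun x => by
      obtain ⟨n, hn⟩ := hA3 x
      obtain ⟨y, hy⟩ := (hnx n (S n)).2.1 x hn
      exact ⟨y, mem_iUnion.2 ⟨n + 1, hy⟩⟩)
    (fun y => by
      obtain ⟨n, hn⟩ := hB3 y
      obtain ⟨x, hx⟩ := (hnx n (S n)).2.2 y hn
      exact ⟨x, mem_iUnion.2 ⟨n + 1, hx⟩⟩)
  refine ⟨e, fun i => ?_⟩
  have h1 : (x i, y i) ∈ ⋃ n, (S n).1 := mem_iUnion.2 ⟨0, ⟨i, rfl⟩⟩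
  have h2 := he (x i)
  exact ((hPI.eq_iff (x i, e (x i)) h2 (x i, y i) h1).1 rfl)

/-- Types of tuples in EM models depend on the order pattern only. -/
theorem E.of_pattern (hθ : X.Adm θ) {I J : Type u} [LinearOrder I] [LinearOrder J]
    (A : EM X.t I) (B : EM X.t J) (hI : θ ≤ #I) (hJ : θ ≤ #J) {ι Q : Type u} (hι : #ι < θ)
    (hQ : #Q < θ) (s : ι → (exLang L X.t.Λ).Term Q) (w : Q → I) (w' : Q → J)
    (hw : ∀ p q, w p ≤ w q ↔ w' p ≤ w' q) :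
    X.E θ (fun i => (s i).realize fun q => A.c (w q)) (fun i => (s i).realize fun q => B.c (w' q)) := by
  have hA := big_em hθ A hI
  have hB := big_em hθ B hJ
  let ρ := max X.l (max #ι #Q)
  have hρ : ρ < θ := hθ.max_lt (_root_.max_lt hι hQ)
  have hl : X.l ≤ ρ := le_max_left _ _
  have hι' : #ι ≤ ρ := (le_max_left _ _).trans (le_max_right _ _)
  have hQ' : #Q ≤ ρ := (le_max_right _ _).trans (le_max_right _ _)
  have hρα : ρ ≤ X.α ρ := (X.hα ρ hl).1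
  refine E.of_level hθ hA hB hl hι' ?_
  exact eqS_pat X.hK X.hunb (hl.trans hρα) A B ((hθ.thr _ (hθ.α ρ hρ)).le.trans hA.2)
    ((hθ.thr _ (hθ.α ρ hρ)).le.trans hB.2) (hQ'.trans hρα) w w' hw (hι'.trans hρα) s

theorem Big.of_emb (f : M ↪[L] N) (hf : X.K.Emb f) (hM : θ ≤ #M) : X.Big θ N :=
  ⟨hf.mem_right, hM.trans (mk_le_of_injective f.injective)⟩

theorem Big.of_emb_left (f : M ↪[L] N) (hf : X.K.Emb f) (hM : θ ≤ #M) : X.Big θ M :=
  ⟨hf.mem_left, hM⟩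

end Ctx

end Vale.Agent.P307.R2.H301
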