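import Vale.Agent.P307.R2.H301.Fin
import Vale.Agent.P307.R2.H718.Final

set_option linter.unusedSectionVars false

universe u v w

open FirstOrder Cardinal Set

namespace Vale.Agent.P307.R2.H301

open Vale.Agent.P307 Vale.Agent.P307.H304 Vale.Agent.P307.R2.H287 Language.Structure
  Language.Substructure

variable {L : Language.{u, u}}

theorem Inter.mono {K : AEC L} {x y : Cardinal.{u}} (h : Inter K x) (hxy : x ≤ y) : Inter K y :=
  fun N _ hN A hA => h N hN A (hxy.trans hA)

/-- A class which admits intersections and has unboundedly many categoricity cardinals is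
categorical in all large cardinals. -/
theorem eventually_categorical (K : AEC L) {x : Cardinal.{u}} (hI : Inter K x)
    (hunb : ∀ ν, ∃ κ, ν < κ ∧ K.CategoricalIn κ) : ∃ μ, ∀ κ, μ ≤ κ → K.CategoricalIn κ := by
  choose κf hκf using hunb
  have hK : K.IsLS (max K.LS x) := AEC.isLS_of_LS_le (le_max_left _ _)
  obtain ⟨t⟩ := exists_tpl' hK hκf
  obtain ⟨α, hα, -⟩ := exists_alpha_fun hK hκf
  let X : Ctx L :=
    { K := K, l := max K.LS x, κf := κf, α := α, hK := hK, hunb := hκf, hα := hα, t := t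
      hI := hI.mono (le_max_right _ _) }
  obtain ⟨θ, -, hθ⟩ := X.exists_adm3 0
  exact ⟨θ, fun χ hχ => X.categoricalIn hθ χ hχ⟩

/-- The uniform statement. -/
theorem q1_inter (l : Cardinal.{u}) : ∃ μ, l ≤ μ ∧ ∀ (L : Language.{u, u}) (K : AEC L),
    K.LS ≤ l → (∃ x, Inter K x) → (∃ κ, μ ≤ κ ∧ K.CategoricalIn κ) →
      ∀ κ, μ ≤ κ → K.CategoricalIn κ := by
  obtain ⟨μ₀, hμ₀, h1⟩ := H67.exists_threshold l
  obtain ⟨μ₁, -, h2⟩ := H718.exists_unbounded l
  refine ⟨max μ₀ μ₁, hμ₀.trans (le_max_left _ _), fun L K hK ⟨x, hx⟩ ⟨κ, hκ, hcat⟩ κ' hκ' => ?_⟩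
  exact h1 L K hK (eventually_categorical K hx
    (h2 L K hK κ ((le_max_right _ _).trans hκ) hcat)) κ' ((le_max_left _ _).trans hκ')

end Vale.Agent.P307.R2.H301
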